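import Vale.Agent.P057H.Defs

/-! The first model has many progressions. -/

set_option linter.all false

open Finset
open scoped BigOperators Classical

namespace Vale.Agent.P057H.H69

open Vale.Agent.P057Z Vale.Agent.P057L

variable {j M : ℕ} [NeZero M]

theorem nc2 {h : ZMod M → ℝ} {ε : ℝ} (hN : Nc j M h ε) (a b : ZMod M → ℝ) (ha : ∀ x, |a x| ≤ 1)
    (hb : ∀ x, |b x| ≤ 1) : |∑ v, ∑ x, a (x - v) * b v * h x| ≤ ε * (M : ℝ) ^ 2 := by
  have M0 : (0 : ℝ) < M := Nat.cast_pos.2 (NeZero.pos M)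
  have h1 := hN (fun W y => a (∑ i, W i + y)) (fun _ v => b v) (fun _ _ => 1) (fun _ _ => ha _)
    (fun _ _ => hb _) (fun _ _ => by simp)
  have h2 : ∀ W : Fin j → ZMod M, ∑ p : ZMod M × ZMod M,
      a (∑ i, W i + p.1) * b p.2 * h (∑ i, W i + p.1 + p.2) =
      ∑ v, ∑ x, a (x - v) * b v * h x := fun W => by
    rw [Fintype.sum_prod_type_right]
    refine sum_congr rfl fun v _ => ?_
    rw [← Equiv.sum_comp (Equiv.addLeft (∑ i, W i + v)) (fun x => a (x - v) * b v * h x)]
    refine sum_congr rfl fun y _ => ?_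
    simp only [Equiv.coe_addLeft]
    rw [show ∑ i, W i + v + y - v = ∑ i, W i + y by ring,
      show ∑ i, W i + v + y = ∑ i, W i + y + v by ring]
  simp only [prod_const_one, mul_one, sc] at h1
  rw [expect_eq_sum_div_card, Fintype.sum_prod_type, sum_congr rfl fun W _ => h2 W, sum_const,
    nsmul_eq_mul, card_univ, card_univ, Fintype.card_prod, Fintype.card_prod, ZMod.card] at h1
  have c0 : (0 : ℝ) < Fintype.card (Fin j → ZMod M) := Nat.cast_pos.2 Fintype.card_pos
  push_cast at h1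
  rwa [mul_div_mul_left _ _ c0.ne', abs_div, abs_of_pos (mul_pos M0 M0),
    div_le_iff₀ (mul_pos M0 M0), ← sq] at h1

theorem cardv (s : Finset ℕ) : #{x : ZMod M | x.val ∈ s} ≤ #s :=
  card_le_card_of_injOn ZMod.val (fun x hx => (mem_filter.1 hx).2)
    fun x _ y _ e => ZMod.val_injective M e

theorem cardl {X : ℕ} (h : X ≤ M) : X ≤ #{x : ZMod M | x.val < X} := by
  refine (card_range X).symm.trans_le (card_le_card_of_injOn (fun n : ℕ => (n : ZMod M))
    (fun n hn => ?_) fun n hn m hm e => ?_)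
  · have := mem_range.1 hn
    refine mem_coe.2 (mem_filter.2 ⟨mem_univ _, ?_⟩)
    rwa [ZMod.val_natCast_of_lt (by omega)]
  · have a := mem_range.1 hn
    have b := mem_range.1 hm
    have := congrArg ZMod.val e
    rwa [ZMod.val_natCast_of_lt (by omega), ZMod.val_natCast_of_lt (by omega)] at this

theorem sumv (s : Finset ℕ) : ∑ x : ZMod M, (if x.val ∈ s then (1 : ℝ) else 0) ≤ #s := by
  rw [sum_boole]
  exact_mod_cast cardv s

/-- the mass of the model in the middle of the complement -/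
theorem mid {N l : ℕ} {f g : ZMod M → ℝ} {ε : ℝ} (hl : l ≤ M) (hf : ∀ x, N ≤ x.val → f x = 0)
    (hg : ∀ x, 0 ≤ g x) (hN : Nc j M (fun x => f x - g x) ε) :
    l * ∑ x : ZMod M, (if N + l ≤ x.val ∧ x.val + l ≤ M then g x else 0) ≤ ε * (M : ℝ) ^ 2 := by
  have h1 := nc2 hN (fun y => if ∀ v : ZMod M, v.val < l → N ≤ (y + v).val then 1 else 0)
    (fun v => if v.val < l then 1 else 0) (fun _ => by split_ifs <;> simp)
    fun _ => by split_ifs <;> simp
  refine le_trans ?_ ((neg_le_abs _).trans h1)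
  have s0 : 0 ≤ ∑ x : ZMod M, (if N + l ≤ x.val ∧ x.val + l ≤ M then g x else 0) :=
    sum_nonneg fun x _ => by split_ifs <;> simp [hg]
  have c : (l : ℝ) ≤ ∑ v : ZMod M, (if v.val < l then (1 : ℝ) else 0) := by
    rw [sum_boole]
    exact_mod_cast cardl hl
  refine (mul_le_mul_of_nonneg_right c s0).trans ?_
  rw [sum_mul, ← sum_neg_distrib]
  refine sum_le_sum fun v _ => ?_
  rw [mul_sum, ← sum_neg_distrib]
  refine sum_le_sum fun x _ => ?_
  by_cases hv : v.val < l
  · by_cases hI : ∀ v' : ZMod M, v'.val < l → N ≤ (x - v + v').val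
    · have := hf x (by simpa using hI v hv)
      rw [if_pos hv, if_pos hI, this]
      split_ifs <;> simp [hg]
    · rw [if_pos hv, if_neg hI, if_neg]
      · simp
      rintro ⟨a, b⟩
      refine hI fun v' hv' => ?_
      have e : x - v + v' = ((x.val - v.val + v'.val : ℕ) : ZMod M) := by
        rw [Nat.cast_add, Nat.cast_sub (by omega)]
        simp
      rw [e, ZMod.val_natCast_of_lt (by omega)]
      omega
  · simp [hv]

theorem bad {N : ℕ} {f g : ZMod M → ℝ} {η : ℝ} (h0 : 0 < η) (h1 : η ≤ 1 / 10) (hN : 2 ≤ η * N)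
    (hM : 2 * N ≤ M) (hM' : M ≤ 4 * N) (hf : ∀ x, N ≤ x.val → f x = 0) (hs : ∑ x, f x = N)
    (hg : ∀ x, 0 ≤ g x ∧ g x ≤ (1 + η) ^ 2) (hc : Nc j M (fun x => f x - g x) (η ^ 2)) :
    ∑ x : ZMod M, (if x.val < N ∧ g x < 1 / 2 then (1 : ℝ) else 0) ≤ 80 * η * N := by
  have M0 : (0 : ℝ) < M := Nat.cast_pos.2 (NeZero.pos M)
  have N0 : (0 : ℝ) ≤ N := Nat.cast_nonneg _
  have M4 : (M : ℝ) ≤ 4 * N := by exact_mod_cast hM'
  have M2 : 2 * (N : ℝ) ≤ M := by exact_mod_cast hM
  obtain ⟨l, l1, l2⟩ : ∃ l : ℕ, (l : ℝ) ≤ η * N ∧ η * N ≤ 2 * l :=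
    ⟨⌊η * N⌋₊, Nat.floor_le (by positivity), by
      have := Nat.lt_floor_add_one (η * N)
      linarith⟩
  have lM : l ≤ M := by
    have : (l : ℝ) ≤ M := by nlinarith
    exact_mod_cast this
  have a1 := mid lM hf (fun x => (hg x).1) hc
  have a2 := nc2 hc (fun _ => 1) (fun _ => 1) (by simp) (by simp)
  simp only [one_mul, sum_const, card_univ, ZMod.card, nsmul_eq_mul, sum_sub_distrib, hs] at a2
  have a3 : (N : ℝ) - ∑ x, g x ≤ η ^ 2 * M := by
    have := (le_abs_self _).trans a2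
    refine le_of_mul_le_mul_left ?_ M0
    nlinarith
  set S := ∑ x : ZMod M, (if N + l ≤ x.val ∧ x.val + l ≤ M then g x else 0) with hS
  have a4 : S ≤ 32 * η * N := by
    have l0 : (0 : ℝ) < l := by linarith
    refine le_of_mul_le_mul_left (a1.trans ?_) l0
    have : (M : ℝ) ^ 2 ≤ (4 * N) ^ 2 := by gcongr
    have b : 0 ≤ η * N := by positivity
    nlinarith [mul_le_mul_of_nonneg_left this (sq_nonneg η), mul_le_mul_of_nonneg_left l2 b]
  have a5 : ∀ x : ZMod M, g x ≤ (1 + 3 * η) * (if x.val ∈ range N then 1 else 0) -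
      1 / 2 * (if x.val < N ∧ g x < 1 / 2 then (1 : ℝ) else 0) +
      2 * (if x.val ∈ Ico N (N + l) then 1 else 0) + 2 * (if x.val ∈ Ico (M - l) M then 1 else 0) +
      if N + l ≤ x.val ∧ x.val + l ≤ M then g x else 0 := fun x => by
    obtain ⟨g0, g1⟩ := hg x
    have g2 : g x ≤ 1 + 3 * η := by nlinarith
    have v := ZMod.val_lt x
    simp only [mem_range, mem_Ico]
    split_ifs <;> first | omega | nlinarith | (simp_all; nlinarith)
  have a6 := sum_le_sum fun x (_ : x ∈ univ) => a5 x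
  simp only [sum_add_distrib, sum_sub_distrib, ← mul_sum, ← hS] at a6
  have b1 := sumv (M := M) (range N)
  have b2 := sumv (M := M) (Ico N (N + l))
  have b3 := sumv (M := M) (Ico (M - l) M)
  rw [card_range] at b1
  rw [Nat.card_Ico, Nat.add_sub_cancel_left] at b2
  rw [Nat.card_Ico, Nat.sub_sub_self lM] at b3
  have b4 := mul_le_mul_of_nonneg_left b1 (by positivity : 0 ≤ 1 + 3 * η)
  have b5 : η ^ 2 * M ≤ η * N := by
    have : η * M ≤ N := by nlinarith
    nlinarith
  nlinarith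

theorem count {k N D : ℕ} {g : ZMod M → ℝ} {B : ℝ} (hg : ∀ x, 0 ≤ g x) (hM : N ≤ M)
    (hk : 1 ≤ k) (hD : 2 * k * D ≤ N)
    (hB : ∑ x : ZMod M, (if x.val < N ∧ g x < 1 / 2 then (1 : ℝ) else 0) ≤ B)
    (hB' : 4 * k * B ≤ N) :
    (1 / 2) ^ k * (D * (N / 4)) ≤
      ∑ x : ZMod M, ∑ d : ZMod M, ∏ i : Fin k, g (x + ((i : ℕ) : ZMod M) * d) := by
  set b : ZMod M → ℝ := fun x => if x.val < N ∧ g x < 1 / 2 then 1 else 0 with hb
  have b0 : ∀ x, 0 ≤ b x := fun x => by
    simp only [hb]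
    split_ifs <;> norm_num
  have kD : k * D ≤ N := by nlinarith
  have p0 : ∀ x d : ZMod M, 0 ≤ ∏ i : Fin k, g (x + ((i : ℕ) : ZMod M) * d) := fun x d =>
    prod_nonneg fun _ _ => hg _
  have a1 : ∀ d : ZMod M, d.val < D → ∀ x : ZMod M, x.val < N - k * D →
      (1 / 2) ^ k * (1 - ∑ i : Fin k, b (x + ((i : ℕ) : ZMod M) * d)) ≤
        ∏ i : Fin k, g (x + ((i : ℕ) : ZMod M) * d) := fun d hd x hx => by
    by_cases h : ∀ i : Fin k, 1 / 2 ≤ g (x + ((i : ℕ) : ZMod M) * d)
    · have := prod_le_prod (s := univ) (f := fun _ : Fin k => (1 / 2 : ℝ)) (fun _ _ => by norm_num)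
        fun i _ => h i
      rw [prod_const, card_univ, Fintype.card_fin] at this
      have s0 : 0 ≤ ∑ i : Fin k, b (x + ((i : ℕ) : ZMod M) * d) := sum_nonneg fun _ _ => b0 _
      have : (0 : ℝ) ≤ (1 / 2) ^ k := by positivity
      nlinarith
    · push Not at h
      obtain ⟨i, hi⟩ := h
      have e : x + ((i : ℕ) : ZMod M) * d = ((x.val + i * d.val : ℕ) : ZMod M) := by simp
      have v : (x + ((i : ℕ) : ZMod M) * d).val < N := by
        rw [e, ZMod.val_natCast]
        have : i * d.val ≤ k * D := Nat.mul_le_mul i.2.le hd.le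
        exact (Nat.mod_le _ _).trans_lt (by omega)
      have s1 := single_le_sum (f := fun i : Fin k => b (x + ((i : ℕ) : ZMod M) * d))
        (fun _ _ => b0 _) (mem_univ i)
      simp only [hb, if_pos (And.intro v hi)] at s1
      refine le_trans (mul_nonpos_of_nonneg_of_nonpos (by positivity) ?_) (p0 x d)
      simp only [hb]
      linarith
  have a2 : ∀ d : ZMod M, d.val < D → (1 / 2) ^ k * ((N : ℝ) / 4) ≤
      ∑ x : ZMod M, ∏ i : Fin k, g (x + ((i : ℕ) : ZMod M) * d) := fun d hd => by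
    refine le_trans ?_ (sum_le_sum_of_subset_of_nonneg
      (filter_subset (fun x : ZMod M => x.val < N - k * D) univ) fun x _ _ => p0 x d)
    refine le_trans ?_ (sum_le_sum fun x hx => a1 d hd x (mem_filter.1 hx).2)
    rw [← mul_sum, sum_sub_distrib, sum_const, nsmul_eq_mul, mul_one, sum_comm]
    refine mul_le_mul_of_nonneg_left ?_ (by positivity)
    have c1 : ((N - k * D : ℕ) : ℝ) ≤ #{x : ZMod M | x.val < N - k * D} := by
      exact_mod_cast cardl (by omega)
    have c2 : ∑ i : Fin k, ∑ x : ZMod M with x.val < N - k * D,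
        b (x + ((i : ℕ) : ZMod M) * d) ≤ k * B := by
      refine (sum_le_card_nsmul _ _ B fun i _ => ?_).trans (by simp)
      exact (sum_le_sum_of_subset_of_nonneg (filter_subset _ _) fun x _ _ => b0 _).trans
        ((Equiv.sum_comp (Equiv.addRight (((i : ℕ) : ZMod M) * d)) b).trans_le hB)
    rw [Nat.cast_sub kD] at c1
    have c3 : (2 * k * D : ℝ) ≤ N := by exact_mod_cast hD
    push_cast at c1
    linarith
  rw [sum_comm]
  refine le_trans ?_ (sum_le_sum_of_subset_of_nonneg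
    (filter_subset (fun d : ZMod M => d.val < D) univ) fun d _ _ => sum_nonneg fun x _ => p0 x d)
  refine le_trans ?_ (card_nsmul_le_sum _ _ _ fun d hd => a2 d (mem_filter.1 hd).2)
  have c1 : (D : ℝ) ≤ #{x : ZMod M | x.val < D} := by
    exact_mod_cast cardl (by nlinarith)
  rw [nsmul_eq_mul, mul_left_comm]
  exact mul_le_mul_of_nonneg_right c1 (by positivity)

theorem base : BASE := by
  intro j
  set k := j + 3 with hk
  have k3 : (3 : ℝ) ≤ k := by
    rw [hk]
    push_cast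
    linarith [Nat.cast_nonneg (α := ℝ) j]
  refine ⟨1 / (320 * k), (1 / 2) ^ k / (256 * k), by positivity, ?_, by positivity, 640 * k,
    fun M N _ f g hN hM hM' hf hs hg hc => ?_⟩
  · rw [div_le_div_iff₀ (by positivity) (by norm_num)]
    linarith
  have M0 : (0 : ℝ) < M := Nat.cast_pos.2 (NeZero.pos M)
  have N1 : (640 * k : ℝ) ≤ N := by exact_mod_cast hN
  have M4 : (M : ℝ) ≤ 4 * N := by exact_mod_cast hM'
  have a1 := bad (η := 1 / (320 * k)) (by positivity) (by
    rw [div_le_div_iff₀ (by positivity) (by norm_num)]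
    linarith) (by
    rw [one_div, le_inv_mul_iff₀ (by positivity)]
    linarith) hM hM' hf hs hg hc
  have a2 := count (k := k) (D := N / (2 * k)) (fun x => (hg x).1) (by omega) (by omega)
    (Nat.mul_div_le _ _) a1 (le_of_eq (by field_simp; norm_num))
  have a3 : (N : ℝ) ≤ 4 * k * (N / (2 * k) : ℕ) := by
    have h1 := Nat.lt_mul_div_succ N (show 0 < 2 * k by omega)
    have h2 : (N : ℝ) < 2 * k * ((N / (2 * k) : ℕ) + 1) := by exact_mod_cast h1
    linarith
  have e : apc k M (fun _ => g) = (∑ x : ZMod M, ∑ d : ZMod M,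
      ∏ i : Fin k, g (x + ((i : ℕ) : ZMod M) * d)) / (M : ℝ) ^ 2 := by
    simp only [apc, expect_eq_sum_div_card, card_univ, ZMod.card, ← sum_div, div_div, sq]
  rw [e, le_div_iff₀ (by positivity)]
  refine le_trans ?_ a2
  rw [div_mul_eq_mul_div, mul_div_assoc]
  refine mul_le_mul_of_nonneg_left ?_ (by positivity)
  rw [div_le_iff₀ (by positivity)]
  have : (M : ℝ) ^ 2 ≤ (4 * N) ^ 2 := by gcongr
  have N0 : (0 : ℝ) ≤ N := Nat.cast_nonneg _
  nlinarith [mul_le_mul_of_nonneg_left a3 N0]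

end Vale.Agent.P057H.H69
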