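import Vale.Agent.P057H.Defs
import Mathlib.NumberTheory.Bertrand

/-! Some state occurs. -/

set_option linter.all false

open Finset
open scoped BigOperators Classical

namespace Vale.Agent.P057H.H82

open Vale.Agent.P057L

theorem nc_sub {j M : ℕ} [NeZero M] {f g g' : ZMod M → ℝ} {ε ε' τ : ℝ}
    (h : Nc j M (fun x => f x - g x) ε) (h' : Nc j M (fun x => f x - g' x) ε') (k : ε + ε' ≤ τ) :
    Nc j M (fun x => g' x - g x) τ := fun a b H ha hb hH => by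
  refine le_trans (le_of_eq ?_) ((abs_sub _ _).trans
    ((add_le_add (h a b H ha hb hH) (h' a b H ha hb hH)).trans k))
  rw [← expect_sub_distrib]
  congr 2; funext ω; ring

theorem sum_per {M N : ℕ} [NeZero M] (h : N ≤ M) (f : ℤ → ℝ) :
    ∑ x, per f 0 N M x = ∑ v ∈ rg N, f v := by
  unfold per
  rw [← sum_filter]
  refine sum_bij (fun x _ => (x.val : ℤ)) (fun x hx => ?_) (fun x _ y _ e => ?_) (fun v hv => ?_)
    fun x _ => by rw [zero_add]
  · have := (mem_filter.1 hx).2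
    exact mem_Ico.2 ⟨by positivity, by exact_mod_cast this⟩
  · exact ZMod.val_injective M (by exact_mod_cast e)
  · obtain ⟨a, b⟩ := mem_Ico.1 hv
    have e : ((v.toNat : ℕ) : ZMod M).val = v.toNat := ZMod.val_cast_of_lt (by omega)
    exact ⟨(v.toNat : ℕ), mem_filter.2 ⟨mem_univ _, by rw [e]; omega⟩, by rw [e]; omega⟩

theorem four (n : ℕ) (h : 4 ≤ n) : 4 * n ≤ 2 ^ n := by
  induction n, h using Nat.le_induction with
  | base => norm_num
  | succ n h ih => rw [pow_succ]; omega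

theorem model (h1 : ZH) (h2 : WND) {j M N L Q i : ℕ} [NeZero M] {f : ℤ → ℝ} {lam η : ℝ}
    (L1 : 1 ≤ L) (hM : N + (j + 2) * L ≤ M) (f0 : ∀ x, 0 ≤ f x) (i1 : 1 ≤ i)
    (hs : ∑ v ∈ rg N, f v ≤ N) (hw : ∀ x : ℤ, 𝔼 v ∈ rg L, f (x + v) ≤ 2) (l0 : 0 < lam)
    (l1 : lam ≤ 2 ^ i) (e1 : η ≤ 1) (e2 : 1 / 2 ^ i ≤ η)
    (hn : ¬ St j L f lam (2 ^ ((2 * Q + 9) * i))) :
    ∃ g : ZMod M → ℝ, (∀ x, 0 ≤ g x ∧ g x ≤ (1 + η) * lam) ∧
      Nc j M (fun x => per f 0 N M x - g x) (1 / 2 ^ (Q * i)) := by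
  obtain ⟨i, rfl⟩ := Nat.exists_eq_add_of_le' i1
  set t := (2 * Q + 9) * i + 2 * Q + 8 with ht
  have et : (2 * Q + 9) * (i + 1) = t + 1 := by rw [ht]; ring
  rw [et] at hn
  have M0 : (0 : ℝ) < M := by exact_mod_cast Nat.pos_of_ne_zero (NeZero.ne M)
  refine h1 j M _ lam η _ (2 / 2 ^ (t + 1)) 1 (2 ^ t) (fun x => ?_) ?_ l0
    (lt_of_lt_of_le (by positivity) e2) e1 (by positivity) ?_ ?_ fun hv =>
    hn (h2 j M N L (2 ^ t) f 0 lam 2 _ _ L1 hM f0 l0.le (by norm_num) (one_le_pow₀ (by norm_num))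
      hw (by rw [div_mul_cancel₀ _ (by positivity)]) ?_ hv)
  · unfold per; split_ifs
    · exact f0 _
    · rfl
  · rw [expect_eq_sum_div_card, sum_per (by omega), card_univ, ZMod.card, div_le_one M0]
    exact hs.trans (by exact_mod_cast (by omega : N ≤ M))
  · have e : ((2 ^ t : ℕ) : ℝ) * (1 / 2 ^ (Q * (i + 1))) ^ 2 = 2 ^ (i + 1) * 2 ^ (8 * i + 7) := by
      rw [show t = (i + 1) + (8 * i + 7) + Q * (i + 1) * 2 by rw [ht]; ring]
      push_cast
      rw [pow_add, pow_add, pow_mul _ _ 2]; field_simp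
    have : (2 : ℝ) ^ 7 ≤ 2 ^ (8 * i + 7) := pow_le_pow_right₀ (by norm_num) (by omega)
    rw [e]
    nlinarith [show (0 : ℝ) < 2 ^ (i + 1) by positivity]
  · refine le_trans ?_ (mul_le_mul_of_nonneg_left e2 (by positivity))
    have : (2 : ℝ) ^ (3 + Q * (i + 1) + (i + 1)) ≤ 2 ^ (t + 1) :=
      pow_le_pow_right₀ (by norm_num) (by rw [← et]; nlinarith)
    rw [pow_add, pow_add] at this
    rw [div_mul_div_comm, ← mul_div_assoc, div_le_div_iff₀ (by positivity) (by positivity)]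
    linarith
  · have a : 4 ≤ 2 ^ t := le_trans (by norm_num) (Nat.pow_le_pow_right (by norm_num) (by omega : 2 ≤ t))
    have b : ((4 * 2 ^ t : ℕ) : ℝ) ≤ (2 ^ 2 ^ t : ℕ) := by exact_mod_cast four _ a
    have c : (2 : ℝ) ^ 2 ^ t ≤ Real.exp (2 ^ t) := by
      rw [← mul_one ((2 : ℝ) ^ t), show (2 : ℝ) ^ t = (2 ^ t : ℕ) by norm_cast, Real.exp_nat_mul]
      exact pow_le_pow_left₀ (by norm_num) (by linarith [Real.add_one_le_exp 1]) _
    push_cast at b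
    rw [pow_succ (2 : ℝ) t, mul_two ((2 : ℝ) ^ t), Real.exp_add]
    calc _ = (2 : ℝ) ^ 2 ^ t * (4 * 2 ^ t) := by ring
      _ ≤ _ := mul_le_mul c (b.trans c) (by positivity) (Real.exp_pos _).le

theorem step (h3 : TEL) {j M i : ℕ} [Fact M.Prime] {g g' : ZMod M → ℝ} (hM : j + 3 ≤ M)
    (i1 : 1 ≤ i) (hg : ∀ x, 0 ≤ g x ∧ g x ≤ 2 ^ (i + 2)) (hg' : ∀ x, 0 ≤ g' x ∧ g' x ≤ 2 ^ (i + 2))
    (h : Nc j M (fun x => g' x - g x) (2 / 2 ^ ((2 ^ j * (j + 4) + 1) * i))) :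
    apc (j + 3) M (fun _ => g) - (j + 3) * 4 ^ (j + 3) / 2 ^ i ≤ apc (j + 3) M (fun _ => g') := by
  have := h3 j M g g' _ _ (1 / 2 ^ ((j + 4) * i)) hM (one_le_pow₀ (by norm_num)) (by positivity)
    hg hg' h (by
      have : (2 : ℝ) ^ (1 + (j + 4) * i * 2 ^ j) ≤ 2 ^ ((2 ^ j * (j + 4) + 1) * i) :=
        pow_le_pow_right₀ (by norm_num) (by nlinarith)
      rw [one_div, inv_pow, ← pow_mul, ← one_div, div_le_div_iff₀ (by positivity) (by positivity)]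
      rw [pow_add] at this
      linarith)
  have e : ((j : ℝ) + 3) * (2 ^ (i + 2)) ^ (j + 3) * (1 / 2 ^ ((j + 4) * i)) =
      (j + 3) * 4 ^ (j + 3) / 2 ^ i := by
    rw [show (j + 4) * i = i * (j + 3) + i by ring, pow_add (2 : ℝ) (i * _), pow_mul,
      pow_add (2 : ℝ) i, mul_pow, show (2 : ℝ) ^ 2 = 4 by norm_num]
    field_simp
  rw [e] at this
  linarith [(abs_le.1 this).1]

theorem big {C N : ℕ} {X : ℝ} (h : 3 ≤ C) (X0 : 0 ≤ X) (hN : C * (X + 1) ≤ Real.log N) :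
    Real.exp (C * (X + 1)) ≤ N ∧ C < N := by
  have C3 : (3 : ℝ) ≤ C := by exact_mod_cast h
  have N0 : (0 : ℝ) < N := by
    rcases Nat.eq_zero_or_pos N with rfl | h
    · simp at hN; nlinarith
    · exact_mod_cast h
  have eN : Real.exp (C * (X + 1)) ≤ N := (Real.le_log_iff_exp_le N0).1 hN
  have : (C : ℝ) < N := by nlinarith [Real.add_one_le_exp (C * (X + 1))]
  exact ⟨eN, by exact_mod_cast this⟩

theorem sqL {N L j : ℕ} (h : N < (j + 2) * (L + 1)) (k : 4 * (j + 2) ≤ L) : N ≤ L ^ 2 := by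
  nlinarith

theorem fin (k C : ℕ) {c α X M : ℝ} (c0 : 0 < c) (α0 : 0 < α) (X0 : 0 ≤ X)
    (hα : Real.exp (-X) ≤ α) (h : k ≤ C) (h2 : 2 / c ≤ C) (eN : Real.exp (C * (X + 1)) ≤ M)
    (t : c / 2 ≤ (1 / α) ^ k / M) : False := by
  have b3 : (1 / α) ^ k ≤ Real.exp (C * X) := by
    refine (pow_le_pow_left₀ (by positivity) (show 1 / α ≤ Real.exp X by
      rw [Real.exp_neg] at hα
      rw [one_div]; exact inv_le_of_inv_le₀ (Real.exp_pos _) hα) _).trans ?_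
    rw [← Real.exp_nat_mul]
    exact Real.exp_le_exp.2 (mul_le_mul_of_nonneg_right (by exact_mod_cast h) X0)
  have b4 : 2 / c < Real.exp C := by linarith [Real.add_one_le_exp (C : ℝ)]
  rw [le_div_iff₀ ((Real.exp_pos _).trans_le eN)] at t
  rw [mul_add, mul_one, Real.exp_add] at eN
  rw [div_lt_iff₀ c0] at b4
  nlinarith [Real.exp_pos (C * X), mul_le_mul_of_nonneg_left eN c0.le]

theorem cnt (h1 : ZH) (h2 : WND) (h3 : TEL) (h4 : BASE) (h5 : TRIV) : CNT := by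
  intro j
  obtain ⟨η, c, η0, η1, c0, C0, h4⟩ := h4 j
  set K : ℝ := (j + 3) * 4 ^ (j + 3) with hK
  set Q := 2 ^ j * (j + 4) + 1 with hQ
  refine ⟨η, η0, η1, 2 * Q + 9, ⌈1 / η ^ 2⌉₊ + ⌈4 * K / c⌉₊ + 1, by omega, fun i0 hi =>
    ⟨j + 3 + C0 + ⌈2 / c⌉₊ + 4 * (j + 2) ^ 2, fun X α N A X0 hN hA hF hα eA => ?_⟩⟩
  set C := j + 3 + C0 + ⌈2 / c⌉₊ + 4 * (j + 2) ^ 2 with hC
  have α0 : 0 < α := (Real.exp_pos _).trans_le hα
  obtain ⟨eN, CN⟩ := big (by omega) X0 hN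
  have N0 : (0 : ℝ) < N := (Real.exp_pos _).trans_le eN
  have p2 : ∀ n : ℕ, (n : ℝ) ≤ 2 ^ n := fun n => by exact_mod_cast Nat.lt_two_pow_self.le
  have hL := Nat.div_mul_le_self N (j + 2)
  have hL' := Nat.lt_mul_div_succ N (by omega : 0 < j + 2)
  set L := N / (j + 2) with hLd
  have L2 : 4 * (j + 2) ≤ L := by
    rw [hLd, Nat.le_div_iff_mul_le (by omega), mul_assoc, ← sq]; omega
  have L1 : 1 ≤ L := by omega
  refine ⟨L, ⟨L1, ?_⟩, ?_⟩
  · rw [show (2 : ℝ) * Real.log L = Real.log (L ^ 2) by simp]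
    exact Real.log_le_log N0 (by exact_mod_cast sqL hL' L2)
  by_contra hn
  push Not at hn
  obtain ⟨n1, n2, n3⟩ := hn
  obtain ⟨M, Mp, M1, M2⟩ := Nat.exists_prime_lt_and_le_two_mul (2 * N) (by omega)
  haveI := Fact.mk Mp
  set f := ind A α with hf
  have f0 : ∀ x, 0 ≤ f x ∧ f x ≤ 1 / α := fun x => by
    rw [hf, ind]; split_ifs <;> simp [α0.le]
  have sf : ∑ v ∈ rg N, f v = N := by
    simp only [hf, ind]
    rw [← sum_filter, filter_mem_eq_inter, inter_eq_right.2 hA, sum_const, nsmul_eq_mul, ← eA]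
    field_simp
  have md := fun (i : ℕ) (lam η' : ℝ) i1 => model h1 h2 (j := j) (M := M) (Q := Q) (i := i)
    (lam := lam) (η := η') L1 (by rw [mul_comm]; omega) (fun x => (f0 x).1) i1 sf.le
    fun x => (n1 x).le.trans (by linarith)
  have a1 : 1 / η ^ 2 ≤ 2 ^ i0 := (Nat.le_ceil _).trans (le_trans (by
    exact_mod_cast (by omega : ⌈1 / η ^ 2⌉₊ ≤ i0)) (p2 _))
  have a2 : 4 * K / c ≤ 2 ^ i0 := (Nat.le_ceil _).trans (le_trans (by
    exact_mod_cast (by omega : ⌈4 * K / c⌉₊ ≤ i0)) (p2 _))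
  have a3 : 1 / 2 ^ i0 ≤ η ^ 2 := by
    rw [div_le_iff₀ (by positivity)] at a1 ⊢; linarith
  have mono : ∀ a b : ℕ, a ≤ b → (1 : ℝ) / 2 ^ b ≤ 1 / 2 ^ a := fun a b h =>
    one_div_le_one_div_of_le (by positivity) (pow_le_pow_right₀ (by norm_num) h)
  have key : ∀ i, i0 ≤ i → ∃ g : ZMod M → ℝ, (∀ x, 0 ≤ g x ∧ g x ≤ 2 ^ (i + 1)) ∧
      Nc j M (fun x => per f 0 N M x - g x) (1 / 2 ^ (Q * i)) ∧
      c - 2 * (K / 2 ^ i0) + 2 * (K / 2 ^ i) ≤ apc (j + 3) M (fun _ => g) := by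
    intro i h
    induction i, h using Nat.le_induction with
    | base =>
      have b : (2 : ℝ) ^ 1 ≤ 2 ^ i0 := pow_le_pow_right₀ (by norm_num) (by omega)
      obtain ⟨g, g1, g2⟩ := md i0 (1 + η) η (by omega) (by linarith) (by linarith) (by linarith)
        (by nlinarith) n2
      refine ⟨g, fun x => ⟨(g1 x).1, (g1 x).2.trans (by rw [pow_succ]; nlinarith)⟩, g2, ?_⟩
      rw [sub_add_cancel]
      refine h4 M N (per f 0 N M) g (by omega) M1.le (by omega) (fun x hx => if_neg (by omega))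
        ((sum_per (by omega) f).trans sf) (fun x => by rw [sq]; exact g1 x) fun a b H ha hb hH =>
          (g2 a b H ha hb hH).trans ((mono _ _ (Nat.le_mul_of_pos_left _ (by omega))).trans a3)
    | succ i h ih =>
      obtain ⟨g, g1, g2, g3⟩ := ih
      obtain ⟨g', k1, k2⟩ := md (i + 1) (2 ^ (i + 1)) 1 (by omega) (by positivity) le_rfl le_rfl
        (by simpa using mono 0 (i + 1) (by omega)) (n3 _ (by omega))
      have k3 : ∀ x, 0 ≤ g' x ∧ g' x ≤ 2 ^ (i + 2) := fun x =>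
        ⟨(k1 x).1, (k1 x).2.trans_eq (by ring)⟩
      refine ⟨g', k3, k2, ?_⟩
      have := step h3 (i := i) (by omega) (by omega) (fun x => ⟨(g1 x).1, (g1 x).2.trans
        (pow_le_pow_right₀ (by norm_num) (by omega))⟩) k3 (nc_sub g2 k2 (by
          have := mono (Q * i) (Q * (i + 1)) (Nat.mul_le_mul_left _ (by omega))
          rw [div_eq_mul_one_div 2]; linarith))
      have e : K / 2 ^ i = 2 * (K / 2 ^ (i + 1)) := by rw [pow_succ]; field_simp
      linarith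
  obtain ⟨g, g1, g2, g3⟩ := key (i0 + ⌈1 / α⌉₊) (by omega)
  have := step h3 (i := i0 + ⌈1 / α⌉₊) (g' := per f 0 N M) (by omega) (by omega)
    (fun x => ⟨(g1 x).1, (g1 x).2.trans (pow_le_pow_right₀ (by norm_num) (by omega))⟩)
    (fun x => by
      unfold per; split_ifs
      · exact ⟨(f0 _).1, (f0 _).2.trans ((Nat.le_ceil _).trans ((p2 _).trans
          (pow_le_pow_right₀ (by norm_num) (by omega))))⟩
      · exact ⟨le_rfl, by positivity⟩)
    fun a b H ha hb hH => (g2 a b H ha hb hH).trans (by gcongr; norm_num)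
  have t := h5 (j + 3) M N A α (by omega) M1.le hA hF α0
  have b1 : K / 2 ^ i0 ≤ c / 4 := by
    rw [div_le_iff₀ c0] at a2
    rw [div_le_iff₀ (by positivity)]; linarith
  have b2 : 0 ≤ K / 2 ^ (i0 + ⌈1 / α⌉₊) := by positivity
  exact fin (j + 3) C c0 α0 X0 hα (by omega) ((Nat.le_ceil _).trans (by
    exact_mod_cast (by omega : ⌈2 / c⌉₊ ≤ C))) (eN.trans (by exact_mod_cast (by omega : N ≤ M)))
    (le_trans (by linarith) t)

end Vale.Agent.P057H.H82
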