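import Vale.Agent.P057L.Cst

/-! The weight is constant on short progressions, for functions with bounded means. -/

set_option linter.all false

open Finset
open scoped BigOperators

namespace Vale.Agent.P057H.C48

open Vale.Agent.P057Z Vale.Agent.P057L Vale.Agent.P057L.Cst

theorem blk {G : ℤ → ℝ} {P : ℝ} {d L : ℕ} (hL : 1 ≤ L)
    (hm : ∀ o, 𝔼 v ∈ rg L, G (o + d * v) ≤ P) : ∑ i ∈ range (d * L), G i ≤ d * L * P := by
  have e : ∑ i ∈ range (d * L), G i = ∑ o ∈ range d, ∑ v ∈ range L, G (o + d * v) := by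
    rw [sum_comm, mul_comm d L]
    induction L with
    | zero => simp
    | succ n ih =>
      clear ih hL hm
      induction n with
      | zero => simp
      | succ n ih =>
        rw [sum_range_succ, ← ih, Nat.succ_mul (n + 1), sum_range_add]
        congr 1
        exact sum_congr rfl fun o _ => by congr 1; push_cast; ring
  rw [e]
  refine (sum_le_card_nsmul _ _ (L * P) fun o _ => ?_).trans (by simp [mul_assoc])
  have := hm o
  rw [expect_eq_sum_div_card, Win.c1, div_le_iff₀ (by exact_mod_cast hL), sum_rg] at this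
  linarith

theorem shift' (T : ℕ) {f g : ℤ → ℝ} {P : ℝ} (h : ∀ s, -P ≤ f s) (h' : ∀ s, f s ≤ g s) (c : ℕ) :
    ∑ o ∈ rg T, f o - c * P - ∑ i ∈ range c, g i ≤ ∑ o ∈ rg T, f (o + c) := by
  induction c with
  | zero => simp
  | succ c ih =>
    have h1 := sum_range_succ (fun i : ℕ => f (i + c)) T
    rw [sum_range_succ'] at h1
    rw [sum_rg T fun o => f (o + c)] at ih
    rw [sum_rg T fun o => f (o + (c + 1 : ℕ)), sum_range_succ]
    have e : ∀ i : ℕ, (i : ℤ) + (c + 1 : ℕ) = (i + 1 : ℕ) + c := fun i => by push_cast; ring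
    simp only [e]
    push_cast at h1 ⊢
    have := h' c
    rw [zero_add] at h1
    linarith [h (T + c)]

open Classical in
theorem core {T L d : ℕ} {ψ G : ℤ → ℝ} {θ P κ τ : ℝ} (hT : 1 ≤ T) (hL : 1 ≤ L)
    (hψ : ∀ s, 0 ≤ ψ s ∧ ψ s ≤ 1) (hG : ∀ s, 0 ≤ G s)
    (hm : ∀ o, 𝔼 v ∈ rg L, G (o + d * v) ≤ P) (h0 : 0 ≤ θ) (h1 : θ ≤ P)
    (ho : ∀ o, ∀ v ∈ rg L, |ψ (o + d * v) - ψ o| ≤ τ) (hd : (d * L : ℝ) ≤ τ * T)
    (hκ : κ ≤ 𝔼 s ∈ rg T, ψ s * (G s - θ)) : (κ - 4 * τ * P) * T ≤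
      P * ((rg T).filter fun o => θ ≤ 𝔼 v ∈ rg L, G (o + d * v)).card := by
  have P0 : 0 ≤ P := h0.trans h1
  have z0 : (0 : ℤ) ∈ rg L := by simp [rg]; omega
  have ne : (rg L).Nonempty := ⟨0, z0⟩
  have τ0 : 0 ≤ τ := (abs_nonneg _).trans (ho 0 0 z0)
  rw [expect_eq_sum_div_card, Win.c1, le_div_iff₀ (by exact_mod_cast hT)] at hκ
  have k : ∀ v ∈ rg L, (κ - 2 * τ * P) * T ≤
      ∑ o ∈ rg T, (ψ o * (G (o + d * v) - θ) + τ * (G (o + d * v) + P)) := by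
    intro v hv
    obtain ⟨v0, v1⟩ := mem_Ico.1 hv
    lift v to ℕ using v0
    have s := shift' T (f := fun s => ψ s * (G s - θ)) (g := G) (P := P)
      (fun s => by nlinarith [hψ s, hG s]) (fun s => by nlinarith [hψ s, hG s]) (d * v)
    have s2 : ∑ o ∈ rg T, ψ (o + d * v) * (G (o + d * v) - θ) ≤
        ∑ o ∈ rg T, (ψ o * (G (o + d * v) - θ) + τ * (G (o + d * v) + P)) := sum_le_sum fun o _ => by
      have gb : |G (o + d * v) - θ| ≤ G (o + d * v) + P :=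
        abs_le.2 ⟨by linarith [hG (o + d * v)], by linarith⟩
      have := mul_le_mul (ho o v hv) gb (abs_nonneg _) τ0
      rw [← abs_mul] at this
      linarith [(abs_le.1 this).2]
    have v1' : v ≤ L := by exact_mod_cast v1.le
    have v2 : (d * v : ℝ) ≤ d * L := by exact_mod_cast Nat.mul_le_mul_left d v1'
    have s3 := (sum_le_sum_of_subset_of_nonneg (range_mono (Nat.mul_le_mul_left d v1'))
      fun i _ _ => hG (i : ℕ)).trans (blk hL hm)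
    push_cast at s
    nlinarith [mul_le_mul_of_nonneg_right (v2.trans hd) P0, mul_le_mul_of_nonneg_right hd P0]
  have k2 := le_expect ne k
  rw [expect_sum_comm] at k2
  have k3 : ∑ o ∈ rg T, 𝔼 v ∈ rg L, (ψ o * (G (o + d * v) - θ) + τ * (G (o + d * v) + P)) ≤
      ∑ o ∈ rg T, (P * ((if θ ≤ 𝔼 v ∈ rg L, G (o + d * v) then 1 else 0 : ℕ) : ℝ) + 2 * τ * P) := by
    refine sum_le_sum fun o _ => ?_
    rw [expect_add_distrib, ← mul_expect, ← mul_expect, expect_sub_distrib, expect_add_distrib,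
      expect_const ne, expect_const ne]
    have u := hm o
    have := mul_le_mul_of_nonneg_left u τ0
    split_ifs with h
    · push_cast
      nlinarith [hψ o]
    · push_cast
      nlinarith [hψ o]
  rw [sum_add_distrib, sum_const, Win.c1, nsmul_eq_mul] at k3
  rw [card_filter, Nat.cast_sum, mul_sum]
  nlinarith

open Classical in
theorem many {Q r t F d L L' N T : ℕ} [Fact Q.Prime] {b w : Fin t → Fin r → ℤ} {D0 : ℤ}
    {Y ρ θ : ℝ} {G : ℤ → ℝ} {Ψ : (Fin r → ZMod Q) → ℝ} {ξ γ : Fin r → ZMod Q} (hY : 10 ≤ Y)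
    (ht : (t : ℝ) ≤ Y) (hr : (r : ℝ) ≤ Y) (hρ : Real.exp (-Y) ≤ ρ) (hT : 1 ≤ T) (l1' : 1 ≤ L')
    (L0 : (0 : ℝ) < L) (NT : N ≤ T * Real.exp Y) (dL : d * L ≤ N)
    (hG : ∀ s, 0 ≤ G s)
    (hm : ∀ o, 𝔼 v ∈ rg L', G (o + (d * D0.natAbs : ℕ) * v) ≤ Real.exp Y)
    (h0 : 0 ≤ θ) (h1 : θ ≤ Real.exp Y) (hl : LL (1 / ρ) Ψ)
    (hp : ∀ u v, (∀ i, cs Q (b i) ⬝ᵥ v = 0) → Ψ (u + v) = Ψ u) (d2 : ∀ i, w i ∈ Sm (Fin r) F)
    (d3 : ∀ i i', b i ⬝ᵥ w i' = if i = i' then D0 else 0)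
    (hs : ∀ a, nm ((d : ZMod Q) * (cs Q (b a) ⬝ᵥ ξ)) ≤ 1 / L)
    (key : (F : ℝ) * L' * Real.exp Y ^ 8 ≤ L) (eL : (D0.natAbs : ℝ) * L' * Real.exp Y ^ 8 ≤ L)
    (hx : Real.exp (-Y) ≤ exc Ψ ξ γ T G θ) : (T : ℝ) / Real.exp Y ^ 3 ≤ ((rg T).filter fun o =>
      θ ≤ 𝔼 v ∈ rg L', G (o + (d * D0.natAbs : ℕ) * v)).card := by
  have P1 : Y + 1 ≤ Real.exp Y := Real.add_one_le_exp Y
  have ρ0 : 0 < ρ := (Real.exp_pos _).trans_le hρ
  rw [Real.exp_neg] at hρ hx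
  generalize Real.exp Y = P at *
  have P0 : 0 < P := by linarith
  have T0 : (0 : ℝ) < T := by exact_mod_cast hT
  have ρ1 : 1 / ρ ≤ P := by
    rw [inv_le_comm₀ P0 ρ0] at hρ
    rwa [one_div]
  have k := C48.core (τ := 2 * (1 / P ^ 5)) (d := d * D0.natAbs) hT l1'
    (ψ := fun s => Ψ ((s : ZMod Q) • ξ + γ))
    (fun s => ⟨(hl.pos _).le, hl.le_one _⟩) hG hm h0 h1 (fun o v hv => ?_) ?_ hx
  · refine le_of_mul_le_mul_left (le_trans ?_ k) P0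
    rw [show P * (T / P ^ 3) = 1 / P ^ 2 * T by field_simp]
    refine mul_le_mul_of_nonneg_right ?_ T0.le
    rw [show P⁻¹ - 4 * (2 * (1 / P ^ 5)) * P = (P ^ 3 - 8) / P ^ 4 by field_simp; ring,
      div_le_div_iff₀ (by positivity) (by positivity)]
    have : 0 ≤ P ^ 3 - 8 - P ^ 2 := by nlinarith
    nlinarith [mul_nonneg this (sq_nonneg P)]
  · obtain ⟨z, v', z1, z2, z3⟩ := dec d2 d3 hs (D0.sign * v)
    have e : o + ((d * D0.natAbs : ℕ) : ℤ) * v = o + D0 * d * (D0.sign * v) := by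
      rw [Nat.cast_mul, ← Int.sign_mul_self_eq_natAbs]; ring
    rw [e, Int.cast_add, add_smul, z1, show ∀ a b : Fin r → ZMod Q,
      a + (z + v') + b = a + b + z + v' from fun a b => by abel, hp _ _ z2]
    have P5 : 1 ≤ P ^ 5 := one_le_pow₀ (by linarith)
    refine osc hl _ _ ?_ (by positivity) ((div_le_one (by positivity)).2 P5)
    have v1 : |((D0.sign * v : ℤ) : ℝ)| ≤ L' := by
      obtain ⟨a, b⟩ := mem_Ico.1 hv
      have : |D0.sign * v| ≤ L' := by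
        rcases lt_trichotomy D0 0 with h | h | h <;>
          simp [Int.sign_eq_neg_one_of_neg, Int.sign_eq_one_of_pos, h, abs_of_nonneg a, b.le]
      exact_mod_cast this
    calc _ ≤ P * (P * (P * (F * L' * (1 / L)))) := by
          refine mul_le_mul ρ1 (z3.trans ?_) (sum_nonneg fun _ _ => Fr.nm_nonneg _) P0.le
          gcongr <;> linarith
      _ = F * L' * P ^ 8 / L * (1 / P ^ 5) := by field_simp
      _ ≤ _ := mul_le_of_le_one_left (by positivity) ((div_le_one L0).2 key)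
  · have dL' : (d * L : ℝ) ≤ N := by exact_mod_cast dL
    have a : ((d * D0.natAbs : ℕ) : ℝ) * L' * P ^ 8 ≤ T * P := by
      rw [Nat.cast_mul, mul_assoc, mul_assoc, ← mul_assoc (D0.natAbs : ℝ)]
      exact (mul_le_mul_of_nonneg_left eL (by positivity)).trans (dL'.trans NT)
    refine le_of_mul_le_mul_right (a.trans ?_) (by positivity : 0 < P ^ 8)
    rw [show 2 * (1 / P ^ 5) * T * P ^ 8 = T * P * (2 * P ^ 2) by field_simp]
    exact le_mul_of_one_le_right (by positivity) (by nlinarith)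

def CG : Prop :=
  ∀ (j : ℕ), ∃ C : ℕ, ∀ (Y : ℝ) (q N T Q r t K0 d L : ℕ)
    [Fact Q.Prime] (ρ θ : ℝ) (G : Pt j q → ℤ → ℝ) (ξ γ : Pt j q → Fin r → ZMod Q)
    (b : Fin t → Fin r → ℤ) (Ψ : (Fin r → ZMod Q) → ℝ) (Ω Ω' : Finset (Pt j q)) (W0 : Pt j q),
    (C : ℝ) ≤ Y → (q : ℝ) ≤ Y → (r : ℝ) ≤ Y → Y ^ C ≤ Real.log L → Real.exp (-Y) ≤ ρ →
    1 ≤ T → N ≤ T * Real.exp Y → (∀ W s, 0 ≤ G W s) →
    (∀ (W : Pt j q) (o : ℤ) (e L' : ℕ), 1 ≤ e → 1 ≤ L' → L ≤ L' * Real.exp (Y ^ C) →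
      𝔼 v ∈ rg L', G W (o + e * v) ≤ Real.exp Y) → 0 ≤ θ →
    θ ≤ Real.exp Y → In2 Y N T K0 ρ θ G ξ γ b Ψ Ω → 1 ≤ d → d * L ≤ N → Ω' ⊆ pre Ω W0 d L →
    Dn Ω' L Y → (∀ w ∈ Ω', ∀ a, nm ((d : ZMod Q) * (cs Q (b a) ⬝ᵥ ξ (lc W0 d w))) ≤ 1 / L) →
    ∃ (o : ℤ) (W1 : Pt j q) (d' L' : ℕ) (Ω5 : Finset (Pt j q)), 1 ≤ d' ∧ 1 ≤ L' ∧
      L ≤ L' * Real.exp (Y ^ C) ∧ Dn Ω5 L' (Y ^ C) ∧
      ∀ w ∈ Ω5, θ ≤ 𝔼 v ∈ rg L', G (lc W1 d' w) (o + d' * v)

theorem cg (hB : BAS) (hW : WIN) : CG := by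
  classical
  refine fun j => ⟨j + 10, fun Y q N T Q r t K0 d L _ ρ θ G ξ γ b Ψ Ω Ω' W0 hY hq hr hL hρ
    hT NT hG hM h0 h1 I hd dL sub hD hs => ?_⟩
  push_cast at hY
  have j0 : (0 : ℝ) ≤ j := Nat.cast_nonneg _
  have Y1 : 1 ≤ Y := by linarith
  have Y5 : Y ^ 5 ≤ Y ^ (j + 10) := pw_le Y1 (by omega)
  have Y4 : 4 * Y ^ 4 ≤ Y ^ 5 := mul_pw_le (by linarith) (by linarith) 4
  obtain ⟨L', l1', l2, l3, -⟩ := exists_side (L := L) (Y := Y ^ 4) (one_le_pow₀ Y1) (by linarith)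
  obtain ⟨D0, w, d0, d1, d2, d3⟩ := Ke.cr Q (Fin r) t K0 b I.hK I.hb I.hi
  have ht : (t : ℝ) ≤ Y := le_trans (by exact_mod_cast I.ht) hr
  have hF := fac ht I.hK'
  generalize t.factorial * K0 ^ t = F at d1 d2 hF
  set P := Real.exp Y with hP
  have P1 : Y + 1 ≤ P := Real.add_one_le_exp Y
  have P0 : 0 < P := by linarith
  have L0 : (0 : ℝ) < L := lt_of_lt_of_le (by positivity) l2
  have T0 : (0 : ℝ) < T := by exact_mod_cast hT
  have key : (F : ℝ) * L' * P ^ 8 ≤ L := by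
    refine le_trans ?_ l2
    rw [hP, ← Real.exp_nat_mul, mul_right_comm, mul_comm]
    refine mul_le_mul_of_nonneg_left ((mul_le_mul_of_nonneg_right hF (by positivity)).trans ?_)
      (by positivity)
    rw [← Real.exp_add]
    refine Real.exp_le_exp.2 ?_
    have : 100 ≤ Y ^ 2 := by nlinarith
    push_cast
    nlinarith
  have e1 : 1 ≤ D0.natAbs := Int.natAbs_pos.2 fun h => d0 (by simp [h])
  have eF : (D0.natAbs : ℝ) ≤ F := by
    rw [Int.abs_eq_natAbs] at d1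
    exact_mod_cast d1
  have P8 : 1 ≤ P ^ 8 := one_le_pow₀ (by linarith)
  have eL : (D0.natAbs : ℝ) * L' * P ^ 8 ≤ L := le_trans (by gcongr) key
  have l4 : (L : ℝ) ≤ L' * Real.exp (Y ^ (j + 10)) :=
    l3.trans (by gcongr; nlinarith [pow_nonneg (by linarith : (0 : ℝ) ≤ Y) 4])
  have good : ∀ u ∈ Ω', (T : ℝ) / P ^ 3 ≤ ((rg T).filter fun o =>
      θ ≤ 𝔼 v ∈ rg L', G (lc W0 d u) (o + (d * D0.natAbs : ℕ) * v)).card := fun u hu =>
    C48.many (by linarith) ht hr hρ hT l1' L0 NT dL (hG _)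
      (fun o => hM _ o _ _ (Nat.mul_pos hd e1) l1' l4) h0 h1 I.hl I.hp d2 d3 (hs u hu) key eL
      (I.hx _ (mem_pre.1 (sub hu)).2)
  obtain ⟨o, -, ho⟩ := exists_le_of_sum_le (s := rg T) (f := fun _ => (Ω'.card : ℝ) / P ^ 3)
    (g := fun o => ((Ω'.filter fun u => o ∈ (rg T).filter fun o =>
      θ ≤ 𝔼 v ∈ rg L', G (lc W0 d u) (o + (d * D0.natAbs : ℕ) * v)).card : ℝ))
    ⟨0, by simp [rg]; omega⟩ (by
      rw [sum_card_swap _ _ _ fun u => filter_subset _ _, sum_const, Win.c1, nsmul_eq_mul]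
      refine le_trans (le_of_eq ?_) (card_nsmul_le_sum _ _ _ good)
      rw [nsmul_eq_mul]; ring)
  obtain ⟨W1, hW1⟩ := dn_win hW (Y := Y + 3 * Y) ⟨(filter_subset _ _).trans hD.1,
    le_trans (by
      rw [le_div_iff₀ (by positivity), hP, ← Real.exp_nat_mul, mul_right_comm, ← Real.exp_add]
      refine le_trans (le_of_eq ?_) hD.2
      push_cast; ring_nf) ho⟩ l1' (by exact_mod_cast L0) (e := D0.natAbs)
    (by exact_mod_cast (le_mul_of_one_le_right (by positivity) P8).trans eL)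
  refine ⟨o, lc W0 d W1, d * D0.natAbs, L', _, Nat.mul_pos hd e1, l1',
    l4, hW1.mono ?_,
    fun u hu => ?_⟩
  · have : (j : ℝ) * q ≤ Y * Y := by gcongr; linarith
    have Y3 : Y ^ 3 ≤ Y ^ (j + 10) := pw_le Y1 (by omega)
    nlinarith
  · have := (mem_filter.1 (mem_filter.1 (mem_pre.1 hu).2).2).2
    rw [hB.2.2.2.2.2.1] at this
    exact this

end Vale.Agent.P057H.C48
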