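import Vale.Agent.P057H.Defs
import Vale.Agent.P057H.CstA48
import Vale.Agent.P057L.Step

/-! The row CSTH. -/

set_option linter.all false

namespace Vale.Agent.P057H

open Vale.Agent.P057Z Vale.Agent.P057L

theorem csth (hB : BAS) (hW : WIN) : CSTH := by
  intro j
  obtain ⟨C, h⟩ := C48.cg hB hW j
  refine ⟨C + 2, fun Y X q N T Q r t K0 d L _ ρ θ G ξ γ b Ψ Ω Ω' W0 hY hX hq hr hL hρ hT NT hG hM
    t0 t1 I hd dL sub hD hs => ?_⟩
  push_cast at hY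
  have c0 : (0 : ℝ) ≤ C := Nat.cast_nonneg _
  have Y1 : 1 ≤ Y := by linarith
  have p0 : 0 ≤ Y ^ C := by positivity
  have p1 : 2 * Y ^ C ≤ Y ^ (C + 2) :=
    (mul_pw_le (by linarith) (by linarith) C).trans (pw_le Y1 (by omega))
  have l2 : 2 * Y ^ C ≤ Real.log L := by nlinarith
  have L1 : 1 ≤ L := one_le_of_log (Y := 2 * Y ^ C) (by positivity) l2
  obtain ⟨o, W1, d', L', Ω5, a1, a2, a3, a4, a5⟩ := h Y q N T Q r t K0 d L ρ θ G ξ γ b Ψ Ω Ω' W0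
    (by linarith) hq hr (by linarith) hρ hT NT (fun W s => (hG W s).1)
    (fun W o e L' he h1 h2 => hM W o e L' he (lg_of_le L1 h1 le_rfl l2 h2)) t0 t1 I hd dL sub hD hs
  exact ⟨o, W1, d', L', Ω5, a1, lg_of_le L1 a2 le_rfl l2 a3, a4.mono (pw_le Y1 (by omega)), a5⟩

end Vale.Agent.P057H
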