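import Vale.Agent.P057H.Defs

/-! Iteration of the step. -/

set_option linter.all false

open Finset
open scoped BigOperators Classical

namespace Vale.Agent.P057H

open Vale.Agent.P057Z Vale.Agent.P057L

namespace Downh

theorem lg_mono {L L' : ℕ} {Y Y' : ℝ} (h : Lg L L' Y) (hY : Y ≤ Y') : Lg L L' Y' :=
  ⟨h.1, h.2.trans (mul_le_mul_of_nonneg_right hY (Real.log_natCast_nonneg _))⟩

theorem lg_trans {L L' L'' : ℕ} {Y Y' : ℝ} (h : Lg L L' Y) (h' : Lg L' L'' Y') (hY : 0 ≤ Y) :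
    Lg L L'' (Y * Y') :=
  ⟨h'.1, h.2.trans ((mul_le_mul_of_nonneg_left h'.2 hY).trans_eq (mul_assoc _ _ _).symm)⟩

theorem pf_pf (f : ℤ → ℝ) (x x' : ℤ) (D D' : ℕ) :
    pf (pf f x D) x' D' = pf f (x + D * x') (D * D') := by
  funext z
  simp only [pf]
  congr 1
  push_cast
  ring

/-- one step, or the end -/
theorem one {j C1 C L : ℕ} {μ X lam : ℝ} {f : ℤ → ℝ} (hC : C1 ≤ C) (μ1 : 1 ≤ μ) (hX : 0 ≤ X)
    (hL : μ ^ C * (X + 1) ≤ Real.log L)
    (h : μ ^ C1 * (X + 1) ≤ Real.log L → NoF L f lam (μ ^ C1) → HM j L f μ →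
      ∃ (x : ℤ) (D L' : ℕ), 1 ≤ D ∧ Lg L L' (μ ^ C1) ∧ Md j L' (pf f x D) lam (μ ^ C1))
    (hM : ∀ (x : ℤ) (D L' : ℕ), 1 ≤ D → Lg L L' (μ ^ C) → HM j L' (pf f x D) μ) :
    (∃ (x : ℤ) (D L' : ℕ), 1 ≤ D ∧ Lg L L' (μ ^ C) ∧ lam ≤ 𝔼 v ∈ rg L', f (x + D * v)) ∨
      ∃ (x : ℤ) (D L' : ℕ), 1 ≤ D ∧ Lg L L' (μ ^ C1) ∧ Md j L' (pf f x D) lam (μ ^ C1) := by
  have p1 : μ ^ C1 ≤ μ ^ C := pow_le_pow_right₀ μ1 hC
  have p2 : 1 ≤ μ ^ C := one_le_pow₀ μ1
  by_cases hN : NoF L f lam (μ ^ C1)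
  · refine Or.inr (h ((mul_le_mul_of_nonneg_right p1 (by linarith)).trans hL) hN ?_)
    have L1 : 1 ≤ L := by
      refine Nat.one_le_iff_ne_zero.2 fun h0 => ?_
      rw [h0, Nat.cast_zero, Real.log_zero] at hL
      nlinarith
    have e : pf f 0 1 = f := by
      funext z
      simp [pf]
    rw [← e]
    exact hM 0 1 L le_rfl ⟨L1, le_mul_of_one_le_left (Real.log_natCast_nonneg _) p2⟩
  · left
    simp only [NoF, not_forall, not_le] at hN
    obtain ⟨x, D, L', h1, h2, h3⟩ := hN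
    exact ⟨x, D, L', h1, lg_mono h2 p1, h3.le⟩

end Downh

open Downh in
theorem downh (hS : MS) (hT : STEPH) : DOWNH := by
  intro j
  induction j with
  | zero =>
    obtain ⟨C1, h1⟩ := hT 0
    refine ⟨C1 + 1, fun μ X lam L f hC hX hL hf l1 l2 l3 hM hs => ?_⟩
    push_cast at hC
    have c0 : (0 : ℝ) ≤ C1 := Nat.cast_nonneg _
    have μ1 : 1 ≤ μ := by linarith
    rcases one (Nat.le_succ C1) μ1 hX hL
      (fun a b c => h1 μ X lam L f (by linarith) hX a hf l1 l2 l3 b c hs) (hM 0 le_rfl) with h | h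
    · exact h
    · obtain ⟨x, D, L', h2, h3, h4⟩ := h
      obtain ⟨x', h5⟩ := hS.2.1 L' _ lam _ (by positivity) h3.1 h4
      refine ⟨x + D * x', D, L', h2, lg_mono h3 (pow_le_pow_right₀ μ1 (Nat.le_succ _)),
        h5.trans_eq (expect_congr rfl fun v _ => ?_)⟩
      simp only [pf]
      congr 1
      ring
  | succ j ih =>
    obtain ⟨C1, h1⟩ := hT (j + 1)
    obtain ⟨C2, h2⟩ := ih
    refine ⟨C1 + (C1 + 1) * C2 + C2 + 2 ^ j, fun μ X lam L f hC hX hL hf l1 l2 l3 hM hs => ?_⟩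
    have n0 : 0 < 2 ^ j := by positivity
    push_cast at hC
    have c1 : (0 : ℝ) ≤ C1 := Nat.cast_nonneg _
    have c2 : (0 : ℝ) ≤ C2 := Nat.cast_nonneg _
    have c3 : (1 : ℝ) ≤ 2 ^ j := one_le_pow₀ (by norm_num)
    have c4 : (0 : ℝ) ≤ (C1 + 1) * C2 := by positivity
    have μ1 : 1 ≤ μ := by linarith
    have μ0 : 0 < μ := by linarith
    rcases one (C1 := C1) (by omega) μ1 hX hL
      (fun a b c => h1 μ X lam L f (by linarith) hX a hf l1 l2 l3 b c hs)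
      (hM (j + 1) le_rfl) with h | h
    · exact h
    obtain ⟨x, D, L', h3, h4, h5⟩ := h
    have p0 : 0 < μ ^ C1 := by positivity
    have p1 : μ ≤ μ ^ (C1 + 1) := le_self_pow₀ μ1 (by omega)
    have p2 : μ ^ C1 * (μ ^ (C1 + 1)) ^ C2 ≤ μ ^ (C1 + (C1 + 1) * C2 + C2 + 2 ^ j) := by
      rw [← pow_mul, ← pow_add]
      exact pow_le_pow_right₀ μ1 (by omega)
    have s1 : St j L' (pf f x D) lam (μ ^ (C1 + 1)) := by
      refine hS.2.2.1 j L' _ lam _ _ (by positivity) ?_ (hS.1 j L' _ lam _ (one_le_pow₀ μ1) h5)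
      rw [pow_succ' μ]
      exact mul_le_mul_of_nonneg_right (by linarith) p0.le
    obtain ⟨x', D', L'', h6, h7, h8⟩ := h2 (μ ^ (C1 + 1)) X lam L' (pf f x D) (by linarith) hX
      (by
        refine le_of_mul_le_mul_left (le_trans ?_ (hL.trans h4.2)) p0
        rw [← mul_assoc]
        exact mul_le_mul_of_nonneg_right p2 (by linarith))
      (fun z => hf _) l1 (l2.trans p1) l3
      (fun j' hj x' D' L'' a b Z hZ => by
        rw [pf_pf]
        exact hM j' (by omega) _ _ L'' (Nat.mul_pos h3 a) (lg_mono (lg_trans h4 b p0.le) p2) Z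
          (p1.trans hZ)) s1
    refine ⟨x + D * x', D * D', L'', Nat.mul_pos h3 h6, lg_mono (lg_trans h4 h7 p0.le) p2,
      h8.trans_eq (expect_congr rfl fun v _ => ?_)⟩
    exact congrFun (pf_pf f x x' D D') v

end Vale.Agent.P057H
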