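import Vale.Agent.P057L.All

/-! Dropping the frequencies without energy, for unbounded functions. -/

set_option linter.all false

open Finset
open scoped BigOperators Classical

namespace Vale.Agent.P057H.DrG

open Vale.Agent.P057Z Vale.Agent.P057Z.Ke Vale.Agent.P057L
open Vale.Agent.P057L.Drop (lap_ll rgne md split labs spn spn_perp pick card_P Sm_succ ex_lab smooth
  num0 num1 num2)

variable {Q : ℕ} [Fact Q.Prime] {r : ℕ}

theorem exc_fa {Φ : (Fin r → ZMod Q) → ℝ} {S : Finset (Fin r → ℤ)} {c : (Fin r → ℤ) → ℂ}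
    {η B θ : ℝ} {T : ℕ} {G : ℤ → ℝ} (ξ γ : Fin r → ZMod Q) (hT : 1 ≤ T)
    (h : ∀ u, ‖(Φ u : ℂ) - ∑ k ∈ S, c k * ch (cs Q k ⬝ᵥ u)‖ ≤ η) (hG : 𝔼 s ∈ rg T, |G s - θ| ≤ B) :
    ‖(exc Φ ξ γ T G θ : ℂ) - ∑ k ∈ S, c k * (md k ξ γ T G - md k ξ γ T fun _ => θ)‖ ≤ η * B := by
  have e : ∑ k ∈ S, c k * (md k ξ γ T G - md k ξ γ T fun _ => θ) = 𝔼 s ∈ rg T,
      (∑ k ∈ S, c k * ch (cs Q k ⬝ᵥ ((s : ZMod Q) • ξ + γ))) * ((G s - θ : ℝ) : ℂ) := by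
    simp only [sum_mul]
    rw [expect_sum_comm]
    refine sum_congr rfl fun k _ => ?_
    rw [md, md, ← mul_sub, ← expect_sub_distrib, mul_expect, mul_expect]
    refine expect_congr rfl fun s _ => ?_
    rw [dotProduct_add, dotProduct_smul, ch_add, smul_eq_mul, mul_comm (s : ZMod Q)]
    push_cast
    ring
  rw [e, exc, ofReal_expect', ← expect_sub_distrib]
  have η0 : 0 ≤ η := (norm_nonneg _).trans (h 0)
  refine (RCLike.norm_expect_le (K := ℂ)).trans (le_trans ?_ (mul_le_mul_of_nonneg_left hG η0))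
  rw [mul_expect]
  refine expect_le_expect fun s _ => ?_
  rw [Complex.ofReal_mul, ← sub_mul, norm_mul, Complex.norm_real, Real.norm_eq_abs]
  exact mul_le_mul_of_nonneg_right (h _) (abs_nonneg _)

theorem mark {α : Type} (Ω : Finset α) (b : α → ℝ) {κ E n : ℝ} (κ0 : 0 < κ) (κE : κ * E = 1)
    (hb : ∀ W ∈ Ω, b W ≤ E) (hn : κ * n ≤ Ω.card)
    (h : ∑ W ∈ Ω, (κ / 2 - κ / 8 - b W) ≤ Ω.card * (κ / 8)) :
    n ≤ 8 * E ^ 3 * (Ω.filter fun W => κ / 8 ≤ b W).card := by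
  have s3 : ∑ W ∈ Ω, b W ≤ (Ω.filter fun W => κ / 8 ≤ b W).card * E + Ω.card * (κ / 8) := by
    rw [← nsmul_eq_mul, ← nsmul_eq_mul, ← sum_const, ← sum_const, sum_filter, ← sum_add_distrib]
    refine sum_le_sum fun W hW => ?_
    split_ifs with h
    · linarith [hb W hW]
    · linarith [not_le.1 h]
  rw [sum_sub_distrib, sum_const, nsmul_eq_mul] at h
  have a1 : Ω.card * κ ≤ 8 * ((Ω.filter fun W => κ / 8 ≤ b W).card * E) := by linarith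
  have a2 := (mul_le_mul_of_nonneg_right hn κ0.le).trans a1
  have a3 := mul_le_mul_of_nonneg_right a2 (sq_nonneg E)
  calc _ = (κ * E) ^ 2 * n := by rw [κE]; ring
    _ ≤ _ := by linarith

theorem est {α : Type} (Ω : Finset α) {Ψ : (Fin r → ZMod Q) → ℝ} {K0 T : ℕ} {M η κ E θ δ : ℝ}
    (ξ γ : α → Fin r → ZMod Q) (G : α → ℤ → ℝ) (K : α → Submodule (ZMod Q) (Fin r → ZMod Q))
    (hT : 1 ≤ T) (hΨ : FA Ψ K0 M η) (gθ : ∀ W ∈ Ω, 𝔼 s ∈ rg T, |G W s - θ| ≤ E) (ηE : η * E ≤ κ / 16)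
    (hx : ∀ W ∈ Ω, κ / 2 ≤ exc Ψ (ξ W) (γ W) T (G W) θ) (δ0 : 0 ≤ δ)
    (hδ : M * δ ≤ Ω.card * (κ / 8))
    (hF : ∀ k ∈ Sm (Fin r) K0, ‖∑ W ∈ Ω.filter fun W => cs Q k ∉ K W,
      (md k (ξ W) (γ W) T (G W) - md k (ξ W) (γ W) T fun _ => θ)‖ ≤ δ) :
    ∑ W ∈ Ω, (κ / 2 - κ / 8 - exc (avg (K W) Ψ) (ξ W) (γ W) T (G W) θ) ≤ Ω.card * (κ / 8) := by
  obtain ⟨cf, hc, hc'⟩ := hΨ
  set F : (Fin r → ℤ) → α → ℂ := fun k W =>
    md k (ξ W) (γ W) T (G W) - md k (ξ W) (γ W) T fun _ => θ with hF'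
  have s1 : ∀ W ∈ Ω, κ / 2 - κ / 8 - exc (avg (K W) Ψ) (ξ W) (γ W) T (G W) θ ≤
      (∑ k ∈ Sm (Fin r) K0, cf k * if cs Q k ∉ K W then F k W else 0).re := fun W hW => by
    have a1 := exc_fa (ξ W) (γ W) hT hc' (gθ W hW)
    have a2 := exc_fa (ξ W) (γ W) hT (avg_fa (K := K W) hc') (gθ W hW)
    have a4 : ∑ k ∈ Sm (Fin r) K0, (cf k * if cs Q k ∉ K W then F k W else 0) =
        ∑ k ∈ Sm (Fin r) K0, cf k * F k W -
          ∑ k ∈ Sm (Fin r) K0, (if cs Q k ∈ K W then cf k else 0) * F k W := by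
      rw [← sum_sub_distrib]
      refine sum_congr rfl fun k _ => ?_
      by_cases h : cs Q k ∈ K W <;> simp [h]
    have a5 := (le_abs_self _).trans ((Complex.abs_re_le_norm _).trans a1)
    have a6 := (neg_le_abs _).trans ((Complex.abs_re_le_norm _).trans a2)
    rw [Complex.sub_re, Complex.ofReal_re] at a5 a6
    rw [a4, Complex.sub_re]
    simp only [F]
    linarith [hx W hW]
  refine (sum_le_sum s1).trans ?_
  rw [← Complex.re_sum, sum_comm]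
  refine (Complex.re_le_norm _).trans ((norm_sum_le_of_le _
    (n := fun k => ‖cf k‖ * δ) fun k hk => ?_).trans ?_)
  · rw [← mul_sum, ← sum_filter, norm_mul]
    exact mul_le_mul_of_nonneg_left (hF k hk) (norm_nonneg _)
  · rw [← sum_mul]
    exact (mul_le_mul_of_nonneg_right hc δ0).trans hδ

theorem drg0 (h1 : DRP1) (h2 : COV) (j D : ℕ) : ∃ C : ℕ, ∀ (Y : ℝ) (q N T Q r : ℕ) [Fact Q.Prime]
    (ρ θ ε : ℝ) (G : Pt j q → ℤ → ℝ) (ξ γ : Pt j q → Fin r → ZMod Q) (Ω : Finset (Pt j q)),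
    (C : ℝ) ≤ Y → (q : ℝ) ≤ Y → Y ^ C ≤ Real.log N → 2 * Real.exp (-Y) ≤ ε → ε ≤ 1 →
    (∀ W s, 0 ≤ G W s) → (∀ W ∈ Ω, 𝔼 s ∈ rg T, G W s ≤ Real.exp Y) →
    0 ≤ θ → θ ≤ Real.exp Y →
    (∀ (ψ : Pt j q → ZMod Q) (U : Finset (Pt j q)) (u : Pt j q → ℂ) (i : Fin j) (l l' : Fin q),
      U ⊆ Ω → (∀ W, ‖u W‖ ≤ 1) → Real.exp (-Y ^ 3) * (N : ℝ) ^ (j * q) ≤
        ‖∑ W ∈ U, u W * 𝔼 s ∈ rg T, (G W s : ℂ) * ch (ψ W * (s : ZMod Q))‖ →
      Real.exp (-Y ^ D) ≤ ens ψ U N i l l') →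
    In1 Y N T ρ θ G ξ γ Ω →
    ∃ (t K0 : ℕ) (b : Fin t → Fin r → ℤ) (Ψ : (Fin r → ZMod Q) → ℝ) (Ω1 : Finset (Pt j q)),
      Ω1 ⊆ Ω ∧ In2 (Y ^ C) N T K0 ρ ((1 - ε) * θ) G ξ γ b Ψ Ω1 ∧
      ∀ i l l', Pr (fun W (a : Fin t) => cs Q (b a) ⬝ᵥ ξ W) Ω1 i l l' := by
  obtain ⟨C1, h1⟩ := h1 j
  obtain ⟨C2, h2⟩ := h2 j
  refine ⟨3 * (C1 + D + 1) * C2 + 16 + j + C1 + C2, ?_⟩
  intro Y q N T Q r _ ρ θ ε G ξ γ Ω hY hq hN u2' e1 hG hm0 t0 t1 hF I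
  set C := 3 * (C1 + D + 1) * C2 + 16 + j + C1 + C2 with hC
  have c : ∀ n : ℕ, n ≤ C → (n : ℝ) ≤ Y := fun n h => le_trans (by exact_mod_cast h) hY
  have y10 : (10 : ℝ) ≤ Y := by exact_mod_cast c 10 (by omega)
  have y1 : (1 : ℝ) ≤ Y := by linarith
  have E0 := Real.exp_pos Y
  have κ0 := Real.exp_pos (-Y)
  have κE : Real.exp (-Y) * Real.exp Y = 1 := by rw [← Real.exp_add]; simp
  have y2 : 6 * Y ≤ Y ^ C := le_trans (by nlinarith) (pw_le y1 (by omega : 2 ≤ C))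
  have ρ0 : 0 < ρ := κ0.trans_le I.hρ
  have e0 : 0 < ε := by linarith
  have u2 : Real.exp (-Y) ≤ ε / 2 := by linarith
  obtain ⟨u1, -, u3, -, u5, u6⟩ := num0 (ε := 1) y10 one_pos (by linarith) I.hρ
  have u4 : Real.exp (-(3 * Y)) * (2 * Real.exp Y) ≤ Real.exp (-Y) / 16 := by
    rw [show -(3 * Y) = -Y + -Y + -Y by ring, Real.exp_add, Real.exp_add]
    have κ1 : Real.exp (-Y) ≤ 1 / 32 := by nlinarith [num_exp y10]
    have : Real.exp (-Y) * Real.exp (-Y) * Real.exp (-Y) * (2 * Real.exp Y) =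
        Real.exp (-Y) * Real.exp (-Y) * 2 * (Real.exp (-Y) * Real.exp Y) := by ring
    rw [this, κE]
    nlinarith
  obtain ⟨Ψ, K0, hK, hL, hΨ, hc⟩ := sm Q (Fin r) Y (3 * Y) (1 / ρ) (ε / 2) (lap ρ) y10
    (by simpa using I.hr) (by positivity) u1 u2 (by linarith) u3
    ((exp_le_of_log (by linarith) (by linarith)).trans
      (by exact_mod_cast (by have := I.hNQ; omega : N ≤ Q))) (lap_ll ρ0)
  have y3 : Y ≤ Y ^ 3 := le_pw y1 (by omega)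
  have E3 : Real.exp Y ≤ Real.exp (Y ^ 3) := Real.exp_le_exp.2 y3
  choose col k1 k2 k3 using fun (k : Fin r → ℤ) (τ : Fin j × Fin q × Fin q) =>
    h2 ((Y ^ 3) ^ (C1 + D + 1)) q N Q (fun W => cs Q k ⬝ᵥ ξ W) τ.1 τ.2.1 τ.2.2
      ((c _ (by omega)).trans (y3.trans (le_pw (y1.trans y3) (by omega)))) (I.hT.trans I.hTN)
  set δ := Real.exp (-Y ^ 3) * Real.exp Y ^ 2 * (N : ℝ) ^ (j * q) with hδ
  have d1 : ∀ (k : Fin r → ℤ) (τ : Fin j × Fin q × Fin q) (G' : Pt j q → ℤ → ℝ),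
      Fac G' (Real.exp Y) τ.1 τ.2.1 τ.2.2 → ∀ U ⊆ bp j q N, (∀ W ∈ U, col k τ W = 0) →
      ‖∑ W ∈ U, md k (ξ W) (γ W) T (G' W)‖ ≤ δ := fun k τ G' hG' U hU h0 => by
    by_contra hlt
    have a := h1 (Y ^ 3) (Real.exp Y) q N T Q (fun W => cs Q k ⬝ᵥ ξ W) U
      (fun W => ch (cs Q k ⬝ᵥ γ W)) G' τ.1 τ.2.1 τ.2.2 ((c _ (by omega)).trans y3) (hq.trans y3)
      I.hT I.hTN (I.hNT.trans (by gcongr)) I.hNQ (I.hQN.trans (by gcongr)) E0 hU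
      (fun W => (norm_ch _).le) hG' (not_le.1 hlt).le
    have b := a.trans_lt (k3 k τ U hU h0)
    rw [Real.exp_lt_exp, neg_lt_neg_iff] at b
    exact absurd (pw_le (y1.trans y3) (by omega : C1 ≤ C1 + D + 1)) (not_le.2 b)
  have d0 : ∀ (k : Fin r → ℤ) (τ : Fin j × Fin q × Fin q), ∀ U ⊆ Ω, (∀ W ∈ U, col k τ W = 0) →
      ‖∑ W ∈ U, md k (ξ W) (γ W) T (G W)‖ ≤ δ := fun k τ U hU h0 => by
    by_contra hlt
    have a := hF (fun W => cs Q k ⬝ᵥ ξ W) U (fun W => ch (cs Q k ⬝ᵥ γ W)) τ.1 τ.2.1 τ.2.2 hU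
      (fun W => (norm_ch _).le) (le_trans (mul_le_mul_of_nonneg_right
        (le_mul_of_one_le_right (Real.exp_pos _).le
          (one_le_pow₀ (Real.one_le_exp (by linarith)))) (by positivity)) (not_le.1 hlt).le)
    have b := a.trans_lt (k3 k τ U (hU.trans I.hd.1) h0)
    rw [Real.exp_lt_exp, neg_lt_neg_iff, ← pow_mul] at b
    exact absurd (pw_le y1 (by omega : D ≤ 3 * (C1 + D + 1))) (not_le.2 b)
  set θ' := (1 - ε) * θ with hθ'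
  have θ0 : 0 ≤ θ' := mul_nonneg (by linarith) t0
  have θ1 : θ' ≤ Real.exp Y := (mul_le_of_le_one_left t0 (by linarith)).trans t1
  have d2 := fun k => split Ω
    (fun W => md k (ξ W) (γ W) T (G W) - md k (ξ W) (γ W) T fun _ => θ')
    (fun τ W => col k τ W = 0) (δ := 2 * δ) (fun τ U hU h0 => by
      rw [sum_sub_distrib, two_mul]
      refine (norm_sub_le _ _).trans (add_le_add (d0 k τ U hU h0)
        (d1 k τ (fun _ _ => θ') (fun W0 => ⟨0, fun _ _ => θ', fun _ _ => 1, Or.inl rfl,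
          fun _ _ => ?_, fun _ _ => ?_, fun _ _ _ => (mul_one _).symm⟩) U (hU.trans I.hd.1) h0))
      · rwa [abs_of_nonneg θ0]
      · rw [abs_one]
        exact Real.one_le_exp (by linarith)) univ
  set m := (univ : Finset (Fin j × Fin q × Fin q)).card with hm
  have m3 : (m : ℝ) ≤ Y ^ 3 := by
    rw [hm, card_univ, Fintype.card_prod, Fintype.card_prod, Fintype.card_fin, Fintype.card_fin]
    push_cast
    calc _ ≤ Y * (Y * Y) := by gcongr; exact c _ (by omega)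
      _ = _ := by ring
  set n := ⌊Real.exp (((Y ^ 3) ^ (C1 + D + 1)) ^ C2)⌋₊ with hn
  set P := Sm (Fin r) K0 ×ˢ Fintype.piFinset fun _ : Fin j × Fin q × Fin q => Icc 1 n with hP
  choose lab l1 l2 l3 l4 using fun W : Pt j q =>
    ex_lab P (fun a => cs Q a.1) fun a => ∀ τ, col a.1 τ W = a.2 τ
  set K : Pt j q → Submodule (ZMod Q) (Fin r → ZMod Q) := fun W =>
    spn (fun a => cs Q a.1) (lab W) with hK'
  set b : Pt j q → ℝ := fun W => exc (avg (K W) Ψ) (ξ W) (γ W) T (G W) θ' with hb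
  have gθ : ∀ W ∈ Ω, 𝔼 s ∈ rg T, |G W s - θ'| ≤ 2 * Real.exp Y := fun W hW => by
    refine (expect_le_expect (g := fun s => G W s + θ') fun s _ =>
      abs_le.2 ⟨by linarith [hG W s], by linarith [hG W s]⟩).trans ?_
    rw [expect_add_distrib, expect_const (rgne I.hT)]
    linarith [hm0 W hW]
  have s4 := est Ω ξ γ G K I.hT hc gθ u4 (fun W hW => smooth e0 (by linarith) t0
    (fun s => hG W s) (fun u => (lap_pos ρ u).le) hΨ κ0.le (I.hx W hW)) (δ := m * (2 * δ))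
    (by positivity)
    (by
      calc _ = Real.exp (6 * Y ^ 2) * (m * (2 * (Real.exp (-Y ^ 3) * Real.exp Y ^ 2))) *
          (N : ℝ) ^ (j * q) := by rw [hδ]; ring
        _ ≤ _ := mul_le_mul_of_nonneg_right (num1 y10 m3) (by positivity)
        _ = _ := mul_right_comm _ _ _
        _ ≤ _ := mul_le_mul_of_nonneg_right I.hd.2 (by positivity))
    fun k hk => d2 k _ (filter_subset _ _) fun W hW => by
      by_contra h
      refine (mem_filter.1 hW).2 (l4 W (k, fun τ => col k τ W) (mem_product.2 ⟨hk,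
        Fintype.mem_piFinset.2 fun τ => mem_Icc.2 ⟨?_, Nat.le_floor (k1 k τ W)⟩⟩) fun _ => rfl)
      exact Nat.one_le_iff_ne_zero.2 fun h' => h ⟨τ, mem_univ _, h'⟩
  have s5 := mark Ω b κ0 κE (fun W hW => le_trans (expect_le_expect fun s _ =>
    (mul_le_mul_of_nonneg_left (sub_le_self _ θ0) ((avg_ll hL).pos _).le).trans
      (mul_le_of_le_one_left (hG W s) ((avg_ll hL).le_one _))) (hm0 W hW)) I.hd.2 s4
  set Ω' := Ω.filter fun W => Real.exp (-Y) / 8 ≤ b W with hΩ'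
  obtain ⟨d, hd⟩ := pick Ω' (labs r P) lab l1 0 (B := Y ^ C) (by positivity) s5
    (le_trans (mul_le_mul_of_nonneg_left (Nat.cast_le.2 (card_P K0 n)) (by positivity))
      ((num2 (D := 3 * (C1 + D + 1) * C2) y10 I.hr hK
        (by rw [pow_mul, pow_mul]; exact Nat.floor_le (Real.exp_pos _).le) m3).trans
        (Real.exp_le_exp.2 (pw_le y1 (by omega)))))
  set Ω1 := Ω'.filter fun W => lab W = d with hΩ1
  have s6 : Dn Ω1 N (Y ^ C) :=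
    ⟨((filter_subset _ _).trans (filter_subset _ _)).trans I.hd.1, hd⟩
  have hΩ : ∀ W ∈ Ω1, W ∈ bp j q N ∧ lab W = d ∧ Real.exp (-Y) / 8 ≤ b W := fun W hW =>
    ⟨s6.1 hW, (mem_filter.1 hW).2, (mem_filter.1 (mem_filter.1 hW).1).2⟩
  obtain ⟨W0, hW0⟩ := s6.nonempty (I.hT.trans I.hTN)
  obtain rfl := (hΩ W0 hW0).2.1
  obtain ⟨p1, p2⟩ := mem_sigma.1 (l1 W0)
  have p3 := fun a => mem_product.1 (Fintype.mem_piFinset.1 p2 a)
  refine ⟨(lab W0).1, K0 + 1, fun a => ((lab W0).2 a).1, avg (K W0) Ψ, Ω1,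
    (filter_subset _ _).trans (filter_subset _ _),
    ⟨Nat.lt_succ_iff.1 (mem_range.1 p1), Nat.le_add_left _ _, ?_, fun a => Sm_succ (p3 a).1,
      l3 W0, avg_ll hL, fun u v h => avg_add Ψ u (spn_perp h), s6, fun W hW => ?_⟩, ?_⟩
  · push_cast
    linarith [Real.exp_le_exp.2 y2]
  · have a1 : _ ≤ exc (avg (K W) Ψ) (ξ W) (γ W) T (G W) θ' := (hΩ W hW).2.2
    rw [show K W = K W0 from congrArg (spn _) (hΩ W hW).2.1] at a1
    exact ((Real.exp_le_exp.2 (neg_le_neg y2)).trans u6).trans a1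
  · intro i l l' W a a' w1 w2 w3 w4
    funext x
    have hm : ∀ V ∈ Ω1, V ∈ (bp j q N).filter fun V =>
        col ((lab W0).2 x).1 (i, l, l') V = ((lab W0).2 x).2 (i, l, l') := fun V hV => by
      refine mem_filter.2 ⟨(hΩ V hV).1, ?_⟩
      have := l2 V
      rw [(hΩ V hV).2.1] at this
      exact this x _
    exact k2 ((lab W0).2 x).1 (i, l, l') _ (Nat.one_le_iff_ne_zero.1
      (mem_Icc.1 (Fintype.mem_piFinset.1 (p3 x).2 _)).1) W a a' (hm _ w1) (hm _ w2) (hm _ w3)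
      (hm _ w4)


theorem drg (j D : ℕ) : ∃ C : ℕ, ∀ (Y : ℝ) (q N T Q r : ℕ) [Fact Q.Prime]
    (ρ θ ε : ℝ) (G : Pt j q → ℤ → ℝ) (ξ γ : Pt j q → Fin r → ZMod Q) (Ω : Finset (Pt j q)),
    (C : ℝ) ≤ Y → (q : ℝ) ≤ Y → Y ^ C ≤ Real.log N → 2 * Real.exp (-Y) ≤ ε → ε ≤ 1 →
    (∀ W s, 0 ≤ G W s) → (∀ W ∈ Ω, 𝔼 s ∈ rg T, G W s ≤ Real.exp Y) →
    0 ≤ θ → θ ≤ Real.exp Y →
    (∀ (ψ : Pt j q → ZMod Q) (U : Finset (Pt j q)) (u : Pt j q → ℂ) (i : Fin j) (l l' : Fin q),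
      U ⊆ Ω → (∀ W, ‖u W‖ ≤ 1) → Real.exp (-Y ^ 3) * (N : ℝ) ^ (j * q) ≤
        ‖∑ W ∈ U, u W * 𝔼 s ∈ rg T, (G W s : ℂ) * ch (ψ W * (s : ZMod Q))‖ →
      Real.exp (-Y ^ D) ≤ ens ψ U N i l l') →
    In1 Y N T ρ θ G ξ γ Ω →
    ∃ (t K0 : ℕ) (b : Fin t → Fin r → ℤ) (Ψ : (Fin r → ZMod Q) → ℝ) (Ω1 : Finset (Pt j q)),
      Ω1 ⊆ Ω ∧ In2 (Y ^ C) N T K0 ρ ((1 - ε) * θ) G ξ γ b Ψ Ω1 ∧
      ∀ i l l', Pr (fun W (a : Fin t) => cs Q (b a) ⬝ᵥ ξ W) Ω1 i l l' :=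
  drg0 (drp1 box3) (cov (P057L.ch exg)) j D

end Vale.Agent.P057H.DrG
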