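import Vale.Agent.P057L.Num
import Vale.Agent.P057L.Win
import Vale.Agent.P057Z.Ke.Nm

/-! Products over faces have product form; sums of such forms; complex tests. -/

set_option linter.all false

open Finset
open scoped BigOperators

namespace Vale.Agent.P057H.UnG

open Vale.Agent.P057Z Vale.Agent.P057Z.Ke Vale.Agent.P057L

variable {j q : ℕ}

theorem se (i : Fin j) (a : ℤ) (S : Finset (Fin j)) :
    ∑ k ∈ S, e1 i (0 : Fin 1) a k 0 = if i ∈ S then a else 0 := by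
  rw [← sum_ite_eq S i fun _ => a]
  refine sum_congr rfl fun k _ => ?_
  by_cases h : i = k
  · subst h
    simp [e1]
  · simp [e1, h, Ne.symm h]

theorem bd {B : ℝ} (hB : 1 ≤ B) (A : Finset (Finset (Fin j))) (f : Finset (Fin j) → ℝ)
    (hf : ∀ S, |f S| ≤ B) : |∏ S ∈ A, f S| ≤ B ^ 2 ^ j := by
  rw [abs_prod]
  refine (prod_le_prod (fun _ _ => abs_nonneg _) fun S _ => hf S).trans ?_
  rw [prod_const]
  refine pow_le_pow_right₀ hB ((card_le_univ A).trans_eq ?_)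
  rw [Fintype.card_finset, Fintype.card_fin]

/-- a product over all faces has product form -/
theorem fac_prod (H : Finset (Fin j) → ℤ → ℝ) {B : ℝ} (hB : 1 ≤ B) (hH : ∀ S x, |H S x| ≤ B)
    (i : Fin j) :
    Fac (q := 1) (fun W s => ∏ S, H S (∑ a ∈ S, W a 0 + s)) (B ^ 2 ^ j) i 0 0 := by
  intro W0
  refine ⟨1, fun t a => ∏ S ∈ univ.filter fun S : Finset (Fin j) => ¬ i ∈ S,
      H S (∑ k ∈ S, W0 k 0 + (t - a)),
    fun t b => ∏ S ∈ univ.filter fun S : Finset (Fin j) => i ∈ S, H S (∑ k ∈ S, W0 k 0 + t + b),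
    Or.inr rfl, fun s a => bd hB _ _ fun S => hH _ _, fun s b => bd hB _ _ fun S => hH _ _,
    fun a b s => ?_⟩
  beta_reduce
  rw [← prod_filter_not_mul_prod_filter univ fun S : Finset (Fin j) => i ∈ S]
  congr 1
  · refine prod_congr rfl fun S hS => congrArg (H S) ?_
    simp only [Pi.add_apply, sum_add_distrib, se, if_neg (mem_filter.mp hS).2]
    ring
  · refine prod_congr rfl fun S hS => congrArg (H S) ?_
    simp only [Pi.add_apply, sum_add_distrib, se, if_pos (mem_filter.mp hS).2]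
    ring

theorem fac_mono {G : Pt j q → ℤ → ℝ} {B B' : ℝ} {i : Fin j} {l l' : Fin q} (h : Fac G B i l l')
    (hB : B ≤ B') : Fac G B' i l l' := fun W0 => by
  obtain ⟨σ, A, C, h1, h2, h3, h4⟩ := h W0
  exact ⟨σ, A, C, h1, fun s a => (h2 s a).trans hB, fun s a => (h3 s a).trans hB, h4⟩

theorem fac_const {θ B : ℝ} (h : |θ| ≤ B) (hB : 1 ≤ B) (i : Fin j) (l l' : Fin q) :
    Fac (fun (_ : Pt j q) _ => θ) B i l l' := fun W0 =>
  ⟨0, fun _ _ => θ, fun _ _ => 1, Or.inl rfl, fun _ _ => h, fun _ _ => by rwa [abs_one],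
    fun _ _ _ => (mul_one _).symm⟩

variable {Q : ℕ} [Fact Q.Prime]

/-- the twisted sum -/
noncomputable def tw (ψ : Pt j q → ZMod Q) (U : Finset (Pt j q)) (u : Pt j q → ℂ) (T : ℕ)
    (G : Pt j q → ℤ → ℝ) : ℂ :=
  ∑ W ∈ U, u W * 𝔼 s ∈ rg T, (G W s : ℂ) * ch (ψ W * (s : ZMod Q))

theorem tw_congr {ψ : Pt j q → ZMod Q} {U : Finset (Pt j q)} {u : Pt j q → ℂ} {T : ℕ}
    {G G' : Pt j q → ℤ → ℝ} (h : ∀ W ∈ U, ∀ s ∈ rg T, G W s = G' W s) :
    tw ψ U u T G = tw ψ U u T G' :=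
  sum_congr rfl fun W hW => congrArg _ (expect_congr rfl fun s hs => by rw [h W hW s hs])

theorem tw_add (ψ : Pt j q → ZMod Q) (U : Finset (Pt j q)) (u : Pt j q → ℂ) (T : ℕ)
    (G G' : Pt j q → ℤ → ℝ) :
    tw ψ U u T (fun W s => G W s + G' W s) = tw ψ U u T G + tw ψ U u T G' := by
  rw [tw, tw, tw, ← sum_add_distrib]
  refine sum_congr rfl fun W _ => ?_
  rw [← mul_add, ← expect_add_distrib]
  refine congrArg _ (expect_congr rfl fun s _ => ?_)
  push_cast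
  ring

theorem tw_sum {ι : Type} (ψ : Pt j q → ZMod Q) (U : Finset (Pt j q)) (u : Pt j q → ℂ) (T : ℕ)
    (A : Finset ι) (G : ι → Pt j q → ℤ → ℝ) :
    tw ψ U u T (fun W s => ∑ a ∈ A, G a W s) = ∑ a ∈ A, tw ψ U u T (G a) := by
  simp only [tw]
  rw [sum_comm]
  refine sum_congr rfl fun W _ => ?_
  rw [← mul_sum, ← expect_sum_comm]
  refine congrArg _ (expect_congr rfl fun s _ => ?_)
  push_cast
  rw [sum_mul]

/-- a sum of few product forms -/
theorem en_sum (h : DRP1) (j : ℕ) : ∃ C : ℕ, ∀ (Y : ℝ) (q N T Q : ℕ) [Fact Q.Prime]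
    (ψ : Pt j q → ZMod Q) (U : Finset (Pt j q)) (u : Pt j q → ℂ) (ι : Type) (A : Finset ι)
    (G : ι → Pt j q → ℤ → ℝ) (i : Fin j) (l l' : Fin q),
    (C : ℝ) ≤ Y → (q : ℝ) ≤ Y → 1 ≤ T → T ≤ N → N ≤ T * Real.exp Y → 2 * N ≤ Q →
    Q ≤ N * Real.exp Y → U ⊆ bp j q N → (∀ W, ‖u W‖ ≤ 1) → (A.card : ℝ) ≤ Real.exp Y →
    (∀ a ∈ A, Fac (G a) (Real.exp Y) i l l') →
    Real.exp (-Y) * (N : ℝ) ^ (j * q) ≤ ‖tw ψ U u T fun W s => ∑ a ∈ A, G a W s‖ →
    Real.exp (-Y ^ C) ≤ ens ψ U N i l l' := by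
  obtain ⟨C, h⟩ := h j
  refine ⟨2 * C + 4, fun Y q N T Q _ ψ U u ι A G i l l' hY hq hT hTN hNT hNQ hQN hU hu hA hG hx => ?_⟩
  push_cast at hY
  have c0 : (0 : ℝ) ≤ C := Nat.cast_nonneg _
  have y1 : (1 : ℝ) ≤ Y := by linarith
  have y2 : 4 * Y ≤ Y ^ 2 := by nlinarith
  have E : Real.exp Y ≤ Real.exp (Y ^ 2) := Real.exp_le_exp.2 (by linarith)
  have N0 : (0 : ℝ) < (N : ℝ) ^ (j * q) := by
    have : (0 : ℝ) < N := by exact_mod_cast hT.trans hTN
    positivity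
  by_contra hlt
  have k : ∀ a ∈ A, ‖tw ψ U u T (G a)‖ <
      Real.exp (-Y ^ 2) * Real.exp Y ^ 2 * (N : ℝ) ^ (j * q) := fun a ha => by
    by_contra k
    have := h (Y ^ 2) (Real.exp Y) q N T Q ψ U u (G a) i l l' (by linarith) (by linarith) hT hTN
      (hNT.trans (by gcongr)) hNQ (hQN.trans (by gcongr)) (Real.exp_pos _) hU hu (hG a ha)
      (not_lt.1 k)
    refine hlt (le_trans (Real.exp_le_exp.2 (neg_le_neg ?_)) this)
    rw [← pow_mul]
    exact pw_le y1 (by omega)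
  rw [tw_sum] at hx
  have k2 := hx.trans (norm_sum_le_of_le A fun a ha => (k a ha).le)
  rw [sum_const, nsmul_eq_mul] at k2
  have k3 : Real.exp Y * (Real.exp (-Y ^ 2) * Real.exp Y ^ 2) ≤ Real.exp (-Y) := by
    rw [← Real.exp_nat_mul, ← Real.exp_add, ← Real.exp_add]
    refine Real.exp_le_exp.2 ?_
    push_cast
    linarith
  rcases A.eq_empty_or_nonempty with rfl | ⟨a, ha⟩
  · rw [card_empty, Nat.cast_zero, zero_mul] at k2
    exact absurd k2 (not_le.2 (by positivity))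
  · have k4 := hx.trans_lt ((norm_sum_le _ _).trans_lt (sum_lt_sum_of_nonempty ⟨a, ha⟩ k))
    rw [sum_const, nsmul_eq_mul] at k4
    have k5 := mul_le_mul_of_nonneg_right hA
      (by positivity : 0 ≤ Real.exp (-Y ^ 2) * Real.exp Y ^ 2 * (N : ℝ) ^ (j * q))
    have k6 := mul_le_mul_of_nonneg_right k3 N0.le
    nlinarith

/-- a complex test is a sum of two real tests -/
theorem cplx {α : Type} (B U : Finset α) (hU : U ⊆ B) (A V S : Finset ℤ) (Φ : α → ℤ → ℝ)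
    (ψ : α → ZMod Q) (u : α → ℂ) (hu : ∀ W, ‖u W‖ ≤ 1) {δ : ℝ}
    (hS : ∀ W s, s ∉ S → Φ W s = 0) (hV : ∀ s ∈ S, ∀ y ∈ A, s - y ∈ V)
    (h : ∀ a b : α → ℤ → ℝ, (∀ W y, |a W y| ≤ 1) → (∀ W v, |b W v| ≤ 1) →
      |∑ W ∈ B, ∑ y ∈ A, ∑ v ∈ V, a W y * b W v * Φ W (y + v)| ≤ δ) :
    A.card * ‖∑ W ∈ U, u W * ∑ s ∈ S, (Φ W s : ℂ) * ch (ψ W * (s : ZMod Q))‖ ≤ 2 * δ := by
  classical
  set Z := ∑ W ∈ U, u W * ∑ s ∈ S, (Φ W s : ℂ) * ch (ψ W * (s : ZMod Q)) with hZ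
  obtain ⟨c, c1, c2⟩ := Complex.exists_norm_eq_mul_self Z
  let p : α → ℤ → ℂ := fun W y => if W ∈ U then c * u W * ch (ψ W * (y : ZMod Q)) else 0
  let r : α → ℤ → ℂ := fun W v => ch (ψ W * (v : ZMod Q))
  have hp : ∀ W y, ‖p W y‖ ≤ 1 := fun W y => by
    simp only [p]
    split_ifs
    · rw [norm_mul, norm_mul, c1, norm_ch, one_mul, mul_one]
      exact hu W
    · simp
  have hr : ∀ W v, ‖r W v‖ ≤ 1 := fun W v => (norm_ch _).le
  have e : (A.card : ℂ) * (c * Z) =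
      ∑ W ∈ B, ∑ y ∈ A, ∑ v ∈ V, p W y * r W v * (Φ W (y + v) : ℂ) := by
    rw [← sum_subset hU fun W _ hW => by simp [p, hW], hZ, mul_sum, mul_sum]
    refine sum_congr rfl fun W hW => ?_
    rw [← nsmul_eq_mul, ← sum_const]
    refine sum_congr rfl fun y hy => ?_
    have e1 : ∑ v ∈ V, p W y * r W v * (Φ W (y + v) : ℂ) =
        ∑ s ∈ V.image (y + ·), c * (u W * ((Φ W s : ℂ) * ch (ψ W * (s : ZMod Q)))) := by
      rw [sum_image fun a _ b _ e => add_left_cancel e]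
      refine sum_congr rfl fun v _ => ?_
      simp only [p, r, if_pos hW]
      push_cast
      rw [mul_add, ch_add]
      ring
    rw [e1, mul_sum, mul_sum]
    refine sum_subset (fun s hs => mem_image.2 ⟨s - y, hV s hs y hy, by ring⟩) fun s _ hs => ?_
    simp [hS W s hs]
  have e2 := congrArg Complex.re e
  rw [← c2, ← Complex.ofReal_natCast, ← Complex.ofReal_mul, Complex.ofReal_re] at e2
  have e3 : (∑ W ∈ B, ∑ y ∈ A, ∑ v ∈ V, p W y * r W v * (Φ W (y + v) : ℂ)).re =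
      ∑ W ∈ B, ∑ y ∈ A, ∑ v ∈ V, (p W y).re * (r W v).re * Φ W (y + v) -
        ∑ W ∈ B, ∑ y ∈ A, ∑ v ∈ V, (p W y).im * (r W v).im * Φ W (y + v) := by
    simp only [Complex.re_sum, ← sum_sub_distrib]
    refine sum_congr rfl fun W _ => sum_congr rfl fun y _ => sum_congr rfl fun v _ => ?_
    rw [Complex.mul_re, Complex.mul_re, Complex.ofReal_re, Complex.ofReal_im]
    ring
  have a1 := h (fun W y => (p W y).re) (fun W v => (r W v).re)
    (fun W y => (Complex.abs_re_le_norm _).trans (hp W y))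
    fun W v => (Complex.abs_re_le_norm _).trans (hr W v)
  have a2 := h (fun W y => (p W y).im) (fun W v => (r W v).im)
    (fun W y => (Complex.abs_im_le_norm _).trans (hp W y))
    fun W v => (Complex.abs_im_le_norm _).trans (hr W v)
  rw [e2, e3]
  linarith [abs_le.1 a1, abs_le.1 a2]

end Vale.Agent.P057H.UnG
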