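import Vale.Agent.P057H.Defs
import Vale.Agent.P057H.DrG
import Vale.Agent.P057H.UnG

/-! Row DROPH. -/

set_option linter.all false

open Finset
open scoped BigOperators Classical

namespace Vale.Agent.P057H.H56

open Vale.Agent.P057Z Vale.Agent.P057Z.Ke Vale.Agent.P057L
open Vale.Agent.P057L.Drop (lap_ll rgne md split labs spn spn_perp pick card_P Sm_succ ex_lab smooth
  num0 num1 num2)
open Vale.Agent.P057H.DrG (mark est)

theorem droph (h1 : DRP1) (h2 : COV) : DROPH := by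
  intro j
  obtain ⟨D, h3⟩ := UnG.en_sum h1 j
  obtain ⟨C1, h1⟩ := h1 j
  obtain ⟨C2, h2⟩ := h2 j
  refine ⟨3 * (C1 + D + 1) * C2 + 16 + j + C1 + C2 + D, ?_⟩
  intro Y Y' q N T Q r _ ρ θ Λ _ G G1 ξ γ Ω hY hYY hq hN hG hm0 t0 t1 hΛ hF1 hF I
  set ε := 2 * Real.exp (-Y) with hε
  set C := 3 * (C1 + D + 1) * C2 + 16 + j + C1 + C2 + D with hC
  have c : ∀ n : ℕ, n ≤ C → (n : ℝ) ≤ Y := fun n h => le_trans (by exact_mod_cast h) hY
  have y10 : (10 : ℝ) ≤ Y := by exact_mod_cast c 10 (by omega)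
  have y1 : (1 : ℝ) ≤ Y := by linarith
  have E0 := Real.exp_pos Y
  have κ0 := Real.exp_pos (-Y)
  have κE : Real.exp (-Y) * Real.exp Y = 1 := by rw [← Real.exp_add]; simp
  have y2 : 6 * Y ≤ Y ^ C := le_trans (by nlinarith) (pw_le y1 (by omega : 2 ≤ C))
  have ρ0 : 0 < ρ := κ0.trans_le I.hρ
  have κ1 : Real.exp (-Y) ≤ 1 / 32 := by nlinarith [num_exp y10]
  have e1 : ε ≤ 1 := by linarith
  have e0 : 0 < ε := by linarith
  have z10 : (10 : ℝ) ≤ Y' := y10.trans hYY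
  have z1 : (1 : ℝ) ≤ Y' := by linarith
  have z2 : 6 * Y ≤ Y' ^ C := le_trans (by nlinarith) (pw_le z1 (by omega : 2 ≤ C))
  have z3 : Y' ≤ Y' ^ 3 := le_pw z1 (by omega)
  have z4 : Y ^ 3 ≤ Y' ^ 3 := pow_le_pow_left₀ (by linarith) hYY 3
  have z5 : Real.exp Y ≤ Real.exp (Y' ^ 3) := Real.exp_le_exp.2 (hYY.trans z3)
  have z6 : Real.exp Y' ≤ Real.exp (Y' ^ 3) := Real.exp_le_exp.2 z3
  have u2 : Real.exp (-Y) ≤ ε / 2 := by linarith
  obtain ⟨u1, -, u3, -, u5, u6⟩ := num0 (ε := 1) y10 one_pos (by linarith) I.hρ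
  have u4 : Real.exp (-(3 * Y)) * (2 * Real.exp Y) ≤ Real.exp (-Y) / 16 := by
    rw [show -(3 * Y) = -Y + -Y + -Y by ring, Real.exp_add, Real.exp_add]
    have : Real.exp (-Y) * Real.exp (-Y) * Real.exp (-Y) * (2 * Real.exp Y) =
        Real.exp (-Y) * Real.exp (-Y) * 2 * (Real.exp (-Y) * Real.exp Y) := by ring
    rw [this, κE]
    nlinarith
  obtain ⟨Ψ, K0, hK, hL, hΨ, hc⟩ := sm Q (Fin r) Y (3 * Y) (1 / ρ) (ε / 2) (lap ρ) y10
    (by simpa using I.hr) (by positivity) u1 u2 (by linarith) u3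
    ((exp_le_of_log (by linarith) (by linarith)).trans
      (by exact_mod_cast (by have := I.hNQ; omega : N ≤ Q))) (lap_ll ρ0)
  have y3 : Y ≤ Y ^ 3 := le_pw y1 (by omega)
  have E3 : Real.exp Y ≤ Real.exp (Y ^ 3) := Real.exp_le_exp.2 y3
  choose col k1 k2 k3 using fun (k : Fin r → ℤ) (τ : Fin j × Fin q × Fin q) =>
    h2 ((Y' ^ 3) ^ (C1 + D + 1)) q N Q (fun W => cs Q k ⬝ᵥ ξ W) τ.1 τ.2.1 τ.2.2
      ((c _ (by omega)).trans (hYY.trans (z3.trans (le_pw (z1.trans z3) (by omega)))))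
      (I.hT.trans I.hTN)
  set δ := Real.exp (-Y ^ 3) * Real.exp Y ^ 2 * (N : ℝ) ^ (j * q) with hδ
  have d1 : ∀ (k : Fin r → ℤ) (τ : Fin j × Fin q × Fin q) (G' : Pt j q → ℤ → ℝ),
      Fac G' (Real.exp Y) τ.1 τ.2.1 τ.2.2 → ∀ U ⊆ bp j q N, (∀ W ∈ U, col k τ W = 0) →
      ‖∑ W ∈ U, md k (ξ W) (γ W) T (G' W)‖ ≤ δ := fun k τ G' hG' U hU h0 => by
    by_contra hlt
    have a := h1 (Y ^ 3) (Real.exp Y) q N T Q (fun W => cs Q k ⬝ᵥ ξ W) U
      (fun W => ch (cs Q k ⬝ᵥ γ W)) G' τ.1 τ.2.1 τ.2.2 ((c _ (by omega)).trans y3) (hq.trans y3)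
      I.hT I.hTN (I.hNT.trans (by gcongr)) I.hNQ (I.hQN.trans (by gcongr)) E0 hU
      (fun W => (norm_ch _).le) hG' (not_le.1 hlt).le
    have b := a.trans_lt (k3 k τ U hU h0)
    rw [Real.exp_lt_exp, neg_lt_neg_iff] at b
    exact absurd ((pow_le_pow_left₀ (by linarith) z4 C1).trans
      (pw_le (z1.trans z3) (by omega : C1 ≤ C1 + D + 1))) (not_le.2 b)
  have d0 : ∀ (k : Fin r → ℤ) (τ : Fin j × Fin q × Fin q), ∀ U ⊆ Ω, (∀ W ∈ U, col k τ W = 0) →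
      ‖∑ W ∈ U, md k (ξ W) (γ W) T (G W)‖ ≤ δ := fun k τ U hU h0 => by
    by_contra hlt
    have a0 := hF τ.1 U (fun W => ch (cs Q k ⬝ᵥ γ W)) (fun W => cs Q k ⬝ᵥ ξ W) (hU.trans I.hd.1)
      (fun W => (norm_ch _).le)
    have a1 := UnG.tw_add (fun W => cs Q k ⬝ᵥ ξ W) U (fun W => ch (cs Q k ⬝ᵥ γ W)) T
      (fun W s => G W s - ∑ υ, G1 υ W s) (fun W s => ∑ υ, G1 υ W s)
    simp only [sub_add_cancel] at a1
    have a2 : δ < ‖UnG.tw (fun W => cs Q k ⬝ᵥ ξ W) U (fun W => ch (cs Q k ⬝ᵥ γ W)) T G‖ :=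
      not_le.1 hlt
    rw [a1] at a2
    have a3 := a2.trans_le ((norm_add_le _ _).trans (add_le_add a0 le_rfl))
    have a4 : 2 * (Real.exp (-Y ^ 3) * (N : ℝ) ^ (j * q)) ≤ δ := by
      have : 2 ≤ Real.exp Y ^ 2 := by nlinarith [Real.add_one_le_exp Y]
      calc _ = Real.exp (-Y ^ 3) * 2 * (N : ℝ) ^ (j * q) := by ring
        _ ≤ _ := by rw [hδ]; gcongr
    have a5 : Real.exp (-Y' ^ 3) * (N : ℝ) ^ (j * q) ≤ Real.exp (-Y ^ 3) * (N : ℝ) ^ (j * q) :=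
      mul_le_mul_of_nonneg_right (Real.exp_le_exp.2 (neg_le_neg z4)) (by positivity)
    have a := h3 (Y' ^ 3) q N T Q (fun W => cs Q k ⬝ᵥ ξ W) U (fun W => ch (cs Q k ⬝ᵥ γ W)) Λ univ
      G1 τ.1 τ.2.1 τ.2.2 ((c _ (by omega)).trans (hYY.trans z3)) (hq.trans (hYY.trans z3))
      I.hT I.hTN (I.hNT.trans (by gcongr)) I.hNQ (I.hQN.trans (by gcongr)) (hU.trans I.hd.1)
      (fun W => (norm_ch _).le) (hΛ.trans z6) (fun υ _ => UnG.fac_mono (hF1 _ _ _ _) z6)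
      (by linarith)
    have b := a.trans_lt (k3 k τ U (hU.trans I.hd.1) h0)
    rw [Real.exp_lt_exp, neg_lt_neg_iff] at b
    exact absurd (pw_le (z1.trans z3) (by omega : D ≤ C1 + D + 1)) (not_le.2 b)
  set θ' := (1 - ε) * θ with hθ'
  have θ0 : 0 ≤ θ' := mul_nonneg (by linarith) t0
  have θ1 : θ' ≤ Real.exp Y := (mul_le_of_le_one_left t0 (by linarith)).trans t1
  have d2 := fun k => split Ω
    (fun W => md k (ξ W) (γ W) T (G W) - md k (ξ W) (γ W) T fun _ => θ')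
    (fun τ W => col k τ W = 0) (δ := 2 * δ) (fun τ U hU h0 => by
      rw [sum_sub_distrib, two_mul]
      refine (norm_sub_le _ _).trans (add_le_add (d0 k τ U hU h0)
        (d1 k τ (fun _ _ => θ') (fun W0 => ⟨0, fun _ _ => θ', fun _ _ => 1, Or.inl rfl,
          fun _ _ => ?_, fun _ _ => ?_, fun _ _ _ => (mul_one _).symm⟩) U (hU.trans I.hd.1) h0))
      · rwa [abs_of_nonneg θ0]
      · rw [abs_one]
        exact Real.one_le_exp (by linarith)) univ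
  set m := (univ : Finset (Fin j × Fin q × Fin q)).card with hm
  have m3 : (m : ℝ) ≤ Y ^ 3 := by
    rw [hm, card_univ, Fintype.card_prod, Fintype.card_prod, Fintype.card_fin, Fintype.card_fin]
    push_cast
    calc _ ≤ Y * (Y * Y) := by gcongr; exact c _ (by omega)
      _ = _ := by ring
  set n := ⌊Real.exp (((Y' ^ 3) ^ (C1 + D + 1)) ^ C2)⌋₊ with hn
  set P := Sm (Fin r) K0 ×ˢ Fintype.piFinset fun _ : Fin j × Fin q × Fin q => Icc 1 n with hP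
  choose lab l1 l2 l3 l4 using fun W : Pt j q =>
    ex_lab P (fun a => cs Q a.1) fun a => ∀ τ, col a.1 τ W = a.2 τ
  set K : Pt j q → Submodule (ZMod Q) (Fin r → ZMod Q) := fun W =>
    spn (fun a => cs Q a.1) (lab W) with hK'
  set b : Pt j q → ℝ := fun W => exc (avg (K W) Ψ) (ξ W) (γ W) T (G W) θ' with hb
  have gθ : ∀ W ∈ Ω, 𝔼 s ∈ rg T, |G W s - θ'| ≤ 2 * Real.exp Y := fun W hW => by
    refine (expect_le_expect (g := fun s => G W s + θ') fun s _ =>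
      abs_le.2 ⟨by linarith [hG W s], by linarith [hG W s]⟩).trans ?_
    rw [expect_add_distrib, expect_const (rgne I.hT)]
    linarith [hm0 W]
  have s4 := est Ω ξ γ G K I.hT hc gθ u4 (fun W hW => smooth e0 (by linarith) t0
    (fun s => hG W s) (fun u => (lap_pos ρ u).le) hΨ κ0.le (I.hx W hW)) (δ := m * (2 * δ))
    (by positivity)
    (by
      calc _ = Real.exp (6 * Y ^ 2) * (m * (2 * (Real.exp (-Y ^ 3) * Real.exp Y ^ 2))) *
          (N : ℝ) ^ (j * q) := by rw [hδ]; ring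
        _ ≤ _ := mul_le_mul_of_nonneg_right (num1 y10 m3) (by positivity)
        _ = _ := mul_right_comm _ _ _
        _ ≤ _ := mul_le_mul_of_nonneg_right I.hd.2 (by positivity))
    fun k hk => d2 k _ (filter_subset _ _) fun W hW => by
      by_contra h
      refine (mem_filter.1 hW).2 (l4 W (k, fun τ => col k τ W) (mem_product.2 ⟨hk,
        Fintype.mem_piFinset.2 fun τ => mem_Icc.2 ⟨?_, Nat.le_floor (k1 k τ W)⟩⟩) fun _ => rfl)
      exact Nat.one_le_iff_ne_zero.2 fun h' => h ⟨τ, mem_univ _, h'⟩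
  have s5 := mark Ω b κ0 κE (fun W hW => le_trans (expect_le_expect fun s _ =>
    (mul_le_mul_of_nonneg_left (sub_le_self _ θ0) ((avg_ll hL).pos _).le).trans
      (mul_le_of_le_one_left (hG W s) ((avg_ll hL).le_one _))) (hm0 W)) I.hd.2 s4
  set Ω' := Ω.filter fun W => Real.exp (-Y) / 8 ≤ b W with hΩ'
  obtain ⟨d, hd⟩ := pick Ω' (labs r P) lab l1 0 (B := Y' ^ C) (by positivity) s5
    (le_trans (mul_le_mul_of_nonneg_left (Nat.cast_le.2 (card_P K0 n)) (by positivity))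
      (le_trans (by gcongr) ((num2 (D := 3 * (C1 + D + 1) * C2) z10 (I.hr.trans hYY)
        (hK.trans (Real.exp_le_exp.2 (by linarith)))
        (by rw [pow_mul, pow_mul]; exact Nat.floor_le (Real.exp_pos _).le) (m3.trans z4)).trans
        (Real.exp_le_exp.2 (pw_le z1 (by omega))))))
  set Ω1 := Ω'.filter fun W => lab W = d with hΩ1
  have s6 : Dn Ω1 N (Y' ^ C) :=
    ⟨((filter_subset _ _).trans (filter_subset _ _)).trans I.hd.1, hd⟩
  have hΩ : ∀ W ∈ Ω1, W ∈ bp j q N ∧ lab W = d ∧ Real.exp (-Y) / 8 ≤ b W := fun W hW =>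
    ⟨s6.1 hW, (mem_filter.1 hW).2, (mem_filter.1 (mem_filter.1 hW).1).2⟩
  obtain ⟨W0, hW0⟩ := s6.nonempty (I.hT.trans I.hTN)
  obtain rfl := (hΩ W0 hW0).2.1
  obtain ⟨p1, p2⟩ := mem_sigma.1 (l1 W0)
  have p3 := fun a => mem_product.1 (Fintype.mem_piFinset.1 p2 a)
  refine ⟨(lab W0).1, K0 + 1, fun a => ((lab W0).2 a).1, avg (K W0) Ψ, Ω1,
    ⟨Nat.lt_succ_iff.1 (mem_range.1 p1), Nat.le_add_left _ _, ?_, fun a => Sm_succ (p3 a).1,
      l3 W0, avg_ll hL, fun u v h => avg_add Ψ u (spn_perp h), s6, fun W hW => ?_⟩, ?_⟩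
  · push_cast
    linarith [Real.exp_le_exp.2 z2]
  · have a1 : _ ≤ exc (avg (K W) Ψ) (ξ W) (γ W) T (G W) θ' := (hΩ W hW).2.2
    rw [show K W = K W0 from congrArg (spn _) (hΩ W hW).2.1] at a1
    exact ((Real.exp_le_exp.2 (neg_le_neg z2)).trans u6).trans a1
  · intro i l l' W a a' w1 w2 w3 w4
    funext x
    have hm : ∀ V ∈ Ω1, V ∈ (bp j q N).filter fun V =>
        col ((lab W0).2 x).1 (i, l, l') V = ((lab W0).2 x).2 (i, l, l') := fun V hV => by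
      refine mem_filter.2 ⟨(hΩ V hV).1, ?_⟩
      have := l2 V
      rw [(hΩ V hV).2.1] at this
      exact this x _
    exact k2 ((lab W0).2 x).1 (i, l, l') _ (Nat.one_le_iff_ne_zero.1
      (mem_Icc.1 (Fintype.mem_piFinset.1 (p3 x).2 _)).1) W a a' (hm _ w1) (hm _ w2) (hm _ w3)
      (hm _ w4)

end Vale.Agent.P057H.H56
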