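import Vale.Agent.P057L.Defs

/-! The end game: from the increment with a cost polynomial in the gain to the final bound. -/

set_option linter.all false

open Finset Filter
open scoped BigOperators

namespace Vale.Agent.P057H.EndG

open Vale.Agent.P057L

/-- the increment for the densities in the class `Ok` -/
def IncOn (Ok : ℝ → Prop) (k : ℕ) (η E : ℝ) (C : ℕ) : Prop :=
  ∀ (α : ℝ) (N : ℕ) (A : Finset ℤ), Ok α → 0 < α → 1 ≤ N → A ⊆ rg N → APF k A → α * N ≤ A.card →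
    E * (1 / α) ^ C ≤ Real.log N →
    ∃ (lam : ℝ) (L : ℕ) (A' : Finset ℤ), Ok (lam * α) ∧ 1 + η ≤ lam ∧ 1 ≤ L ∧ A' ⊆ rg L ∧
      APF k A' ∧ lam * α * L ≤ A'.card ∧ Real.log N ≤ lam ^ C * Real.log L

/-- the increment for dyadic densities -/
def IncD (k : ℕ) (E : ℝ) (D : ℕ) : Prop :=
  ∀ (n N : ℕ) (A : Finset ℤ), 1 ≤ N → A ⊆ rg N → APF k A → (N : ℝ) ≤ 2 ^ n * A.card →
    E * 2 ^ (D * n) ≤ Real.log N →
    ∃ (i L : ℕ) (A' : Finset ℤ), 1 ≤ i ∧ i ≤ n ∧ 1 ≤ L ∧ A' ⊆ rg L ∧ APF k A' ∧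
      (L : ℝ) ≤ 2 ^ (n - i) * A'.card ∧ Real.log N ≤ 2 ^ (D * i) * Real.log L

/-- the bound for sets of integers -/
def Bnd (k : ℕ) : Prop :=
  ∃ (E : ℝ) (C : ℕ), ∀ (N : ℕ) (A : Finset ℤ), 1 ≤ N → A ⊆ rg N → APF k A → A.Nonempty →
    Real.log N ≤ E * ((N : ℝ) / A.card) ^ C

/-- the statement of the hand-in -/
def Res (k : ℕ) : Prop :=
  ∃ c : ℝ, 0 < c ∧ ∃ N₀ : ℕ, ∀ N : ℕ, N₀ ≤ N → ∀ A : Finset ℕ, A ⊆ Icc 1 N →
    (∀ a d : ℕ, 0 < d → ¬ ∀ i : ℕ, i < k → a + i * d ∈ A) →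
    (A.card : ℝ) ≤ N / Real.log N ^ c

theorem card_rg (L : ℕ) : (rg L).card = L := by simp [rg]

theorem iter {Ok : ℝ → Prop} {k C : ℕ} {η E : ℝ} (η0 : 0 < η) (h : IncOn Ok k η E C)
    {α : ℝ} {N : ℕ} {A : Finset ℤ} (ho : Ok α) (α0 : 0 < α) (N1 : 1 ≤ N) (hA : A ⊆ rg N)
    (hF : APF k A) (hc : α * N ≤ A.card) : Real.log N < E * (1 / α) ^ C := by
  obtain ⟨m, hm⟩ := pow_unbounded_of_one_lt (1 / α) (by linarith : 1 < 1 + η)
  rw [div_lt_iff₀' α0] at hm
  induction m generalizing α N A with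
  | zero =>
    have a : (A.card : ℝ) ≤ N := by exact_mod_cast (card_le_card hA).trans (card_rg N).le
    have b : (0 : ℝ) < N := by exact_mod_cast N1
    rw [pow_zero, mul_one] at hm
    nlinarith
  | succ m ih =>
    by_contra hN
    obtain ⟨lam, L, A', o, l1, L1, a, b, c, d⟩ := h α N A ho α0 N1 hA hF hc (not_lt.1 hN)
    have l0 : 0 < lam := by linarith
    have := ih o (mul_pos l0 α0) L1 a b c (hm.trans_le (by
      rw [pow_succ', ← mul_assoc, mul_comm α]
      exact mul_le_mul_of_nonneg_right (mul_le_mul_of_nonneg_right l1 α0.le) (by positivity)))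
    refine hN (d.trans_lt ((mul_lt_mul_of_pos_left this (pow_pos l0 C)).trans_eq ?_))
    rw [mul_left_comm, ← mul_pow]
    congr 2
    field_simp

theorem bnd_of {k C : ℕ} {η E : ℝ} (η0 : 0 < η) (h : IncOn (fun _ => True) k η E C) : Bnd k := by
  refine ⟨E, C, fun N A N1 hA hF hn => ?_⟩
  have a : (0 : ℝ) < A.card := by exact_mod_cast hn.card_pos
  have b : (0 : ℝ) < N := by exact_mod_cast N1
  have := iter η0 h trivial (div_pos a b) N1 hA hF (div_mul_cancel₀ _ b.ne').le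
  rw [one_div_div] at this
  exact this.le

theorem iterD {k D : ℕ} {E : ℝ} (h : IncD k E D) (n : ℕ) : ∀ (N : ℕ) (A : Finset ℤ), 1 ≤ N →
    A ⊆ rg N → APF k A → (N : ℝ) ≤ 2 ^ n * A.card → Real.log N < E * 2 ^ (D * n) := by
  induction n using Nat.strong_induction_on with
  | _ n ih =>
    intro N A N1 hA hF hc
    by_contra hN
    obtain ⟨i, L, A', i1, i2, L1, a, b, c, d⟩ := h n N A N1 hA hF hc (not_lt.1 hN)
    have := ih (n - i) (by omega) L A' L1 a b c
    refine hN (d.trans_lt ((mul_lt_mul_of_pos_left this (by positivity)).trans_eq ?_))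
    rw [mul_left_comm, ← pow_add, ← mul_add, Nat.add_sub_cancel' i2]

theorem bnd_ofD {k D : ℕ} {E : ℝ} (h : IncD k E D) : Bnd k := by
  refine ⟨|E| * 2 ^ D, D, fun N A N1 hA hF hn => ?_⟩
  have a : (0 : ℝ) < A.card := by exact_mod_cast hn.card_pos
  have b : (0 : ℝ) < N := by exact_mod_cast N1
  have c : (A.card : ℝ) ≤ N := by exact_mod_cast (card_le_card hA).trans (card_rg N).le
  obtain ⟨n, h1, h2⟩ := exists_nat_pow_near ((one_le_div a).2 c) (by norm_num : (1 : ℝ) < 2)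
  have := iterD h (n + 1) N A N1 hA hF ((div_le_iff₀ a).1 h2.le)
  refine this.le.trans ((mul_le_mul_of_nonneg_right (le_abs_self E) (by positivity)).trans ?_)
  rw [mul_assoc, ← mul_pow, mul_comm D, pow_mul, pow_succ']
  gcongr

theorem res_of {k : ℕ} (hk : 1 ≤ k) (h : Bnd k) : Res k := by
  obtain ⟨E, C, h⟩ := h
  have c0 : (0 : ℝ) < 2 * (C + 1) := by positivity
  refine ⟨1 / (2 * (C + 1)), by positivity, ?_⟩
  have t1 : Tendsto (fun N : ℕ => Real.log N) atTop atTop :=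
    Real.tendsto_log_atTop.comp tendsto_natCast_atTop_atTop
  obtain ⟨N₀, hN₀⟩ := eventually_atTop.1 (((t1.eventually_ge_atTop (E ^ 2)).and
    (t1.eventually_ge_atTop 1)).and (eventually_ge_atTop 1))
  refine ⟨N₀, fun N hN A hA hF => ?_⟩
  obtain ⟨⟨a1, a2⟩, N1⟩ := hN₀ N hN
  have b : (0 : ℝ) < N := by exact_mod_cast N1
  have l0 : 0 < Real.log N := by linarith
  rcases A.eq_empty_or_nonempty with rfl | hn
  · simp only [card_empty, Nat.cast_zero]
    positivity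
  have inj : Function.Injective fun a : ℕ => (a : ℤ) - 1 := fun a b e => by
    have : (a : ℤ) - 1 = b - 1 := e
    omega
  have key := h N (A.image fun a : ℕ => (a : ℤ) - 1) N1
    (by
      intro z hz
      obtain ⟨a, ha, rfl⟩ := mem_image.1 hz
      have := mem_Icc.1 (hA ha)
      rw [rg, mem_Ico]
      omega)
    (by
      intro a d hd H
      obtain ⟨a0, -, e0⟩ := mem_image.1 (H 0 (by omega))
      refine hF a0 d.toNat (by omega) fun i hi => ?_
      obtain ⟨b, hb, e⟩ := mem_image.1 (H i hi)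
      have e1 : ((a0 + i * d.toNat : ℕ) : ℤ) = b := by
        rw [Nat.cast_add, Nat.cast_mul, Int.toNat_of_nonneg hd.le]
        rw [Nat.cast_zero, zero_mul, add_zero] at e0
        linarith
      rwa [Nat.cast_injective e1]) (hn.image _)
  rw [card_image_of_injective _ inj] at key
  have a : (0 : ℝ) < A.card := by exact_mod_cast hn.card_pos
  have c : (A.card : ℝ) ≤ N := by
    exact_mod_cast (card_le_card hA).trans (by simp)
  have r1 : 1 ≤ (N : ℝ) / A.card := (one_le_div a).2 c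
  rw [le_div_iff₀ (by positivity), ← le_div_iff₀' a]
  generalize (N : ℝ) / A.card = x at key r1
  generalize Real.log N = u at a1 a2 l0 key
  have p1 : x ^ C ≤ x ^ (C + 1) := pow_le_pow_right₀ r1 (by omega)
  have p0 : 0 ≤ x ^ C := by positivity
  have k1 : u ≤ |E| * x ^ (C + 1) :=
    key.trans (mul_le_mul (le_abs_self E) p1 p0 (abs_nonneg E))
  have k2 : u ^ 2 ≤ E ^ 2 * (x ^ (C + 1)) ^ 2 := by
    rw [← sq_abs E, ← mul_pow]
    exact pow_le_pow_left₀ l0.le k1 2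
  have k3 : u ≤ x ^ (2 * (C + 1)) := by
    rw [mul_comm, pow_mul]
    have := mul_le_mul_of_nonneg_right a1 (sq_nonneg (x ^ (C + 1)))
    nlinarith
  have k4 := Real.rpow_le_rpow l0.le k3 (by positivity : 0 ≤ 1 / (2 * ((C : ℝ) + 1)))
  rw [← Real.rpow_natCast x, ← Real.rpow_mul (by linarith)] at k4
  have e : ((2 * (C + 1) : ℕ) : ℝ) * (1 / (2 * ((C : ℝ) + 1))) = 1 := by
    push_cast
    field_simp
  rwa [e, Real.rpow_one] at k4

theorem res {k C : ℕ} {η E : ℝ} (hk : 1 ≤ k) (η0 : 0 < η) (h : IncOn (fun _ => True) k η E C) :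
    Res k := res_of hk (bnd_of η0 h)

theorem resD {k D : ℕ} {E : ℝ} (hk : 1 ≤ k) (h : IncD k E D) : Res k := res_of hk (bnd_ofD h)

end Vale.Agent.P057H.EndG
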