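import Vale.Agent.P057H.Defs
import Vale.Agent.P057H.EndG

/-! From the increment to the final bound. -/

set_option linter.all false

open Finset
open scoped BigOperators

namespace Vale.Agent.P057H

open Vale.Agent.P057L

theorem Fin.incOn (h : INCH) (j : ℕ) : ∃ (η E : ℝ) (C : ℕ), 0 < η ∧
    EndG.IncOn (fun _ => True) (j + 3) η E C := by
  obtain ⟨η, η0, C, h⟩ := h j
  refine ⟨η, Real.exp C, C, η0, fun α N A _ α0 N1 hA hF hc hN => ?_⟩
  have b : (0 : ℝ) < N := by exact_mod_cast N1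
  have c : (A.card : ℝ) ≤ N := by exact_mod_cast (card_le_card hA).trans (EndG.card_rg N).le
  have a1 : α ≤ 1 := by nlinarith
  have a2 : α ≤ A.card / N := (le_div_iff₀ b).2 hc
  have e : Real.exp (- -Real.log α) = α := by rw [neg_neg, Real.exp_log α0]
  obtain ⟨lam, L, A', l1, lg, p, q, r⟩ := h (-Real.log α) (A.card / N) N A
    (neg_nonneg.2 (Real.log_nonpos α0.le a1)) (le_trans (le_of_eq (by
      rw [mul_add, mul_one, Real.exp_add, mul_comm, Real.exp_nat_mul, Real.exp_neg,
        Real.exp_log α0, one_div])) hN) hA hF (e.le.trans a2) (div_mul_cancel₀ _ b.ne')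
  exact ⟨lam, L, A', trivial, l1, lg.1, p, q, le_trans (mul_le_mul_of_nonneg_right
    (mul_le_mul_of_nonneg_left a2 (by linarith)) (Nat.cast_nonneg _)) r, lg.2⟩

theorem result_of (h : INCH) : RESULT := by
  intro k hk
  obtain ⟨j, rfl⟩ : ∃ j, k = j + 3 := ⟨k - 3, by omega⟩
  obtain ⟨η, E, C, η0, h⟩ := Fin.incOn h j
  exact EndG.res (by omega) η0 h

end Vale.Agent.P057H
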