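import Vale.Agent.P057H.Defs

/-! The product forms. -/

set_option linter.all false

open Finset
open scoped BigOperators Classical

namespace Vale.Agent.P057H

open Vale.Agent.P057Z Vale.Agent.P057L

theorem Gfh.ss_e {j : ℕ} (S : Finset (Fin j)) (W : Pt j 1) (i : Fin j) (l : Fin 1) (a : ℤ) :
    ss S (W + e1 i l a) = ss S W + if i ∈ S then a else 0 := by
  obtain rfl : l = 0 := Subsingleton.elim _ _
  simp only [ss, e1, Pi.add_apply, sum_add_distrib]
  congr 1
  rw [← sum_pi_single']
  refine sum_congr rfl fun x _ => ?_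
  by_cases h : x = i
  · subst h
    simp
  · simp [Pi.single_eq_of_ne h]

theorem gfh : GFH := by
  intro j Λ _ g lam M z Υ F hM hg h0 h1
  refine ⟨fun υ W s => if lb Υ W s = υ then GG g lam z Υ F W s else 0, fun υ i l l' W0 => ?_,
    fun W s => by simp⟩
  refine ⟨1, fun s a => if ∀ S, i ∉ S → Υ S (ss S W0 + (s - a)) = υ S then 1 else 0,
    fun s b => if ∀ S, i ∈ S → Υ S (ss S W0 + b + s) = υ S then
      (if F υ then g (z + (ss univ W0 + b) + s) else lam) else 0, Or.inr rfl, fun s a => ?_,
    fun s b => ?_, fun a b s => ?_⟩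
  · dsimp only
    split_ifs
    · rwa [abs_one]
    · rw [abs_zero]; linarith
  · dsimp only
    split_ifs
    · rw [abs_of_nonneg (hg _).1]; exact (hg _).2
    · rwa [abs_of_nonneg h0]
    · rw [abs_zero]; linarith
  · have e : lb Υ (W0 + e1 i l a + e1 i l' b) s = υ ↔
        (∀ S, i ∉ S → Υ S (ss S W0 + (s + 1 * a - a)) = υ S) ∧
          ∀ S, i ∈ S → Υ S (ss S W0 + b + (s + 1 * a)) = υ S := by
      rw [funext_iff]
      simp only [lb, Gfh.ss_e]
      refine ⟨fun h => ⟨fun S k => ?_, fun S k => ?_⟩, fun h S => ?_⟩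
      · rw [← h S, if_neg k, if_neg k]; congr 1; ring
      · rw [← h S, if_pos k, if_pos k]; congr 1; ring
      · by_cases k : i ∈ S
        · rw [← h.2 S k, if_pos k, if_pos k]; congr 1; ring
        · rw [← h.1 S k, if_neg k, if_neg k]; congr 1; ring
    dsimp only
    by_cases k : lb Υ (W0 + e1 i l a + e1 i l' b) s = υ
    · rw [if_pos k, if_pos (e.1 k).1, if_pos (e.1 k).2, one_mul, GG, k, Gfh.ss_e, Gfh.ss_e,
        if_pos (mem_univ i), if_pos (mem_univ i)]
      congr 2
      ring
    · rw [if_neg k]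
      rcases not_and_or.1 (mt e.2 k) with h | h
      · rw [if_neg h, zero_mul]
      · rw [if_neg h, mul_zero]

end Vale.Agent.P057H
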