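import Vale.Agent.P057H.Defs

/-! The model on the integers from the cyclic model. -/

set_option linter.all false

open Finset
open scoped BigOperators Classical

namespace Vale.Agent.P057H.Moi

open Vale.Agent.P057Z Vale.Agent.P057L Vale.Agent.P057H

noncomputable section

variable {j M : ℕ}

/-- the integer lift of a cyclic point -/
def lf (W : Fin j → ZMod M) : Pt j 1 := fun i _ => ((W i).val : ℤ)

theorem mbp {N : ℕ} {W : Pt j 1} : W ∈ bp j 1 N ↔ ∀ i, 0 ≤ W i 0 ∧ W i 0 < N := by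
  simp only [bp, bz, rg, Fintype.mem_piFinset, mem_Ico]
  constructor
  · intro h i; exact h i 0
  · intro h i m; rw [Subsingleton.elim m 0]; exact h i

theorem ss_bd {N : ℕ} {W : Pt j 1} (h : W ∈ bp j 1 N) (S : Finset (Fin j)) :
    0 ≤ ss S W ∧ ss S W ≤ j * N := by
  rw [mbp] at h
  refine ⟨sum_nonneg fun i _ => (h i).1, ?_⟩
  calc ss S W ≤ ∑ i ∈ S, (N : ℤ) := sum_le_sum fun i _ => (h i).2.le
    _ = S.card * N := by simp
    _ ≤ j * N := by
      have : S.card ≤ j := by simpa using card_le_univ S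
      have h2 : (S.card : ℤ) ≤ j := by exact_mod_cast this
      exact mul_le_mul_of_nonneg_right h2 (by positivity)

theorem val_cast [NeZero M] {a : ℤ} (h0 : 0 ≤ a) (h1 : a < M) : (((a : ZMod M)).val : ℤ) = a := by
  rw [ZMod.val_intCast]; exact Int.emod_eq_of_lt h0 h1

theorem sc_eq [NeZero M] (S : Finset (Fin j)) (ω : Oc j M) :
    sc S ω = ((ss S (lf ω.1) + ω.2.1.val + ω.2.2.val : ℤ) : ZMod M) := by
  simp [sc, ss, lf]

theorem sum_blocks (f : ℤ → ℝ) (L : ℕ) (c : ℝ) (h : ∀ x : ℤ, ∑ v ∈ rg L, f (x + v) ≤ L * c)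
    (x : ℤ) (n : ℕ) : ∑ t ∈ range (n * L), f (x + t) ≤ n * (L * c) := by
  induction n with
  | zero => simp
  | succ n ih =>
    rw [Nat.succ_mul, sum_range_add]
    have h2 := h (x + n * L)
    have e : ∑ v ∈ rg L, f (x + n * L + v) = ∑ t ∈ range L, f (x + ((n * L + t : ℕ) : ℤ)) := by
      symm
      refine sum_bij (fun t _ => (t : ℤ)) ?_ ?_ ?_ ?_
      · intro t ht; simp only [rg, mem_Ico]; have := mem_range.1 ht; omega
      · intro a _ b _ hab; exact_mod_cast hab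
      · intro v hv; simp only [rg, mem_Ico] at hv
        exact ⟨v.toNat, mem_range.2 (by omega), by omega⟩
      · intro t _; congr 1; push_cast; ring
    rw [e] at h2
    push_cast at h2 ⊢
    linarith

theorem sum_zmod [NeZero M] (g : ℕ → ℝ) : ∑ x : ZMod M, g x.val = ∑ t ∈ range M, g t := by
  refine sum_bij (fun x _ => x.val) ?_ ?_ ?_ ?_
  · intro x _; exact mem_range.2 (ZMod.val_lt x)
  · intro a _ b _ hab; exact ZMod.val_injective M hab
  · intro t ht; exact ⟨(t : ZMod M), mem_univ _, ZMod.val_cast_of_lt (mem_range.1 ht)⟩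
  · intro x _; rfl

theorem mean_per [NeZero M] (f : ℤ → ℝ) (L n : ℕ) (c : ℝ) (hL : 1 ≤ L) (hc : 0 ≤ c)
    (hM : n * L ≤ M) (h : ∀ x : ℤ, 𝔼 v ∈ rg L, f (x + v) ≤ c) (x : ℤ) :
    𝔼 y, per f x (n * L) M y ≤ c := by
  have hL0 : (0 : ℝ) < L := by exact_mod_cast hL
  have hM0 : (0 : ℝ) < M := by exact_mod_cast Nat.pos_of_ne_zero (NeZero.ne M)
  have h1 : ∀ x : ℤ, ∑ v ∈ rg L, f (x + v) ≤ L * c := by
    intro x
    have := h x
    rw [expect_eq_sum_div_card] at this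
    have hc : ((rg L).card : ℝ) = L := by simp [rg]
    rw [hc, div_le_iff₀ hL0] at this
    linarith
  have h2 := sum_blocks f L c h1 x n
  rw [expect_eq_sum_div_card, card_univ, ZMod.card, div_le_iff₀ hM0]
  have e : ∑ y : ZMod M, per f x (n * L) M y = ∑ t ∈ range (n * L), f (x + t) := by
    unfold per
    rw [sum_zmod (M := M) (fun t => if t < n * L then f (x + t) else 0), ← sum_filter]
    refine sum_congr ?_ fun _ _ => rfl
    ext t; simp only [mem_filter, mem_range]; omega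
  rw [e]
  have h3 : ((n * L : ℕ) : ℝ) ≤ M := by exact_mod_cast hM
  push_cast at h3
  nlinarith

theorem transfer [NeZero M] (L : ℕ) (hL : 1 ≤ L) (hM : (j + 16) * L ≤ M) (G : Pt j 1 → ℤ → ℤ → ℝ) :
    ∑ ω : Oc j M, (if lf ω.1 ∈ bp j 1 L ∧ (ω.2.1.val : ℤ) - 4 * L ∈ sy (4 * L) ∧
        (ω.2.2.val : ℤ) - 4 * L ∈ sy (4 * L) then
      G (lf ω.1) (ω.2.1.val - 4 * L) (ω.2.2.val - 4 * L) else 0) =
    ∑ W ∈ bp j 1 L, ∑ y ∈ sy (4 * L), ∑ v ∈ sy (4 * L), G W y v := by
  have hM' : ((j : ℤ) + 16) * L ≤ M := by exact_mod_cast hM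
  have hj : (0 : ℤ) ≤ (j : ℤ) * L := by positivity
  have hL' : (1 : ℤ) ≤ L := by exact_mod_cast hL
  have e : ∑ W ∈ bp j 1 L, ∑ y ∈ sy (4 * L), ∑ v ∈ sy (4 * L), G W y v =
      ∑ p ∈ bp j 1 L ×ˢ (sy (4 * L) ×ˢ sy (4 * L)), G p.1 p.2.1 p.2.2 := by
    rw [sum_product]; refine sum_congr rfl fun W _ => ?_; rw [sum_product]
  rw [e, ← sum_filter]
  refine sum_bij (fun ω _ => (lf ω.1, (ω.2.1.val : ℤ) - 4 * L, (ω.2.2.val : ℤ) - 4 * L)) ?_ ?_ ?_ ?_
  · intro ω hω
    simp only [mem_filter, mem_univ, true_and] at hω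
    exact mem_product.2 ⟨hω.1, mem_product.2 hω.2⟩
  · intro a _ b _ hab
    simp only [Prod.mk.injEq] at hab
    obtain ⟨h1, h2, h3⟩ := hab
    refine Prod.ext ?_ (Prod.ext ?_ ?_)
    · funext i
      have := congrFun (congrFun h1 i) 0
      simp only [lf] at this
      exact ZMod.val_injective M (by exact_mod_cast this)
    · exact ZMod.val_injective M (by omega)
    · exact ZMod.val_injective M (by omega)
  · rintro ⟨W, y, v⟩ hp
    simp only [mem_product] at hp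
    obtain ⟨hW, hy, hv⟩ := hp
    have hW' := mbp.1 hW
    have hy' := hy
    have hv' := hv
    simp only [sy, mem_Ioo] at hy' hv'
    push_cast at hy' hv'
    have e1 : lf (fun i => ((W i 0 : ℤ) : ZMod M)) = W := by
      funext i m
      rw [Subsingleton.elim m 0]
      exact val_cast (hW' i).1 (by nlinarith [(hW' i).2])
    have e2 : ((((y + 4 * L : ℤ) : ZMod M)).val : ℤ) - 4 * L = y := by
      rw [val_cast (by omega) (by nlinarith)]; ring
    have e3 : ((((v + 4 * L : ℤ) : ZMod M)).val : ℤ) - 4 * L = v := by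
      rw [val_cast (by omega) (by nlinarith)]; ring
    refine ⟨(fun i => ((W i 0 : ℤ) : ZMod M), ((y + 4 * L : ℤ) : ZMod M),
      ((v + 4 * L : ℤ) : ZMod M)), ?_, ?_⟩
    · simp only [mem_filter, mem_univ, true_and]
      rw [e1, e2, e3]; exact ⟨hW, hy, hv⟩
    · simp only [e1, e2, e3]
  · intro ω _; rfl

theorem mo_of_nc [NeZero M] (L : ℕ) (hL : 1 ≤ L) (hM : (j + 16) * L ≤ M) (f : ℤ → ℝ) (x0 : ℤ)
    (g : ZMod M → ℝ) (ε : ℝ)
    (h : Nc j M (fun x => per f (x0 - 8 * L) ((j + 16) * L) M x - g x) ε)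
    (a b : Pt j 1 → ℤ → ℝ) (H : Finset (Fin j) → ℤ → ℝ) (ha : ∀ W y, |a W y| ≤ 1)
    (hb : ∀ W v, |b W v| ≤ 1) (hH : ∀ S x, |H S x| ≤ 1) :
    |∑ W ∈ bp j 1 L, ∑ y ∈ sy (4 * L), ∑ v ∈ sy (4 * L), a W y * b W v *
      (∏ S ∈ (univ : Finset (Finset (Fin j))).erase univ, H S (ss S W + y + v)) *
      (f (x0 + ss univ W + y + v) -
        g ((x0 + ss univ W + y + v - (x0 - 8 * L) : ℤ) : ZMod M))| ≤ ε * (M : ℝ) ^ (j + 2) := by
  have hM' : ((j : ℤ) + 16) * L ≤ M := by exact_mod_cast hM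
  have hL' : (1 : ℤ) ≤ L := by exact_mod_cast hL
  have hM0 : (0 : ℝ) < M := by exact_mod_cast Nat.pos_of_ne_zero (NeZero.ne M)
  have key := h
    (fun W y => if lf W ∈ bp j 1 L ∧ (y.val : ℤ) - 4 * L ∈ sy (4 * L) then
      a (lf W) (y.val - 4 * L) else 0)
    (fun W v => if (v.val : ℤ) - 4 * L ∈ sy (4 * L) then b (lf W) (v.val - 4 * L) else 0)
    (fun S x => H S (x.val - 8 * L))
    (fun W y => by split_ifs; exacts [ha _ _, by simp])
    (fun W v => by split_ifs; exacts [hb _ _, by simp])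
    (fun S x => hH _ _)
  rw [expect_eq_sum_div_card, abs_div] at key
  have hc : ((univ : Finset (Oc j M)).card : ℝ) = (M : ℝ) ^ (j + 2) := by
    simp [card_univ, Fintype.card_prod, ZMod.card]; ring
  rw [hc, abs_of_pos (pow_pos hM0 _), div_le_iff₀ (pow_pos hM0 _)] at key
  rw [← transfer (M := M) L hL hM]
  refine le_of_eq_of_le (congrArg _ (sum_congr rfl fun ω _ => ?_)) key
  by_cases h1 : lf ω.1 ∈ bp j 1 L
  swap
  · rw [if_neg (fun h => h1 h.1), if_neg (fun h => h1 h.1), zero_mul, zero_mul, zero_mul]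
  by_cases h2 : (ω.2.1.val : ℤ) - 4 * L ∈ sy (4 * L)
  swap
  · rw [if_neg (fun h => h2 h.2.1), if_neg (fun h => h2 h.2), zero_mul, zero_mul, zero_mul]
  by_cases h3 : (ω.2.2.val : ℤ) - 4 * L ∈ sy (4 * L)
  swap
  · rw [if_neg (fun h => h3 h.2.2), if_neg h3, mul_zero, zero_mul, zero_mul]
  have h2' := h2
  have h3' := h3
  simp only [sy, mem_Ioo] at h2' h3'
  push_cast at h2' h3'
  have hv : ∀ S, ((sc S ω).val : ℤ) = ss S (lf ω.1) + ω.2.1.val + ω.2.2.val := by
    intro S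
    have := ss_bd h1 S
    rw [sc_eq, val_cast (by omega) (by nlinarith)]
  rw [if_pos ⟨h1, h2, h3⟩, if_pos ⟨h1, h2⟩, if_pos h3]
  have e1 : ∀ S, ((sc S ω).val : ℤ) - 8 * L =
      ss S (lf ω.1) + ((ω.2.1.val : ℤ) - 4 * L) + ((ω.2.2.val : ℤ) - 4 * L) := by
    intro S; rw [hv]; ring
  simp only [e1]
  congr 1
  have hlt : (sc univ ω).val < (j + 16) * L := by
    have := ss_bd h1 univ
    have h4 := hv univ
    have : ((sc univ ω).val : ℤ) < ((j : ℤ) + 16) * L := by nlinarith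
    exact_mod_cast this
  unfold per
  rw [if_pos hlt, hv]
  congr 1
  · congr 1; ring
  · congr 1
    rw [sc_eq]; congr 1; ring

theorem moi (hZ : ZH) (hW : WND) : MOI := by
  intro j
  refine ⟨64 * ((2 * j + 18) ^ (j + 2)) ^ 2, ?_⟩
  intro L f lam lam' m ε x0 hL hf hlam hlam' hε hε1 hC hmean hSt
  set K : ℝ := (2 * j + 18 : ℝ) ^ (j + 2) with hK
  have hK1 : 1 ≤ K := one_le_pow₀ (by have : (0 : ℝ) ≤ j := Nat.cast_nonneg j; linarith)
  have hC' : 64 * K ^ 2 * lam * lam' ≤ m * ε ^ 2 := by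
    rw [hK]; push_cast at hC; exact hC
  have hll : 1 ≤ lam * lam' := one_le_mul_of_one_le_of_one_le hlam hlam'
  have hK2 : 1 ≤ K ^ 2 := one_le_pow₀ hK1
  have hpos : 0 < m * ε ^ 2 := by nlinarith
  have hm0 : 0 < m := by
    by_contra hn
    have : m * ε ^ 2 ≤ 0 := mul_nonpos_of_nonpos_of_nonneg (not_lt.1 hn) (sq_nonneg ε)
    linarith
  have hε2 : ε ^ 2 ≤ ε := by nlinarith
  have hmε : m * ε ^ 2 ≤ m * ε := mul_le_mul_of_nonneg_left hε2 hm0.le
  have hmm : m * ε ≤ m := by nlinarith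
  have hA : 64 * K ^ 2 * (lam * lam') ≤ m := by nlinarith
  have hB : 64 * (lam * lam') ≤ m := by nlinarith
  have hm64 : 64 ≤ m := by nlinarith
  have hlm : lam' ≤ m := by nlinarith
  haveI : NeZero ((2 * j + 18) * L) := ⟨by positivity⟩
  set n : ℕ := ⌊m / 2⌋₊ with hn
  have hn1 : (n : ℝ) ≤ m / 2 := Nat.floor_le (by linarith)
  have hn2 : m / 2 < n + 1 := Nat.lt_floor_add_one _
  have hV : ¬ Vc j ((2 * j + 18) * L) (per f (x0 - 8 * L) ((j + 16) * L) ((2 * j + 18) * L)) lam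
      (2 / m) n := by
    intro hV
    refine hSt (hW j _ _ L n f _ lam lam' (2 / m) m hL (le_of_eq (by ring)) hf (by linarith) hlam'
      (by linarith) hmean (le_of_eq (by field_simp)) ?_ hV)
    have h1 : (2 : ℝ) ^ n ≤ Real.exp (m / 2) := by
      calc (2 : ℝ) ^ n ≤ Real.exp 1 ^ n :=
            pow_le_pow_left₀ (by norm_num) (by have := Real.add_one_le_exp 1; linarith) n
        _ = Real.exp n := by rw [← Real.exp_nat_mul, mul_one]
        _ ≤ _ := Real.exp_le_exp.2 hn1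
    have h2 : m * lam' ≤ Real.exp (m / 2) := by
      have h3 := Real.pow_div_factorial_le_exp (m / 2) (by linarith) 3
      have h4 : ((Nat.factorial 3 : ℕ) : ℝ) = 6 := by norm_num [Nat.factorial]
      rw [h4] at h3
      have h5 : m * m * 48 ≤ m * m * m := mul_le_mul_of_nonneg_left (by linarith) (by positivity)
      nlinarith
    calc (2 : ℝ) ^ n * m * lam' = 2 ^ n * (m * lam') := by ring
      _ ≤ Real.exp (m / 2) * Real.exp (m / 2) :=
          mul_le_mul h1 h2 (by positivity) (Real.exp_pos _).le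
      _ = Real.exp m := by rw [← Real.exp_add]; congr 1; ring
  have hK0 : 0 < K := by linarith
  have s1 : 16 * lam * lam' < n * (ε / K) ^ 2 := by
    rw [div_pow, ← mul_div_assoc, lt_div_iff₀ (by positivity)]
    have h1 : m / 4 < n := by linarith
    have h2 : m / 4 * ε ^ 2 < n * ε ^ 2 := mul_lt_mul_of_pos_right h1 (by positivity)
    nlinarith
  have s2 : 4 * (2 / m) ≤ ε / K * 1 := by
    rw [mul_one, ← mul_div_assoc, div_le_div_iff₀ hm0 hK0]
    have : K ≤ K ^ 2 := by nlinarith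
    nlinarith
  obtain ⟨g, hg, hN⟩ := hZ j ((2 * j + 18) * L) _ lam 1 (ε / K) (2 / m) lam' n
    (fun x => by unfold per; split_ifs; exacts [hf _, le_rfl])
    (mean_per f L (j + 16) lam' hL (by linarith) (Nat.mul_le_mul_right _ (by omega)) hmean _)
    (by linarith) one_pos le_rfl (by positivity) s1 s2 hV
  refine ⟨fun x => g ((x - (x0 - 8 * L) : ℤ) : ZMod ((2 * j + 18) * L)),
    fun x => ⟨(hg _).1, by have := (hg ((x - (x0 - 8 * L) : ℤ) : ZMod _)).2; linarith⟩, ?_⟩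
  intro a b H ha hb hH
  refine (mo_of_nc L hL (Nat.mul_le_mul_right _ (by omega)) f x0 g _ hN a b H ha hb hH).trans
    (le_of_eq ?_)
  push_cast
  rw [mul_pow, ← hK]; field_simp

end

end Vale.Agent.P057H.Moi
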