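import Vale.Agent.P057H.Defs

/-! Change of the form of a state. -/

set_option linter.all false

open Finset
open scoped BigOperators Classical

namespace Vale.Agent.P057H

open Vale.Agent.P057Z Vale.Agent.P057L

namespace Ms

variable {j : ℕ}

/-- the part of a set of indices after the first one -/
def dn (S : Finset (Fin (j + 1))) : Finset (Fin j) := univ.filter fun i => i.succ ∈ S

/-- shift of a set of indices -/
def up (S : Finset (Fin j)) : Finset (Fin (j + 1)) := S.map (Fin.succEmb j)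

theorem up_dn {S : Finset (Fin (j + 1))} (h : 0 ∉ S) : up (dn S) = S := by
  ext i
  refine Fin.cases ?_ (fun i => ?_) i
  · simp [up, dn, h, Fin.succ_ne_zero]
  · simp [up, dn]

theorem ins_dn {S : Finset (Fin (j + 1))} (h : 0 ∈ S) : insert 0 (up (dn S)) = S := by
  ext i
  refine Fin.cases ?_ (fun i => ?_) i
  · simp [h]
  · simp [up, dn, Fin.succ_ne_zero]

theorem ins_univ : insert 0 (up (univ : Finset (Fin j))) = univ := by
  ext i
  refine Fin.cases ?_ (fun i => ?_) i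
  · simp
  · simp [up]

theorem ss_up (S : Finset (Fin j)) (W : Pt (j + 1) 1) : ss (up S) W = ss S (Fin.tail W) := by
  simp [ss, up, Fin.tail]

theorem ss_ins (S : Finset (Fin j)) (W : Pt (j + 1) 1) :
    ss (insert 0 (up S)) W = ss S (Fin.tail W) + W 0 0 := by
  rw [← ss_up, ss, sum_insert (by simp [up, Fin.succ_ne_zero]), add_comm]
  rfl

theorem inj : Function.Injective fun W : Pt (j + 1) 1 => ((Fin.tail W : Pt j 1), W 0 0) := by
  intro W W' h
  obtain ⟨h1, h2⟩ := Prod.ext_iff.1 h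
  funext i
  refine Fin.cases ?_ (fun i => congrFun h1 i) i
  funext l
  rw [Subsingleton.elim l 0]
  exact h2

theorem p1 (j L : ℕ) (f : ℤ → ℝ) (lam m : ℝ) (hm : 1 ≤ m) (h : Md (j + 1) L f lam m) :
    St j L f lam (2 ^ j * m) := by
  obtain ⟨x0, Λ, _, Ω, Υ, F, hc, ht, hd, hx⟩ := h
  have h2 : (1 : ℝ) ≤ 2 ^ j := one_le_pow₀ one_le_two
  have h3 : m ≤ 2 ^ j * m := by nlinarith
  refine ⟨x0, Finset (Fin j) → Λ, Λ, inferInstance, inferInstance,
    Ω.image fun W : Pt (j + 1) 1 => ((Fin.tail W : Pt j 1), W 0 0), fun W v S => Υ (up S) (ss S W + v),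
    fun S => Υ (insert 0 (up S)),
    fun b u => F fun S => if 0 ∈ S then u (dn S) else b (dn S), ?_, ?_, ?_, ?_, ?_, ?_⟩
  · rw [Fintype.card_fun, Fintype.card_finset, Fintype.card_fin, Nat.cast_pow,
      show (2 : ℝ) ^ j * m = ((2 ^ j : ℕ) : ℝ) * m by push_cast; rfl, Real.exp_nat_mul]
    exact pow_le_pow_left₀ (Nat.cast_nonneg _) hc _
  · exact hc.trans (Real.exp_le_exp.2 h3)
  · intro x x'
    simp only [ins_univ]
    exact ht x x'
  · intro p hp
    obtain ⟨W, hW, rfl⟩ := mem_image.1 hp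
    have := Fintype.mem_piFinset.1 (hd.1 hW)
    exact mem_product.2 ⟨Fintype.mem_piFinset.2 fun i => this i.succ,
      Fintype.mem_piFinset.1 (this 0) 0⟩
  · rw [card_image_of_injective _ inj]
    refine le_trans ?_ hd.2
    rw [mul_one]
    exact mul_le_mul_of_nonneg_right (Real.exp_le_exp.2 (neg_le_neg h3)) (by positivity)
  · intro p hp
    obtain ⟨W, hW, rfl⟩ := mem_image.1 hp
    refine (one_div_le_one_div_of_le (by linarith) h3).trans ((hx W hW).trans_eq
      (expect_congr rfl fun v _ => ?_))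
    have e1 : lb Υ W v = fun S => if 0 ∈ S then
        lb (fun S => Υ (insert 0 (up S))) (Fin.tail W) (W 0 0 + v) (dn S)
        else Υ (up (dn S)) (ss (dn S) (Fin.tail W) + v) := by
      funext S
      unfold lb
      split_ifs with k
      · beta_reduce
        rw [← add_assoc, ← ss_ins, ins_dn k]
      · rw [← ss_up, up_dn k]
    have e2 : x0 + ss univ W + v = x0 + ss univ (Fin.tail W : Pt j 1) + W 0 0 + v := by
      rw [← ins_univ, ss_ins, ← add_assoc x0]
    rw [e1, e2]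

theorem ne {N : ℕ} (h : 1 ≤ N) : (rg N).Nonempty := ⟨0, by simp [rg]; omega⟩

theorem p2 (L : ℕ) (f : ℤ → ℝ) (lam m : ℝ) (hm : 0 < m) (hL : 1 ≤ L) (h : Md 0 L f lam m) :
    ∃ x : ℤ, lam ≤ 𝔼 v ∈ rg L, f (x + v) := by
  obtain ⟨x0, Λ, _, Ω, Υ, F, hc, ht, hd, hx⟩ := h
  have h1 : (0 : ℝ) < Ω.card := lt_of_lt_of_le (by simp [Real.exp_pos]) hd.2
  obtain ⟨W, hW⟩ := card_pos.1 (Nat.cast_pos.1 h1)
  have h2 := hx W hW
  have h3 : ∀ v, lb Υ W v = lb Υ W 0 := fun v => funext fun S => by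
    rw [Subsingleton.elim S univ]
    exact ht _ _
  have h4 : 0 < 1 / m := by positivity
  simp only [h3] at h2
  refine ⟨x0 + ss univ W, ?_⟩
  split_ifs at h2
  · rw [expect_sub_distrib, expect_const (ne hL)] at h2
    linarith
  · rw [expect_const (ne hL)] at h2
    linarith

theorem p3 (j L : ℕ) (f : ℤ → ℝ) (lam m m' : ℝ) (hm : 0 < m) (h' : m ≤ m')
    (h : St j L f lam m) : St j L f lam m' := by
  obtain ⟨x0, Λ1, Λ2, i1, i2, Ω, B, Υ, F, h⟩ := h
  exact ⟨x0, Λ1, Λ2, i1, i2, Ω, B, Υ, F, h.c1.trans (Real.exp_le_exp.2 h'),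
    h.c2.trans (Real.exp_le_exp.2 h'), h.tc, h.sub,
    le_trans (mul_le_mul_of_nonneg_right (Real.exp_le_exp.2 (neg_le_neg h')) (by positivity)) h.den,
    fun p hp => (one_div_le_one_div_of_le hm h').trans (h.ex p hp)⟩

theorem p4 (j L : ℕ) (f : ℤ → ℝ) (lam m : ℝ) (hm : 0 < m) (hL : 1 ≤ L) (hf : ∀ x, f x ≤ lam) :
    ¬ St j L f lam m := by
  rintro ⟨x0, Λ1, Λ2, i1, i2, Ω, B, Υ, F, h⟩
  have h0 : (0 : ℝ) < L := by exact_mod_cast hL
  have h1 : (0 : ℝ) < Ω.card := lt_of_lt_of_le (by positivity) h.den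
  obtain ⟨p, hp⟩ := card_pos.1 (Nat.cast_pos.1 h1)
  have h2 := (h.ex p hp).trans (expect_le (a := 0) (ne hL) fun v _ => by
    split_ifs
    · linarith [hf (x0 + ss univ p.1 + p.2 + v)]
    · exact le_rfl)
  have h4 : 0 < 1 / m := by positivity
  linarith

end Ms

theorem ms : MS := ⟨Ms.p1, Ms.p2, Ms.p3, Ms.p4⟩

end Vale.Agent.P057H
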