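import Vale.Agent.P057H.Defs
import Vale.Agent.P057L.Num
import Vale.Agent.P057L.Win
import Vale.Agent.P057Z.Ke.Pop
import Mathlib.NumberTheory.Bertrand

/-! Row SMA: smoothing of a state. -/

set_option linter.all false

open Finset
open scoped BigOperators Classical

namespace Vale.Agent.P057H.H28

open Vale.Agent.P057Z Vale.Agent.P057L

variable {j : ℕ}

theorem mem_rg {N : ℕ} {x : ℤ} : x ∈ rg N ↔ 0 ≤ x ∧ x < N := mem_Ico

theorem mem_sy {N : ℕ} {x : ℤ} : x ∈ sy N ↔ -(N : ℤ) < x ∧ x < N := mem_Ioo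

theorem shift (c : ℤ) (I J : Finset ℤ) (h : ∀ v ∈ I, v + c ∈ J) (G : ℤ → ℝ) :
    ∑ v ∈ I, G v = ∑ s ∈ J, if s - c ∈ I then G (s - c) else 0 := by
  rw [← sum_filter]
  refine sum_nbij' (fun v => v + c) (fun s => s - c) (fun v hv => ?_)
    (fun s hs => (mem_filter.1 hs).2) (fun _ _ => by ring) (fun _ _ => by ring)
    fun v _ => by rw [add_sub_cancel_right]
  exact mem_filter.2 ⟨h v hv, by rw [add_sub_cancel_right]; exact hv⟩

theorem card_kk (a S : Finset ℤ) (s : ℤ) :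
    (a.card : ℝ) * kk a S s = ∑ y ∈ a, if s - y ∈ S then 1 else 0 := by
  rw [sum_boole, kk]
  rcases a.eq_empty_or_nonempty with rfl | h
  · simp
  · rw [mul_div_cancel₀]
    exact_mod_cast h.card_pos.ne'

theorem kk01 (a S : Finset ℤ) (s : ℤ) : 0 ≤ kk a S s ∧ kk a S s ≤ 1 :=
  ⟨by unfold kk; positivity, div_le_one_of_le₀ (by exact_mod_cast card_filter_le _ _)
    (Nat.cast_nonneg _)⟩

/-- one fibre -/
theorem fib {Λ : Type} {L : ℕ} (a : Finset ℤ) (ha : a ⊆ rg L) (P : ℤ → Λ → Prop) (υ : ℤ → Λ)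
    (w : ℤ → ℝ) {t : ℤ} (ht : |t| ≤ L) :
    ∑ y ∈ a, ∑ v ∈ rg L, (if P v (υ (y + v + t)) then w (y + v + t) else 0) =
      a.card * ∑ s ∈ Ico (-(L : ℤ)) (3 * L),
        w s * kk a ((rg L).filter fun v => P v (υ s)) (s - t) := by
  rw [mul_sum]
  simp only [mul_left_comm (a.card : ℝ), card_kk, mul_sum]
  rw [sum_comm (s := Ico _ _)]
  refine sum_congr rfl fun y hy => ?_
  have hy' := mem_rg.1 (ha hy)
  rw [abs_le] at ht
  rw [shift (y + t) _ (Ico (-(L : ℤ)) (3 * L)) fun v hv => by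
    have := mem_rg.1 hv
    exact mem_Ico.2 (by omega)]
  refine sum_congr rfl fun s _ => ?_
  rw [show y + (s - (y + t)) + t = s by ring, show s - t - y = s - (y + t) by ring]
  simp only [mem_filter]
  by_cases h1 : s - (y + t) ∈ rg L <;> by_cases h2 : P (s - (y + t)) (υ s) <;> simp [h1, h2]

/-- a test with labels -/
theorem test {Λ : Type} [Fintype Λ] {L : ℕ} {f g : ℤ → ℝ} {x0 : ℤ} {ε : ℝ} (h : Mo j L f g x0 ε)
    {Υ : Finset (Fin j) → ℤ → Λ} (hc : Tc Υ) (G : Finset (Pt j 1)) (hG : G ⊆ bp j 1 L)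
    (a : Pt j 1 → Finset ℤ) (ha : ∀ W, a W ⊆ rg L)
    (c : Pt j 1 → ℤ → (Finset (Fin j) → Λ) → ℝ) (h1 : ∀ W v υ, |c W v υ| ≤ 1) :
    |∑ W ∈ G, ∑ y ∈ a W, ∑ v ∈ sy (4 * L), c W v (lb Υ W (y + v)) *
      (f (x0 + ss univ W + y + v) - g (x0 + ss univ W + y + v))| ≤
      Fintype.card (Finset (Fin j) → Λ) * (ε * (L : ℝ) ^ (j + 2)) := by
  have e : ∑ W ∈ G, ∑ y ∈ a W, ∑ v ∈ sy (4 * L), c W v (lb Υ W (y + v)) *
      (f (x0 + ss univ W + y + v) - g (x0 + ss univ W + y + v)) =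
      ∑ υ : Finset (Fin j) → Λ, ∑ W ∈ bp j 1 L, ∑ y ∈ sy (4 * L), ∑ v ∈ sy (4 * L),
        (if W ∈ G ∧ y ∈ a W then (1 : ℝ) else 0) * (if Υ univ 0 = υ univ then c W v υ else 0) *
        (∏ S ∈ (univ : Finset (Finset (Fin j))).erase univ,
          if Υ S (ss S W + y + v) = υ S then (1 : ℝ) else 0) *
        (f (x0 + ss univ W + y + v) - g (x0 + ss univ W + y + v)) := by
    rw [sum_comm (s := univ)]
    refine Eq.trans (sum_congr rfl fun W hW => ?_) (sum_subset hG fun W _ hW => by simp [hW])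
    rw [sum_comm (s := univ)]
    refine Eq.trans (sum_congr rfl fun y hy => ?_) (sum_subset (fun y hy => by
      have := mem_rg.1 (ha W hy)
      exact mem_sy.2 (by push_cast; omega)) fun y _ hy => by simp [hy])
    rw [sum_comm (s := univ)]
    refine sum_congr rfl fun v _ => ?_
    rw [← sum_mul, sum_eq_single (lb Υ W (y + v))]
    · rw [if_pos ⟨hW, hy⟩, if_pos (c := Υ univ 0 = lb Υ W (y + v) univ) (hc _ _), prod_eq_one fun S _ => if_pos (by rw [lb, add_assoc]),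
        one_mul, mul_one]
    · intro υ _ hυ
      obtain ⟨S, hS⟩ := Function.ne_iff.1 hυ
      by_cases e : S = univ
      · subst e
        rw [if_neg (c := Υ univ 0 = υ univ) fun k => hS (k.symm.trans (hc _ _)), mul_zero, zero_mul]
      · rw [prod_eq_zero (mem_erase.2 ⟨e, mem_univ _⟩) (if_neg fun k => hS (by
          rw [← k, lb, add_assoc])), mul_zero]
    · exact fun k => absurd (mem_univ _) k
  rw [e]
  refine (abs_sum_le_sum_abs _ _).trans ((sum_le_card_nsmul _ _ _ fun υ _ => h _ _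
    (fun S x => if Υ S x = υ S then (1 : ℝ) else 0) (fun W y => ?_) (fun W v => ?_)
      fun S x => ?_).trans (by rw [nsmul_eq_mul, card_univ]))
  · split_ifs <;> simp
  · split_ifs
    · exact h1 _ _ _
    · simp
  · split_ifs <;> simp

/-- the smoothed form -/
noncomputable def Ps {Λ1 Λ2 : Type} (L T : ℕ) (x0 : ℤ) (G : Finset (Pt j 1))
    (a : Pt j 1 → Finset ℤ) (B : Pt j 1 → ℤ → Λ1) (Υ : Finset (Fin j) → ℤ → Λ2)
    (F : Λ1 → (Finset (Fin j) → Λ2) → Prop) (β : Pt j 1 → ℤ → ℝ) (τ : Pt j 1 → ℤ → ℤ)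
    (h : ℤ → ℝ) : ℝ :=
  ∑ W ∈ G, ∑ s ∈ rg T, β W s * ∑ y ∈ a W, ∑ v ∈ rg L,
    if F (B W v) (lb Υ W (y + v + τ W s)) then h (x0 + ss univ W + (y + v + τ W s)) else 0

section

variable {Λ1 Λ2 : Type} [Fintype Λ2] {L T : ℕ} {x0 : ℤ} {G : Finset (Pt j 1)}
  {a : Pt j 1 → Finset ℤ} {B : Pt j 1 → ℤ → Λ1} {Υ : Finset (Fin j) → ℤ → Λ2}
  {F : Λ1 → (Finset (Fin j) → Λ2) → Prop} {β : Pt j 1 → ℤ → ℝ} {τ : Pt j 1 → ℤ → ℤ}

theorem Ps_add (f g : ℤ → ℝ) (lam : ℝ) : Ps L T x0 G a B Υ F β τ (fun x => f x - lam) =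
    Ps L T x0 G a B Υ F β τ (fun x => f x - g x) + Ps L T x0 G a B Υ F β τ fun x => g x - lam := by
  simp only [Ps, ← sum_add_distrib, ← mul_add]
  refine sum_congr rfl fun W _ => sum_congr rfl fun s _ => congrArg _
    (sum_congr rfl fun y _ => sum_congr rfl fun v _ => ?_)
  split_ifs <;> ring

theorem Ps_test {f g : ℤ → ℝ} {ε : ℝ} (h : Mo j L f g x0 ε) (hc : Tc Υ) (hG : G ⊆ bp j 1 L)
    (ha : ∀ W, a W ⊆ rg L) (b0 : ∀ W s, 0 ≤ β W s) (b1 : ∀ W, ∑ s ∈ rg T, β W s = 1)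
    (ht : ∀ W, ∀ s ∈ rg T, |τ W s| ≤ L) :
    |Ps L T x0 G a B Υ F β τ fun x => f x - g x| ≤
      Fintype.card (Finset (Fin j) → Λ2) * (ε * (L : ℝ) ^ (j + 2)) := by
  refine le_of_eq_of_le (congrArg _ ?_) (test h hc G hG a ha (fun W v υ => ∑ s ∈ rg T, β W s *
    if v - τ W s ∈ rg L ∧ F (B W (v - τ W s)) υ then 1 else 0) fun W v υ => ?_)
  · refine sum_congr rfl fun W _ => ?_
    simp only [mul_sum, sum_mul]
    rw [sum_comm]
    refine sum_congr rfl fun y _ => ?_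
    rw [sum_comm (s := sy (4 * L))]
    refine sum_congr rfl fun s hs => ?_
    have k := abs_le.1 (ht W s hs)
    rw [shift (τ W s) _ (sy (4 * L)) fun v hv => by
      have := mem_rg.1 hv
      exact mem_sy.2 (by push_cast; omega)]
    refine sum_congr rfl fun v _ => ?_
    rw [show y + (v - τ W s) + τ W s = y + v by ring, ← add_assoc]
    by_cases h1 : v - τ W s ∈ rg L <;> by_cases h2 : F (B W (v - τ W s)) (lb Υ W (y + v)) <;>
      simp [h1, h2]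
  · rw [abs_of_nonneg (sum_nonneg fun s _ => mul_nonneg (b0 W s) (by split_ifs <;> simp))]
    exact (sum_le_sum fun s _ => mul_le_of_le_one_right (b0 W s)
      (by split_ifs <;> norm_num)).trans (b1 W).le

theorem Ps_fib (h : ℤ → ℝ) (ha : ∀ W, a W ⊆ rg L) (ht : ∀ W, ∀ s ∈ rg T, |τ W s| ≤ L) :
    Ps L T x0 G a B Υ F β τ h = ∑ W ∈ G, (a W).card * ∑ s ∈ rg T, β W s *
      ∑ z ∈ Ico (-(L : ℤ)) (3 * L), h (x0 + ss univ W + z) *
        kk (a W) ((rg L).filter fun v => F (B W v) (lb Υ W z)) (z - τ W s) := by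
  refine sum_congr rfl fun W _ => ?_
  rw [mul_sum]
  refine sum_congr rfl fun s hs => ?_
  rw [fib (a W) (ha W) (fun v υ => F (B W v) υ) (lb Υ W) (fun z => h (x0 + ss univ W + z))
    (ht W s hs), mul_left_comm]

end

theorem wins {L : ℕ} (hL : 1 ≤ L) {f : ℤ → ℝ} {lam : ℝ}
    (h : ∀ x : ℤ, 𝔼 v ∈ rg L, f (x + v) ≤ lam) (n : ℕ) (z : ℤ) :
    ∑ v ∈ rg (n * L), f (z + v) ≤ n * (L * lam) := by
  induction n with
  | zero => simp [rg]
  | succ n ih =>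
    have e : rg ((n + 1) * L) = rg (n * L) ∪ Ico ((n * L : ℕ) : ℤ) (((n + 1) * L : ℕ) : ℤ) :=
      (Ico_union_Ico_eq_Ico (by positivity) (by push_cast; nlinarith)).symm
    have k := h (z + (n * L : ℕ))
    rw [expect_eq_sum_div_card, Win.c1, div_le_iff₀ (by exact_mod_cast hL)] at k
    have e2 : ∑ v ∈ Ico ((n * L : ℕ) : ℤ) (((n + 1) * L : ℕ) : ℤ), f (z + v) =
        ∑ v ∈ rg L, f (z + (n * L : ℕ) + v) := by
      refine sum_nbij' (fun v => v - (n * L : ℕ)) (fun v => v + (n * L : ℕ)) (fun v hv => ?_)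
        (fun v hv => ?_) (fun _ _ => by ring) (fun _ _ => by ring) fun v _ => by congr 1; ring
      · have := mem_Ico.1 hv
        push_cast at this ⊢
        exact mem_rg.2 ⟨by linarith, by linarith⟩
      · have := mem_rg.1 hv
        push_cast
        exact mem_Ico.2 ⟨by linarith, by linarith⟩
    rw [e, sum_union (s₁ := rg (n * L)) (Ico_disjoint_Ico_consecutive _ _ _), e2]
    push_cast at ih k ⊢
    linarith

theorem win8 {L : ℕ} (hL : 1 ≤ L) {f : ℤ → ℝ} {lam : ℝ} (f0 : ∀ x, 0 ≤ f x)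
    (h : ∀ x : ℤ, 𝔼 v ∈ rg L, f (x + v) ≤ lam) (z : ℤ) :
    ∑ v ∈ sy (4 * L), f (z + v) ≤ 8 * (L * lam) := by
  refine le_trans ?_ ((wins hL h 8 (z - 4 * L)).trans_eq (by norm_num))
  rw [shift (4 * L) _ (rg (8 * L)) fun v hv => by
    have := mem_sy.1 hv
    exact mem_rg.2 (by push_cast at this ⊢; omega)]
  refine sum_le_sum fun s _ => ?_
  split_ifs
  · exact le_of_eq (by congr 1; ring)
  · exact f0 _

theorem num1 {μ : ℝ} {n : ℕ} (h : 200 ≤ μ) (hn : (n : ℝ) + 3 ≤ μ) :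
    16 * μ * (Real.exp μ ^ n * Real.exp (-μ ^ 2)) ≤ Real.exp (-μ) ∧
      Real.exp μ ^ n ≤ Real.exp (μ ^ 3) ∧ Real.exp (-μ ^ 3) ≤ Real.exp (-μ) / 2 ∧
      Real.exp (μ ^ 2) + 1 ≤ Real.exp (μ ^ 3) := by
  have a1 := Real.add_one_le_exp μ
  have a2 : 16 * μ ≤ Real.exp (2 * μ) := by
    rw [two_mul, Real.exp_add]; nlinarith
  have n0 : (0 : ℝ) ≤ n := Nat.cast_nonneg _
  have a3 : μ ^ 2 + μ ≤ μ ^ 3 := by nlinarith [mul_nonneg (by linarith : 0 ≤ μ - 2) (sq_nonneg μ)]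
  refine ⟨?_, ?_, ?_, ?_⟩
  · refine (mul_le_mul_of_nonneg_right a2 (by positivity)).trans ?_
    rw [← Real.exp_nat_mul, ← Real.exp_add, ← Real.exp_add]
    exact Real.exp_le_exp.2 (by nlinarith)
  · rw [← Real.exp_nat_mul]
    exact Real.exp_le_exp.2 (by nlinarith)
  · refine (Real.exp_le_exp.2 (by nlinarith : -μ ^ 3 ≤ -μ + -μ)).trans ?_
    have e : Real.exp (-μ) * Real.exp μ = 1 := by rw [← Real.exp_add]; simp
    have := Real.exp_pos (-μ)
    rw [Real.exp_add]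
    nlinarith
  · refine le_trans ?_ (Real.exp_le_exp.2 a3)
    rw [Real.exp_add]
    nlinarith [Real.one_le_exp (sq_nonneg μ)]

theorem num2 {X Y : ℝ} {r : ℕ} (h : 20 ≤ X) (hr : (r : ℝ) ≤ X) (hY : Y ≤ X) (y0 : 0 ≤ Y) :
    Real.exp (-(5 * X ^ 2)) ≤ (Real.exp (-(2 * X)) / (3 * (r + 1))) ^ r / 3 ∧
      Real.exp (-Real.exp X) * Y ≤ Real.exp (-(5 * X ^ 2)) := by
  have a1 := Real.add_one_le_exp X
  have a2 : 3 * ((r : ℝ) + 1) ≤ Real.exp (2 * X) := by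
    rw [two_mul, Real.exp_add]; nlinarith
  refine ⟨?_, ?_⟩
  · have b1 : Real.exp (-(4 * X)) ≤ Real.exp (-(2 * X)) / (3 * (r + 1)) := by
      rw [le_div_iff₀ (by positivity)]
      refine (mul_le_mul_of_nonneg_left a2 (by positivity)).trans_eq ?_
      rw [← Real.exp_add]; congr 1; ring
    have b2 := pow_le_pow_left₀ (Real.exp_pos _).le b1 r
    rw [← Real.exp_nat_mul] at b2
    rw [le_div_iff₀ (by norm_num)]
    refine le_trans ?_ b2
    refine (mul_le_mul_of_nonneg_left (by linarith : 3 ≤ Real.exp X) (by positivity)).trans ?_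
    rw [← Real.exp_add]
    exact Real.exp_le_exp.2 (by nlinarith)
  · refine (mul_le_mul_of_nonneg_left (by linarith : Y ≤ Real.exp X) (by positivity)).trans ?_
    rw [← Real.exp_add]
    refine Real.exp_le_exp.2 ?_
    have b := Real.pow_div_factorial_le_exp X (by linarith) 4
    norm_num [Nat.factorial] at b
    nlinarith [mul_nonneg (by nlinarith : 0 ≤ X ^ 2 - 200) (sq_nonneg X)]

theorem avgb {T : ℕ} (T0 : (0 : ℝ) < T) {β D : ℤ → ℝ} {M Y : ℝ} (M0 : 0 ≤ M) (Y0 : 0 < Y)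
    (b0 : ∀ s, 0 ≤ β s) (b1 : ∑ s ∈ rg T, β s = 1)
    (h : ∀ s ∈ rg T, |D s| ≤ M / Y ∨ β s ≤ 1 / T / Y ∧ |D s| ≤ M) :
    |∑ s ∈ rg T, β s * D s| ≤ 2 / Y * M := by
  refine (abs_sum_le_sum_abs _ _).trans ((sum_le_sum (g := fun s =>
    (β s + 1 / T) * (M / Y)) fun s hs => ?_).trans (le_of_eq ?_))
  · rw [abs_mul, abs_of_nonneg (b0 s), add_mul]
    rcases h s hs with h | h
    · exact (mul_le_mul_of_nonneg_left h (b0 s)).trans (le_add_of_nonneg_right (by positivity))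
    · refine le_trans ?_ (le_add_of_nonneg_left (mul_nonneg (b0 s) (by positivity)))
      rw [show 1 / (T : ℝ) * (M / Y) = 1 / T / Y * M by ring]
      exact mul_le_mul h.1 h.2 (abs_nonneg _) (by positivity)
  · rw [← sum_mul, sum_add_distrib, b1, sum_const, Win.c1, nsmul_eq_mul, mul_one_div_cancel T0.ne']
    ring

theorem kkb (I a : Finset ℤ) (S : ℤ → Finset ℤ) {w : ℤ → ℝ} (hw : ∀ z, 0 ≤ w z) (t : ℤ) :
    |∑ z ∈ I, w z * (kk a (S z) (z - t) - kk a (S z) z)| ≤ ∑ z ∈ I, w z := by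
  refine (abs_sum_le_sum_abs _ _).trans (sum_le_sum fun z _ => ?_)
  rw [abs_mul, abs_of_nonneg (hw z)]
  refine mul_le_of_le_one_right (hw z) (abs_le.2 ⟨?_, ?_⟩) <;>
    linarith [kk01 a (S z) (z - t), kk01 a (S z) z]

theorem tail {Q r : ℕ} [Fact Q.Prime] (ξ : Fin r → ZMod Q) (s x : ℤ) (i : Fin r) {X κ T Z Y : ℝ}
    (h : Real.exp (-κ) < nm (((s - x : ℤ) : ZMod Q) * ξ i)) (hκ : κ ≤ X) (T0 : 0 < T) (Z0 : 0 < Z)
    (Y0 : 0 < Y) (hZ : Real.exp (-Real.exp X) * Y ≤ Z) :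
    lap (Real.exp (-(2 * X))) ((s : ZMod Q) • ξ + -((x : ZMod Q) • ξ)) / (T * Z) ≤ 1 / T / Y := by
  have v1 := Ke.nm_le_l1 ((s : ZMod Q) • ξ + -((x : ZMod Q) • ξ)) i
  rw [show ((s : ZMod Q) • ξ + -((x : ZMod Q) • ξ)) i = ((s - x : ℤ) : ZMod Q) * ξ i by
    simp only [Pi.add_apply, Pi.neg_apply, Pi.smul_apply, smul_eq_mul]
    push_cast; ring] at v1
  have v2 : lap (Real.exp (-(2 * X))) ((s : ZMod Q) • ξ + -((x : ZMod Q) • ξ)) ≤
      Real.exp (-Real.exp X) := by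
    refine Real.exp_le_exp.2 ?_
    rw [neg_div, neg_le_neg_iff, le_div_iff₀ (Real.exp_pos _), ← Real.exp_add]
    exact (Real.exp_le_exp.2 (by linarith)).trans (h.le.trans v1)
  rw [div_le_iff₀ (mul_pos T0 Z0), show 1 / T / Y * (T * Z) = Z / Y by field_simp, le_div_iff₀ Y0]
  exact (mul_le_mul_of_nonneg_right v2 Y0.le).trans hZ

theorem core {Λ1 Λ2 : Type} [Fintype Λ2] {L T : ℕ} {x0 : ℤ} {G : Finset (Pt j 1)}
    {a : Pt j 1 → Finset ℤ} {B : Pt j 1 → ℤ → Λ1} {Υ : Finset (Fin j) → ℤ → Λ2}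
    {F : Λ1 → (Finset (Fin j) → Λ2) → Prop} {β : Pt j 1 → ℤ → ℝ} {x : Pt j 1 → ℤ}
    {f g : ℤ → ℝ} {ε μ lam n E : ℝ} (hg : Mo j L f g x0 ε) (tc : Tc Υ) (G1 : G ⊆ bp j 1 L)
    (a1 : ∀ W, a W ⊆ rg L) (b0 : ∀ W s, 0 ≤ β W s) (b1 : ∀ W, ∑ s ∈ rg T, β W s = 1)
    (u2 : ∀ W, ∀ s ∈ rg T, |s - x W| ≤ L) (L1 : 1 ≤ L) (f0 : ∀ x, 0 ≤ f x) (g0 : ∀ x, 0 ≤ g x)
    (hm : ∀ x : ℤ, 𝔼 v ∈ rg L, f (x + v) ≤ lam) (l1 : 1 ≤ lam) (l2 : lam ≤ μ) (m200 : 200 ≤ μ)
    (hn : n = ∑ W ∈ G, ((a W).card : ℝ))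
    (hE : Fintype.card (Finset (Fin j) → Λ2) * (ε * (L : ℝ) ^ (j + 2)) = E)
    (E1 : 8 * μ * E ≤ n * L)
    (ex : ∀ W, ∀ y ∈ a W, 1 / μ ≤ 𝔼 v ∈ rg L, if F (B W v) (lb Υ W (y + v)) then
      f (x0 + ss univ W + y + v) - lam else 0)
    (k4 : ∀ W ∈ G, ∀ w : ℤ → ℝ, (w = fun s => g (x0 + ss univ W + s) + 1) ∨ (w = fun _ => 1) →
      |∑ s ∈ rg T, β W s * ∑ z ∈ Ico (-(L : ℤ)) (3 * L), w z *
        (kk (a W) ((rg L).filter fun v => F (B W v) (lb Υ W z)) (z - (s - x W)) -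
          kk (a W) ((rg L).filter fun v => F (B W v) (lb Υ W z)) z)| ≤
        2 / μ ^ 3 * ∑ z ∈ Ico (-(L : ℤ)) (3 * L), w z) :
    n * L / (2 * μ) ≤ Ps L T x0 G a B Υ F β (fun W s => s - x W) fun x => f x - lam := by
  have m1 : (1 : ℝ) ≤ μ := by linarith
  have L0 : (0 : ℝ) < L := by exact_mod_cast L1
  have Y0 : 0 < μ ^ 3 := by positivity
  have u0 : ∀ W : Pt j 1, ∀ s ∈ rg T, |(0 : ℤ)| ≤ L := fun _ _ _ => by simp
  have k1 := Ps_test (F := F) (B := B) (τ := fun W s => s - x W) hg tc G1 a1 b0 b1 u2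
  have k0 := Ps_test (F := F) (B := B) (τ := fun _ _ => 0) hg tc G1 a1 b0 b1 u0
  rw [hE] at k0 k1
  have k2 : n * L / μ ≤ Ps L T x0 G a B Υ F β (fun _ _ => 0) fun x => f x - lam := by
    simp only [Ps, ← sum_mul, b1, one_mul, add_zero]
    rw [hn, mul_div_assoc, sum_mul]
    refine sum_le_sum fun W _ => ?_
    rw [← nsmul_eq_mul]
    refine card_nsmul_le_sum _ _ _ fun y hy => ?_
    have := ex _ y hy
    rw [expect_eq_sum_div_card, Win.c1, le_div_iff₀ L0, one_div, mul_comm] at this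
    simpa only [add_assoc, div_eq_mul_inv] using this
  have k3 : ∑ W ∈ G, ((a W).card : ℝ) * ∑ s ∈ Ico (-(L : ℤ)) (3 * L), g (x0 + ss univ W + s) ≤
      8 * (L * lam) * n + E := by
    have h1 := neg_le_of_abs_le (test hg tc G G1 a a1 (fun _ _ _ => 1) fun _ _ _ => by simp)
    simp only [one_mul, sum_sub_distrib] at h1
    rw [hE] at h1
    have h2 : ∑ W ∈ G, ∑ y ∈ a W, ∑ v ∈ sy (4 * L), f (x0 + ss univ W + y + v) ≤
        8 * (L * lam) * n := by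
      rw [hn, mul_sum]
      refine sum_le_sum fun W _ => ?_
      rw [mul_comm (8 * (L * lam)), ← nsmul_eq_mul (a W).card]
      exact sum_le_card_nsmul _ _ _ fun y _ => win8 L1 f0 hm (x0 + ss univ W + y)
    have h3 : ∑ W ∈ G, ∑ y ∈ a W, ∑ v ∈ sy (4 * L), g (x0 + ss univ W + y + v) ≤
        8 * (L * lam) * n + E := by linarith
    refine le_trans (sum_le_sum fun W _ => ?_) h3
    rw [← nsmul_eq_mul (a W).card]
    refine card_nsmul_le_sum _ _ _ fun y hy => ?_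
    have hy' := mem_rg.1 (a1 W hy)
    rw [shift (-y) _ (sy (4 * L)) fun v hv => by
      have := mem_Ico.1 hv
      exact mem_sy.2 (by push_cast; omega)]
    refine sum_le_sum fun s _ => ?_
    split_ifs
    · exact le_of_eq (by congr 1; ring)
    · exact g0 _
  have cI : ((Ico (-(L : ℤ)) (3 * L)).card : ℝ) = 4 * L := by
    rw [Int.card_Ico, show (3 * L - -(L : ℤ)).toNat = 4 * L by omega]; push_cast; rfl
  have k5 : Ps L T x0 G a B Υ F β (fun _ _ => 0) (fun x => g x - lam) -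
      Ps L T x0 G a B Υ F β (fun W s => s - x W) (fun x => g x - lam) ≤
      2 / μ ^ 3 * (8 * (L * lam) * n + E + (lam + 2) * (4 * L) * n) := by
    rw [Ps_fib _ a1 u0, Ps_fib _ a1 u2, ← sum_sub_distrib]
    refine (sum_le_sum (g := fun W => 2 / μ ^ 3 * (((a W).card : ℝ) *
      ∑ s ∈ Ico (-(L : ℤ)) (3 * L), g (x0 + ss univ W + s) + (lam + 2) * (4 * L) * (a W).card))
      fun W hW => ?_).trans ?_
    · have h1 := neg_le_of_abs_le (k4 W hW _ (Or.inl rfl))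
      have h2 := le_of_abs_le (k4 W hW _ (Or.inr rfl))
      simp only [sum_add_distrib, sum_const, nsmul_eq_mul, cI, mul_one] at h1 h2
      have h3 := mul_le_mul_of_nonneg_left h2 (by linarith : 0 ≤ lam + 1)
      rw [← mul_sub, show ∀ A M : ℝ, 2 / μ ^ 3 * (A * M + (lam + 2) * (4 * L) * A) =
        A * (2 / μ ^ 3 * (M + 4 * L) + (lam + 1) * (2 / μ ^ 3 * (4 * L))) from fun _ _ => by ring]
      refine mul_le_mul_of_nonneg_left (le_trans (le_of_eq ?_) (add_le_add (neg_le.1 h1) h3))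
        (Nat.cast_nonneg _)
      simp only [mul_sum, ← sum_neg_distrib, ← sum_add_distrib, ← sum_sub_distrib, sub_zero]
      exact sum_congr rfl fun s _ => sum_congr rfl fun z _ => by ring
    · rw [← mul_sum, sum_add_distrib, ← mul_sum, ← hn]
      exact mul_le_mul_of_nonneg_left (add_le_add_left k3 _) (by positivity)
  have n0 : 0 ≤ n * L := by rw [hn]; positivity
  have k6 : n * L / (2 * μ) ≤ Ps L T x0 G a B Υ F β (fun W s => s - x W) fun x => f x - lam := by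
    rw [Ps_add f g] at k2 ⊢
    have h1 : 2 / μ ^ 3 * (8 * (L * lam) * n + E + (lam + 2) * (4 * L) * n) ≤ n * L / (4 * μ) := by
      rw [div_mul_eq_mul_div, div_le_div_iff₀ Y0 (by positivity)]
      have h2 : lam * (n * L) ≤ μ * (n * L) := mul_le_mul_of_nonneg_right l2 n0
      have h3 : n * L ≤ μ * (n * L) := le_mul_of_one_le_left n0 m1
      have h4 : 200 * (μ * (μ * (n * L))) ≤ μ * (μ * (μ * (n * L))) :=
        mul_le_mul_of_nonneg_right m200 (by positivity)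
      have h5 := mul_le_mul_of_nonneg_left h2 (by linarith : 0 ≤ μ)
      have h6 := mul_le_mul_of_nonneg_left h3 (by linarith : 0 ≤ μ)
      nlinarith
    have h2 : E ≤ n * L / (8 * μ) := by rw [le_div_iff₀ (by positivity)]; linarith
    have h3 : n * L / μ = n * L / (2 * μ) + n * L / (4 * μ) + 2 * (n * L / (8 * μ)) := by
      field_simp; ring
    linarith [le_of_abs_le k0, neg_le_of_abs_le k1]
  exact k6

theorem sma (hW : WAP) : SMA := by
  intro j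
  obtain ⟨C0, hW⟩ := hW
  refine ⟨200 + 2 ^ j + 7 * C0, ?_⟩
  intro μ lam L f x0 Λ1 Λ2 _ _ Ω B Υ F hμ hL f0 l1 l2 hm hM S
  set C := 200 + 2 ^ j + 7 * C0 with hC
  have p0 : 0 < 2 ^ j := by positivity
  have c : ∀ n : ℕ, n ≤ C → (n : ℝ) ≤ μ := fun n h => le_trans (by exact_mod_cast h) hμ
  have m200 : (200 : ℝ) ≤ μ := by exact_mod_cast c 200 (by omega)
  have m1 : (1 : ℝ) ≤ μ := by linarith
  have L1 : 1 ≤ L := one_le_of_log (by positivity) hL
  have L0 : (0 : ℝ) < L := by exact_mod_cast L1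
  obtain ⟨n1, n2, n3, n4⟩ := num1 (n := 2 ^ j) m200 (by exact_mod_cast c (2 ^ j + 3) (by omega))
  obtain ⟨Q, hQ, q1, q2⟩ := Nat.exists_prime_lt_and_le_two_mul (8 * L) (by omega)
  haveI : Fact Q.Prime := ⟨hQ⟩
  have y1 : μ ≤ μ ^ 3 := le_pw m1 (by omega)
  obtain ⟨R, T, r1, t1, t2, t3, hW⟩ := hW (μ ^ 3) L Q ((c _ (by omega)).trans y1)
    (by rw [← pow_mul]; exact (pw_le m1 (by omega)).trans hL) q1.le (by omega)
  rw [← pow_mul] at r1 t3 hW
  obtain ⟨g, g0, hg⟩ := hM (μ ^ 2) (le_pw m1 (by omega)) x0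
  set X := μ ^ (3 * C0 + 3) with hX
  have x1 : μ ^ 3 ≤ X := pw_le m1 (by omega)
  have x2 : 2 * μ ^ (3 * C0) ≤ X :=
    (mul_pw_le (by linarith) (by linarith) _).trans (pw_le m1 (by omega))
  have x3 : 5 * X ^ 2 ≤ μ ^ C := by
    rw [hX, ← pow_mul]
    exact (mul_pw_le (by linarith) (by linarith) _).trans (pw_le m1 (by omega))
  have x4 : 0 ≤ μ ^ (3 * C0) := by positivity
  have x5 : 2 * X ≤ 5 * X ^ 2 := by nlinarith
  obtain ⟨n5, n6⟩ := num2 (X := X) (Y := μ ^ 3) (r := R + R) (by linarith)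
    (by push_cast; linarith) x1 (by positivity)
  have cΛ : (Fintype.card (Finset (Fin j) → Λ2) : ℝ) ≤ Real.exp μ ^ 2 ^ j := by
    rw [Fintype.card_fun, Fintype.card_finset, Fintype.card_fin]
    push_cast
    exact pow_le_pow_left₀ (Nat.cast_nonneg _) S.c2 _
  set a : Pt j 1 → Finset ℤ := fun W => (rg L).filter fun y => (W, y) ∈ Ω with ha
  have a1 : ∀ W, a W ⊆ rg L := fun W => filter_subset _ _
  set G := (bp j 1 L).filter fun W => Real.exp (-μ) / 2 * L ≤ (a W).card with hG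
  have G1 : G ⊆ bp j 1 L := filter_subset _ _
  set Ω' := (G ×ˢ rg L).filter (· ∈ Ω) with hΩ
  have sm : ∀ (U : Finset (Pt j 1)) (φ : Pt j 1 × ℤ → ℝ),
      ∑ p ∈ (U ×ˢ rg L).filter (· ∈ Ω), φ p = ∑ W ∈ U, ∑ y ∈ a W, φ (W, y) := fun U φ => by
    rw [sum_filter, sum_product]
    exact sum_congr rfl fun W _ => (sum_filter _ _).symm
  have cd : ∀ U : Finset (Pt j 1),
      (((U ×ˢ rg L).filter (· ∈ Ω)).card : ℝ) = ∑ W ∈ U, ((a W).card : ℝ) := fun U => by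
    simpa using sm U fun _ => 1
  set n : ℝ := (Ω'.card : ℝ) with hn
  have d1 : Real.exp (-μ) / 2 * (L : ℝ) ^ (j + 1) ≤ n := by
    have e1 := cd (bp j 1 L)
    rw [filter_mem_eq_inter, inter_eq_right.2 S.sub,
      ← sum_filter_add_sum_filter_not _ fun W => Real.exp (-μ) / 2 * L ≤ (a W).card, ← cd G] at e1
    have e2 : ∑ W ∈ (bp j 1 L).filter fun W => ¬ Real.exp (-μ) / 2 * L ≤ (a W).card,
        ((a W).card : ℝ) ≤ (L : ℝ) ^ j * (Real.exp (-μ) / 2 * L) := by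
      refine (sum_le_card_nsmul _ _ _ fun W hW => (not_le.1 (mem_filter.1 hW).2).le).trans ?_
      rw [nsmul_eq_mul]
      refine mul_le_mul_of_nonneg_right ?_ (by positivity)
      have := card_filter_le (bp j 1 L) fun W => ¬ Real.exp (-μ) / 2 * L ≤ (a W).card
      rw [bp, Win.cp, bz, Win.cp, Win.c1, pow_one] at this
      exact_mod_cast this
    have e3 := S.den
    rw [pow_succ] at e3 ⊢
    linarith
  have ap : ∀ (W : Pt j 1) (w : ℤ → ℝ), ∃ ξ : Fin R → ZMod Q, W ∈ G →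
      (∀ s, 1 ≤ w s ∧ w s ≤ Real.exp (μ ^ 3)) → ∀ t : ℤ, |t| ≤ T →
      (∀ i, nm ((t : ZMod Q) * ξ i) ≤ Real.exp (-μ ^ (3 * C0))) →
      |∑ s ∈ Ico (-(L : ℤ)) (3 * L), w s *
        (kk (a W) ((rg L).filter fun v => F (B W v) (lb Υ W s)) (s - t) -
          kk (a W) ((rg L).filter fun v => F (B W v) (lb Υ W s)) s)| ≤
        (∑ s ∈ Ico (-(L : ℤ)) (3 * L), w s) / μ ^ 3 := fun W w => by
    by_cases h : W ∈ G ∧ ∀ s, 1 ≤ w s ∧ w s ≤ Real.exp (μ ^ 3)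
    · obtain ⟨ξ, hξ⟩ := hW _ (a W) (fun υ => (rg L).filter fun v => F (B W v) υ) (lb Υ W) w
        (cΛ.trans n2) (a1 W) ((mul_le_mul_of_nonneg_right n3 L0.le).trans (mem_filter.1 h.1).2)
        (fun _ => filter_subset _ _) h.2
      exact ⟨ξ, fun _ _ => hξ⟩
    · exact ⟨0, fun h1 h2 => absurd ⟨h1, h2⟩ h⟩
  choose ξ0 hξ using ap
  set w1 : Pt j 1 → ℤ → ℝ := fun W s => g (x0 + ss univ W + s) + 1 with hw
  set ξ : Pt j 1 → Fin (R + R) → ZMod Q := fun W =>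
    Fin.append (ξ0 W (w1 W)) (ξ0 W fun _ => 1) with hξ'
  set ρ := Real.exp (-(2 * X)) with hρ
  have ρ1 : ρ ≤ 1 := Real.exp_le_one_iff.2 (by linarith)
  have ne : (rg T).Nonempty := ⟨0, mem_rg.2 ⟨le_rfl, by exact_mod_cast t1⟩⟩
  choose x hx hZ using fun W => Ke.pop_one (rg T) (fun s : ℤ => (s : ZMod Q) • ξ W) ne
    (Real.exp_pos _) ρ1
  set Z : Pt j 1 → ℝ := fun W =>
    𝔼 s ∈ rg T, lap ρ ((s : ZMod Q) • ξ W + -((x W : ZMod Q) • ξ W)) with hZ'
  have z1 : ∀ W, Real.exp (-(5 * X ^ 2)) ≤ Z W := fun W => by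
    have := hZ W
    simp only [Fintype.card_fin, sub_eq_add_neg] at this
    exact n5.trans this
  have z0 : ∀ W, 0 < Z W := fun W => (Real.exp_pos _).trans_le (z1 W)
  have T0 : (0 : ℝ) < T := by exact_mod_cast t1
  set β : Pt j 1 → ℤ → ℝ := fun W s =>
    lap ρ ((s : ZMod Q) • ξ W + -((x W : ZMod Q) • ξ W)) / (T * Z W) with hβ
  have b0 : ∀ W s, 0 ≤ β W s := fun W s => div_nonneg (Ke.lap_pos _ _).le (mul_pos T0 (z0 W)).le
  have b1 : ∀ W, ∑ s ∈ rg T, β W s = 1 := fun W => by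
    rw [← sum_div, div_eq_one_iff_eq (mul_pos T0 (z0 W)).ne', ← card_mul_expect, Win.c1]
  have u1 : ∀ W, ∀ s ∈ rg T, |s - x W| ≤ T := fun W s hs => by
    have := mem_rg.1 hs
    have := mem_rg.1 (hx W)
    rw [abs_le]; omega
  have u2 : ∀ W, ∀ s ∈ rg T, |s - x W| ≤ L := fun W s hs =>
    (u1 W s hs).trans (by exact_mod_cast t2)
  set E := Fintype.card (Finset (Fin j) → Λ2) * (Real.exp (-μ ^ 2) * (L : ℝ) ^ (j + 2)) with hE
  have E1 : 8 * μ * E ≤ n * L := by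
    have h1 : E ≤ Real.exp μ ^ 2 ^ j * (Real.exp (-μ ^ 2) * (L : ℝ) ^ (j + 2)) :=
      mul_le_mul_of_nonneg_right cΛ (by positivity)
    have h2 := mul_le_mul_of_nonneg_right n1 (by positivity : (0 : ℝ) ≤ (L : ℝ) ^ (j + 2))
    have h3 := mul_le_mul_of_nonneg_right d1 L0.le
    rw [mul_assoc, ← pow_succ] at h3
    nlinarith
  have Y0 : 0 < μ ^ 3 := by positivity
  have k4 : ∀ W ∈ G, ∀ w : ℤ → ℝ, (∀ s, 1 ≤ w s ∧ w s ≤ Real.exp (μ ^ 3)) →
      (∀ i, ∃ i', ξ0 W w i = ξ W i') → |∑ s ∈ rg T, β W s * ∑ z ∈ Ico (-(L : ℤ)) (3 * L), w z *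
        (kk (a W) ((rg L).filter fun v => F (B W v) (lb Υ W z)) (z - (s - x W)) -
          kk (a W) ((rg L).filter fun v => F (B W v) (lb Υ W z)) z)| ≤
        2 / μ ^ 3 * ∑ z ∈ Ico (-(L : ℤ)) (3 * L), w z := fun W hW w hw hi =>
    avgb T0 (sum_nonneg fun z _ => zero_le_one.trans (hw z).1) Y0 (b0 W) (b1 W) fun s hs => by
      by_cases h : ∀ i, nm (((s - x W : ℤ) : ZMod Q) * ξ0 W w i) ≤ Real.exp (-μ ^ (3 * C0))
      · exact Or.inl (hξ W w hW hw _ (u1 W s hs) h)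
      · obtain ⟨i, h⟩ := not_forall.1 h
        obtain ⟨i', e⟩ := hi i
        exact Or.inr ⟨tail (ξ W) s (x W) i' (e ▸ not_le.1 h) (by linarith) T0 (z0 W) Y0
          (n6.trans (z1 W)), kkb _ _ _ (fun z => zero_le_one.trans (hw z).1) _⟩
  have k6 := core (F := F) (B := B) hg S.tc G1 a1 b0 b1 u2 L1 f0 (fun x => (g0 x).1) hm l1 l2 m200
    (cd G) rfl E1 (fun W y hy => S.ex _ (mem_filter.1 hy).2) fun W hW w hw => by
      rcases hw with rfl | rfl
      · exact k4 W hW (w1 W) (fun s => ⟨le_add_of_nonneg_left (g0 _).1,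
          (add_le_add_left (g0 _).2 1).trans n4⟩) fun i => ⟨Fin.castAdd R i, by
            simp only [hξ', Fin.append_left]⟩
      · exact k4 W hW (fun _ => 1) (fun s => ⟨le_rfl, Real.one_le_exp Y0.le⟩)
          fun i => ⟨Fin.natAdd R i, by simp only [hξ', Fin.append_right]⟩
  have e16 : 16 ≤ Real.exp (μ ^ C) := by
    linarith [Real.add_one_le_exp (μ ^ C), le_pw m1 (by omega : 1 ≤ C)]
  refine ⟨T, Q, R + R, inferInstance, ρ, Ω', ξ, fun W => -((x W : ZMod Q) • ξ W), x,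
    by push_cast; linarith, Real.exp_le_exp.2 (by linarith), ρ1, t1, t2,
    t3.trans (mul_le_mul_of_nonneg_left (Real.exp_le_exp.2 (by linarith)) T0.le), by omega, ?_,
    (filter_subset _ _).trans (product_subset_product_left G1), le_trans
      (mul_le_mul_of_nonneg_right ((Real.exp_le_exp.2 (by linarith)).trans n3) (by positivity)) d1,
    hx, fun W => (Real.exp_le_exp.2 (by linarith)).trans (z1 W), ?_⟩
  · have : (Q : ℝ) ≤ 16 * L := by exact_mod_cast (by omega : Q ≤ 16 * L)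
    nlinarith
  · rw [mul_div_right_comm, ← le_div_iff₀ L0] at k6
    refine k6.trans (le_of_eq ?_)
    rw [sm G, Ps, sum_div]
    refine sum_congr rfl fun W _ => ?_
    simp only [expect_eq_sum_div_card (s := rg L), Win.c1, mul_sum, ← sum_div]
    rw [sum_comm]
    refine congrArg (· / (L : ℝ)) ?_
    rw [sum_div]
    refine sum_congr rfl fun y _ => ?_
    rw [sum_comm, sum_div]
    refine sum_congr rfl fun v _ => ?_
    rw [expect_eq_sum_div_card, Win.c1, div_div, sum_div]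
    refine sum_congr rfl fun s _ => ?_
    rw [show y + v + (s - x W) = y + v - x W + s by ring, div_mul_eq_mul_div]

end Vale.Agent.P057H.H28
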