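import Vale.Agent.P057H.Defs

/-! Selection of a centre and a label. -/

set_option linter.all false

open Finset
open scoped BigOperators Classical

namespace Vale.Agent.P057H

open Vale.Agent.P057Z Vale.Agent.P057L

namespace Smb

theorem lap_pos {Q : ℕ} [Fact Q.Prime] {r : ℕ} (ρ : ℝ) (u : Fin r → ZMod Q) : 0 ≤ lap ρ u :=
  (Real.exp_pos _).le

theorem lap_le {Q : ℕ} [Fact Q.Prime] {r : ℕ} {ρ : ℝ} (h : 0 < ρ) (u : Fin r → ZMod Q) :
    lap ρ u ≤ 1 := by
  unfold lap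
  apply Real.exp_le_one_iff.2
  apply div_nonpos_of_nonpos_of_nonneg _ h.le
  have : 0 ≤ l1 u := sum_nonneg fun i _ => by unfold nm; positivity
  linarith

theorem card_rg (N : ℕ) : (rg N).card = N := by simp [rg]

theorem card_bp (j N : ℕ) : (bp j 1 N).card = N ^ (j * 1) := by
  simp [bp, bz, Fintype.card_piFinset, card_rg]

/-- the counting core -/
theorem core {α Λ : Type} [Fintype Λ] (P : Finset α) (L : ℕ) (Ω : Finset (α × ℤ))
    (B : α → ℤ → Λ) (x : α → ℤ) (Φ : α → Λ → ℤ → ℝ) (c M : ℝ) (hL : 1 ≤ L) (hc : 0 ≤ c)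
    (hM : 0 ≤ M) (l0 : Λ) (hs : Ω ⊆ P ×ˢ rg L) (hx : ∀ W, x W ∈ rg L)
    (hΦ : ∀ W l z, Φ W l z ≤ M)
    (h : Ω.card * (2 * c) ≤ ∑ p ∈ Ω, 𝔼 v ∈ rg L, Φ p.1 (B p.1 v) (p.2 + v - x p.1)) :
    ∃ l z, Ω.card * c ≤
      M * (Fintype.card Λ * (3 * L)) * (P.filter fun W => c ≤ Φ W l z).card := by
  set I : α → Λ → ℤ → ℝ := fun W l z => if c ≤ Φ W l z then 1 else 0 with hI
  have I0 : ∀ W l z, 0 ≤ I W l z := fun W l z => by simp only [hI]; split_ifs <;> norm_num
  have hΦI : ∀ W l z, Φ W l z ≤ c + M * I W l z := fun W l z => by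
    simp only [hI]; split_ifs with h1
    · linarith [hΦ W l z]
    · linarith [not_le.1 h1]
  set Z : Finset ℤ := Ico (-(L : ℤ)) (2 * L) with hZ
  have hZc : (Z.card : ℝ) = 3 * L := by
    have : Z.card = 3 * L := by simp only [hZ, Int.card_Ico]; omega
    rw [this]; push_cast; ring
  have hLp : (0 : ℝ) < L := by exact_mod_cast hL
  have hne : (rg L).Nonempty := ⟨0, by simp [rg]; omega⟩
  have h1 : ∀ p ∈ Ω, 𝔼 v ∈ rg L, Φ p.1 (B p.1 v) (p.2 + v - x p.1) ≤
      c + M * ((∑ v ∈ rg L, ∑ l, I p.1 l (p.2 + v - x p.1)) / L) := by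
    intro p _
    have a1 : 𝔼 v ∈ rg L, Φ p.1 (B p.1 v) (p.2 + v - x p.1) ≤
        𝔼 v ∈ rg L, (c + M * ∑ l, I p.1 l (p.2 + v - x p.1)) := by
      apply expect_le_expect
      intro v _
      refine (hΦI _ _ _).trans ?_
      have : I p.1 (B p.1 v) (p.2 + v - x p.1) ≤ ∑ l, I p.1 l (p.2 + v - x p.1) :=
        single_le_sum (f := fun l => I p.1 l (p.2 + v - x p.1)) (fun l _ => I0 _ _ _) (mem_univ _)
      nlinarith
    refine a1.trans (le_of_eq ?_)
    rw [expect_add_distrib, expect_const hne, ← mul_expect, expect_eq_sum_div_card, card_rg]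
  have h2 : ∑ p ∈ Ω, ∑ v ∈ rg L, ∑ l, I p.1 l (p.2 + v - x p.1) ≤
      L * ∑ l, ∑ z ∈ Z, ∑ W ∈ P, I W l z := by
    calc _ ≤ ∑ p ∈ P ×ˢ rg L, ∑ v ∈ rg L, ∑ l, I p.1 l (p.2 + v - x p.1) :=
          sum_le_sum_of_subset_of_nonneg hs fun p _ _ =>
            sum_nonneg fun v _ => sum_nonneg fun l _ => I0 _ _ _
      _ = ∑ W ∈ P, ∑ v ∈ rg L, ∑ l, ∑ y ∈ rg L, I W l (y + v - x W) := by
          rw [sum_product]
          refine sum_congr rfl fun W _ => ?_
          rw [sum_comm]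
          exact sum_congr rfl fun v _ => sum_comm
      _ ≤ ∑ W ∈ P, ∑ v ∈ rg L, ∑ l, ∑ z ∈ Z, I W l z := by
          refine sum_le_sum fun W _ => sum_le_sum fun v hv => sum_le_sum fun l _ => ?_
          rw [← sum_image (s := rg L) (g := fun y => y + v - x W) (f := fun z => I W l z)
            (fun a _ b _ hab => by simpa using hab)]
          refine sum_le_sum_of_subset_of_nonneg ?_ fun _ _ _ => I0 _ _ _
          intro z hz
          obtain ⟨y, hy, rfl⟩ := mem_image.1 hz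
          have := hx W
          simp only [rg, hZ, mem_Ico] at *
          omega
      _ = _ := by
          simp only [sum_const, card_rg, nsmul_eq_mul]
          rw [← mul_sum, sum_comm]
          congr 1
          exact sum_congr rfl fun l _ => sum_comm
  have h3 : Ω.card * c ≤ M * ∑ q ∈ (univ : Finset Λ) ×ˢ Z, ∑ W ∈ P, I W q.1 q.2 := by
    have a1 := h.trans (sum_le_sum h1)
    rw [sum_add_distrib, sum_const, nsmul_eq_mul, ← mul_sum, ← sum_div] at a1
    have a2 := (div_le_iff₀' hLp).2 h2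
    have a3 := mul_le_mul_of_nonneg_left a2 hM
    rw [sum_product]
    linarith
  have hne2 : ((univ : Finset Λ) ×ˢ Z).Nonempty :=
    ⟨(l0, 0), by simp [hZ]; omega⟩
  obtain ⟨q, -, hq⟩ := exists_max_image _ (fun q : Λ × ℤ => ∑ W ∈ P, I W q.1 q.2) hne2
  refine ⟨q.1, q.2, h3.trans ?_⟩
  have a4 := sum_le_card_nsmul _ _ _ hq
  rw [card_product, card_univ, nsmul_eq_mul, Nat.cast_mul, hZc] at a4
  have a5 : ∑ W ∈ P, I W q.1 q.2 = (P.filter fun W => c ≤ Φ W q.1 q.2).card := by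
    simp only [hI]; rw [sum_boole]
  rw [mul_assoc, ← a5]
  exact mul_le_mul_of_nonneg_left a4 hM

end Smb

open Smb in
theorem smb : SMB := by
  intro j
  refine ⟨4, ?_⟩
  intro Y μ lam L T Q r _ ρ f x0 Λ1 Λ2 _ Ω B Υ F ξ γ x hY hμ hμY hf hl0 hlY hΛ hm h
  have hY4 : (4 : ℝ) ≤ Y := by exact_mod_cast hY
  have hY3 : 64 ≤ Y ^ 3 := by
    have := pow_le_pow_left₀ (by norm_num) hY4 3
    linarith
  have hYY : 64 * Y ≤ Y ^ 4 := by nlinarith
  have hρ : 0 < ρ := (Real.exp_pos _).trans_le h.hρ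
  have hL : 1 ≤ L := h.hT.trans h.hTN
  have hLp : (0 : ℝ) < L := by exact_mod_cast hL
  have hneT : (rg T).Nonempty := ⟨0, by have := h.hT; simp [rg]; omega⟩
  have hE := Real.exp_pos Y
  have hEi : Real.exp (-Y) * Real.exp Y = 1 := by rw [← Real.exp_add]; simp
  have hYE : Y ≤ Real.exp Y := by linarith [Real.add_one_le_exp Y]
  set w : Pt j 1 → ℤ → ℝ := fun W s => lap ρ ((s : ZMod Q) • ξ W + γ W) with hw
  set hh : Pt j 1 → Λ1 → ℤ → ℝ := fun W l u =>
    if F l (lb Υ W u) then f (x0 + ss univ W + u) - lam else 0 with hhh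
  set Φ : Pt j 1 → Λ1 → ℤ → ℝ := fun W l z =>
    (𝔼 s ∈ rg T, w W s * hh W l (z + s)) / 𝔼 s ∈ rg T, w W s with hΦ
  have hZ : ∀ W, Real.exp (-Y) ≤ 𝔼 s ∈ rg T, w W s := h.hZ
  have hZp : ∀ W, 0 < 𝔼 s ∈ rg T, w W s := fun W => (Real.exp_pos _).trans_le (hZ W)
  have hM : ∀ W l z, Φ W l z ≤ Y * Real.exp Y := by
    intro W l z
    have a1 : 𝔼 s ∈ rg T, w W s * hh W l (z + s) ≤ 𝔼 s ∈ rg T, f ((x0 + ss univ W + z) + s) := by
      apply expect_le_expect
      intro s _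
      have b1 : hh W l (z + s) ≤ f ((x0 + ss univ W + z) + s) := by
        simp only [hhh]
        rw [add_assoc (x0 + ss univ W)]
        split_ifs
        · linarith
        · exact hf _
      have b2 : 0 ≤ w W s := lap_pos _ _
      have b3 : w W s ≤ 1 := lap_le hρ _
      have b4 := hf ((x0 + ss univ W + z) + s)
      nlinarith
    have a2 := a1.trans ((hm _).trans hlY)
    simp only [hΦ]
    rw [div_le_iff₀ (hZp W)]
    have a3 := mul_le_mul_of_nonneg_left (hZ W) (show 0 ≤ Y * Real.exp Y by positivity)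
    nlinarith
  have hμp : 0 < μ := by linarith
  obtain ⟨l, z, hc⟩ := core (bp j 1 L) L Ω B x Φ (1 / (4 * μ)) (Y * Real.exp Y) hL
    (by positivity) (by positivity) (B 0 0) h.sub
    (fun W => by have := h.hx W; have := h.hTN; simp only [rg, mem_Ico] at *; omega) hM
    (by
      refine le_trans (le_of_eq ?_) h.ex
      field_simp; ring)
  have hexp : ∀ t : ℝ, t ≤ 64 → Real.exp (-Y ^ 4) ≤ Real.exp (-(t * Y)) := fun t ht =>
    Real.exp_le_exp.2 (by nlinarith)
  have hle : Y ≤ Y ^ 4 := by linarith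
  have hE4 : Real.exp Y ≤ Real.exp (Y ^ 4) := Real.exp_le_exp.2 hle
  refine ⟨z, l, (bp j 1 L).filter fun W => 1 / (4 * μ) ≤ Φ W l z, h.hr.trans hle,
    (Real.exp_le_exp.2 (by linarith)).trans h.hρ, h.hρ1, h.hT, h.hTN,
    h.hNT.trans (by gcongr), h.hNQ, h.hQN.trans (by gcongr), ⟨filter_subset _ _, ?_⟩, ?_⟩
  · refine (mul_le_mul_of_nonneg_right (hexp 7 (by norm_num)) (by positivity)).trans ?_
    set n : ℝ := ((((bp j 1 L).filter fun W => 1 / (4 * μ) ≤ Φ W l z).card : ℕ) : ℝ)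
    have hn : 0 ≤ n := Nat.cast_nonneg _
    have a1 := h.den
    have a2 : Real.exp (-Y) * (L : ℝ) ^ (j + 1) * (1 / (4 * Y)) ≤ Ω.card * (1 / (4 * μ)) := by
      gcongr
    have a3 : Y * Real.exp Y * (Fintype.card Λ1 * (3 * L)) * n ≤
        Y * Real.exp Y * (Real.exp Y * (3 * L)) * n := by gcongr
    have a4 := a2.trans (hc.trans a3)
    have a5 : (L : ℝ) ^ j ≤ 12 * Y ^ 2 * Real.exp Y ^ 3 * n := by
      have b1 : Real.exp (-Y) * (L : ℝ) ^ (j + 1) * (1 / (4 * Y)) * (4 * Y * Real.exp Y / L) =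
          (L : ℝ) ^ j := by
        rw [Real.exp_neg]; field_simp; ring
      rw [← b1]
      refine (mul_le_mul_of_nonneg_right a4 (by positivity)).trans (le_of_eq ?_)
      field_simp; ring
    have a6 : 12 * Y ^ 2 ≤ Real.exp Y ^ 4 := by
      have : Y ^ 4 ≤ Real.exp Y ^ 4 := by gcongr
      nlinarith
    have a7 : Real.exp (-(7 * Y)) * Real.exp Y ^ 7 = 1 := by
      rw [← Real.exp_nat_mul, ← Real.exp_add]; simp
    have a8 : (L : ℝ) ^ j ≤ Real.exp Y ^ 7 * n := by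
      refine a5.trans ?_
      have : Real.exp Y ^ 7 = Real.exp Y ^ 4 * Real.exp Y ^ 3 := by ring
      rw [this]; gcongr
    rw [mul_one]
    have a9 := mul_le_mul_of_nonneg_left a8 (Real.exp_pos (-(7 * Y))).le
    rw [← mul_assoc, a7, one_mul] at a9
    exact a9
  · intro W hW
    have a1 := (mem_filter.1 hW).2
    simp only [hΦ] at a1
    rw [le_div_iff₀ (hZp W)] at a1
    have a2 : exc (lap ρ) (ξ W) (γ W) T
        (GG f lam (x0 + z) (fun S s => Υ S (z + s)) (F l) W) (lam + 1 / (8 * μ)) =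
        𝔼 s ∈ rg T, w W s * hh W l (z + s) - 1 / (8 * μ) * 𝔼 s ∈ rg T, w W s := by
      rw [mul_expect, ← expect_sub_distrib]
      refine expect_congr rfl fun s _ => ?_
      have e1 : lb (fun S s => Υ S (z + s)) W s = lb Υ W (z + s) := by
        funext S; simp only [lb]; congr 1; ring
      have e2 : x0 + z + ss univ W + s = x0 + ss univ W + (z + s) := by ring
      simp only [GG, hhh, hw, e1, e2]
      split_ifs <;> ring
    rw [a2]
    refine (hexp 4 (by norm_num)).trans ?_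
    have a3 : 1 / (4 * μ) = 2 * (1 / (8 * μ)) := by field_simp; ring
    have a4 : Real.exp (-(3 * Y)) ≤ 1 / (8 * μ) := by
      rw [Real.exp_neg, ← one_div]
      apply one_div_le_one_div_of_le (by positivity)
      have b1 : Real.exp (3 * Y) = Real.exp Y ^ 3 := by rw [← Real.exp_nat_mul]; simp
      have b2 : Y ^ 3 ≤ Real.exp Y ^ 3 := by gcongr
      have b3 : 8 * Y ≤ Y ^ 3 := by nlinarith [mul_self_nonneg Y, mul_le_mul hY4 hY4 (by norm_num) (by linarith)]
      linarith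
    have a5 : Real.exp (-(4 * Y)) = Real.exp (-(3 * Y)) * Real.exp (-Y) := by
      rw [← Real.exp_add]; congr 1; ring
    have a6 : Real.exp (-(3 * Y)) * Real.exp (-Y) ≤ 1 / (8 * μ) * 𝔼 s ∈ rg T, w W s :=
      mul_le_mul a4 (hZ W) (Real.exp_pos _).le (by positivity)
    rw [a5]
    rw [a3] at a1
    linarith

end Vale.Agent.P057H
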