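import Vale.Agent.P057H.BcsG

/-! Counting progressions: control by the tests, telescoping. -/

set_option linter.all false

open Finset
open scoped BigOperators

namespace Vale.Agent.P057H.CntG

open BcsG

/-- h is small against the tests of level j -/
def Sm {G : Type} [AddCommGroup G] [Fintype G] [DecidableEq G] (j : ℕ) (h : G → ℝ) (ε : ℝ) : Prop :=
  ∀ (a b : (Fin j → G) → G → ℝ) (H : Finset (Fin j) → G → ℝ), (∀ W y, |a W y| ≤ 1) →
    (∀ W v, |b W v| ≤ 1) → (∀ S x, |H S x| ≤ 1) →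
    |𝔼 W : Fin j → G, 𝔼 y, 𝔼 v, h (∑ i, W i + y + v) * (a W y * b W v *
      ∏ S ∈ (univ : Finset (Finset (Fin j))).erase univ, H S (∑ i ∈ S, W i + y + v))| ≤ ε

theorem Sm.smul {G : Type} [AddCommGroup G] [Fintype G] [DecidableEq G] {j : ℕ} {h : G → ℝ} {ε : ℝ}
    (hh : Sm j h ε) (c : ℝ) (hc : 0 ≤ c) : Sm j (fun x => c * h x) (c * ε) := by
  intro a b H ha hb hH
  simp only [mul_assoc c, ← mul_expect]
  rw [abs_mul, abs_of_nonneg hc]
  exact mul_le_mul_of_nonneg_left (hh a b H ha hb hH) hc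

theorem Sm.sub {G : Type} [AddCommGroup G] [Fintype G] [DecidableEq G] {j : ℕ} {f g g' : G → ℝ}
    {ε ε' : ℝ} (h1 : Sm j (fun x => f x - g x) ε) (h2 : Sm j (fun x => f x - g' x) ε') :
    Sm j (fun x => g' x - g x) (ε + ε') := by
  intro a b H ha hb hH
  have a1 := h1 a b H ha hb hH
  have a2 := h2 a b H ha hb hH
  refine le_trans (le_of_eq_of_le (congrArg _ ?_) (abs_sub _ _)) (add_le_add a1 a2)
  simp only [← expect_sub_distrib]
  exact expect_congr rfl fun W _ => expect_congr rfl fun y _ => expect_congr rfl fun v _ => by ring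

variable {K : Type} [Field K] [Fintype K] [DecidableEq K]

theorem shear (Φ : K → K → ℝ) (x0 d0 α β γ δ : K) (h : α * δ - β * γ ≠ 0) :
    𝔼 y, 𝔼 v, Φ (x0 + α * y + β * v) (d0 + γ * y + δ * v) = 𝔼 x, 𝔼 d, Φ x d := by
  rw [← ex_prod fun p : K × K => Φ (x0 + α * p.1 + β * p.2) (d0 + γ * p.1 + δ * p.2),
    ← ex_prod fun p : K × K => Φ p.1 p.2]
  refine Fintype.expect_bijective
    (fun p : K × K => (x0 + α * p.1 + β * p.2, d0 + γ * p.1 + δ * p.2))
    (Finite.injective_iff_bijective.1 fun p q e => ?_) _ _ fun _ => rfl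
  obtain ⟨e1, e2⟩ := Prod.ext_iff.1 e
  simp only at e1 e2
  exact Prod.ext (mul_left_cancel₀ h (by linear_combination δ * e1 - β * e2))
    (mul_left_cancel₀ h (by linear_combination α * e2 - γ * e1))

theorem vn0 (j : ℕ) (h : K → ℝ) (ε : ℝ) (hh : ∀ x, |h x| ≤ 1) (hT : Sm j h ε) (tp ty tv : K)
    (t : Fin j → K) (gy gv : K → ℝ) (g : Fin j → K → ℝ) (h1 : tp ≠ ty) (h2 : tp ≠ tv) (h3 : ty ≠ tv)
    (h4 : ∀ i, tp ≠ t i) (b1 : ∀ x, |gy x| ≤ 1) (b2 : ∀ x, |gv x| ≤ 1) (b3 : ∀ i x, |g i x| ≤ 1) :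
    |𝔼 x, 𝔼 d, h (x + tp * d) * (gv (x + tv * d) * gy (x + ty * d) * ∏ i, g i (x + t i * d))| ^ (2 ^ j)
      ≤ ε := by
  have n1 := sub_ne_zero.2 h1
  have n2 := sub_ne_zero.2 h2
  have n3 := sub_ne_zero.2 h3
  have n4 := fun i => sub_ne_zero.2 (h4 i)
  let c : K → (Fin j → K) → K := fun s W => ∑ i, (s - t i) / (tp - t i) * W i
  have hc : ∀ s W y v, (c 0 W + -ty / (tp - ty) * y + -tv / (tp - tv) * v) +
      s * (∑ i, W i / (tp - t i) + 1 / (tp - ty) * y + 1 / (tp - tv) * v) =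
      c s W + (s - ty) / (tp - ty) * y + (s - tv) / (tp - tv) * v := fun s W y v => by
    have : c 0 W + s * ∑ i, W i / (tp - t i) = c s W := by
      simp only [c, mul_sum, ← sum_add_distrib]
      exact sum_congr rfl fun i _ => by ring
    rw [← this]
    ring
  have hp : ∀ W, c tp W = ∑ i, W i := fun W =>
    sum_congr rfl fun i _ => by rw [div_self (n4 i), one_mul]
  refine le_of_eq_of_le (congrArg (fun z => |z| ^ (2 ^ j)) ?_) (tj j h ε hh hT
    (fun W y => gv (c tv W + (tv - ty) / (tp - ty) * y))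
    (fun W v => gy (c ty W + (ty - tv) / (tp - tv) * v))
    (fun i W y v => g i (c (t i) W + (t i - ty) / (tp - ty) * y + (t i - tv) / (tp - tv) * v))
    (fun _ _ => b2 _) (fun _ _ => b1 _) (fun _ _ _ _ => b3 _ _) fun i W x y v => ?_)
  · rw [← expect_const (univ_nonempty (α := Fin j → K)) (𝔼 x, 𝔼 d, h (x + tp * d) * _)]
    refine expect_congr rfl fun W _ => ?_
    rw [← shear _ (c 0 W) (∑ i, W i / (tp - t i)) (-ty / (tp - ty)) (-tv / (tp - tv))
      (1 / (tp - ty)) (1 / (tp - tv)) (by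
        have : -ty / (tp - ty) * (1 / (tp - tv)) - -tv / (tp - tv) * (1 / (tp - ty)) =
            -(ty - tv) / ((tp - ty) * (tp - tv)) := by field_simp; ring
        rw [this]
        exact div_ne_zero (neg_ne_zero.2 n3) (mul_ne_zero n1 n2))]
    refine expect_congr rfl fun y _ => expect_congr rfl fun v _ => ?_
    simp only [hc, hp, div_self n1, div_self n2, one_mul, sub_self, zero_div, zero_mul, add_zero]
  · have : c (t i) (Function.update W i x) = c (t i) W := sum_congr rfl fun l _ => by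
      rcases eq_or_ne l i with rfl | e
      · simp
      · rw [Function.update_of_ne e]
    simp only [this]

/-- the generalised von Neumann inequality -/
theorem vn (j : ℕ) (h : K → ℝ) (ε : ℝ) (hh : ∀ x, |h x| ≤ 1) (hT : Sm j h ε)
    (t : Fin (j + 3) → K) (ht : Function.Injective t) (p : Fin (j + 3))
    (g : Fin (j + 2) → K → ℝ) (hg : ∀ i x, |g i x| ≤ 1) :
    |𝔼 x, 𝔼 d, h (x + t p * d) * ∏ l, g l (x + t (p.succAbove l) * d)| ^ (2 ^ j) ≤ ε := by
  have n : ∀ l, t p ≠ t (p.succAbove l) := fun l e => (Fin.succAbove_ne p l) (ht e).symm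
  simp only [Fin.prod_univ_succ, ← mul_assoc (g 0 _)]
  exact vn0 j h ε hh hT (t p) _ _ (fun i => t (p.succAbove i.succ.succ)) (g (Fin.succ 0)) (g 0)
    (fun i => g i.succ.succ) (n _) (n _)
    (fun e => Fin.succ_ne_zero _ (Fin.succAbove_right_injective (ht e))) (fun _ => n _) (hg _) (hg _)
    fun _ => hg _

/-- the weighted count of progressions -/
noncomputable def lam {k : ℕ} (t : Fin k → K) (g : K → ℝ) : ℝ := 𝔼 x, 𝔼 d, ∏ i, g (x + t i * d)

theorem tel1 (j : ℕ) (t : Fin (j + 3) → K) (ht : Function.Injective t) (g g' : K → ℝ) (δ : ℝ)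
    (hδ : 0 ≤ δ) (b1 : ∀ x, |g x| ≤ 1) (b2 : ∀ x, |g' x| ≤ 1) (b3 : ∀ x, |g' x - g x| ≤ 1)
    (hT : Sm j (fun x => g' x - g x) (δ ^ (2 ^ j))) : |lam t g' - lam t g| ≤ (j + 3) * δ := by
  let Hy : ℕ → ℝ := fun n => 𝔼 x, 𝔼 d, ∏ i : Fin (j + 3),
    (if (i : ℕ) < n then g' else g) (x + t i * d)
  have key : ∀ n, n ≤ j + 3 → |Hy n - lam t g| ≤ n * δ := by
    intro n
    induction n with
    | zero => intro _; simp [Hy, lam]
    | succ n ih =>
      intro hn
      have a1 := ih (by omega)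
      let p : Fin (j + 3) := ⟨n, hn⟩
      have a2 := vn j _ _ b3 hT t ht p
        (fun l => if ((p.succAbove l : Fin (j + 3)) : ℕ) < n then g' else g) fun l x => by
          split_ifs
          · exact b2 _
          · exact b1 _
      have a3 := (pow_le_pow_iff_left₀ (abs_nonneg _) hδ (by positivity)).1 a2
      have a4 : Hy (n + 1) - Hy n = 𝔼 x, 𝔼 d, (g' (x + t p * d) - g (x + t p * d)) *
          ∏ l, (if ((p.succAbove l : Fin (j + 3)) : ℕ) < n then g' else g)
            (x + t (p.succAbove l) * d) := by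
        simp only [Hy, ← expect_sub_distrib]
        refine expect_congr rfl fun x _ => expect_congr rfl fun d _ => ?_
        rw [Fin.prod_univ_succAbove _ p, Fin.prod_univ_succAbove _ p, if_pos (by simp [p]),
          if_neg (by simp [p]), sub_mul]
        congr 2
        refine prod_congr rfl fun l _ => ?_
        have : ((p.succAbove l : Fin (j + 3)) : ℕ) ≠ n := fun e =>
          Fin.succAbove_ne p l (Fin.ext e)
        simp only [show ((p.succAbove l : Fin (j + 3)) : ℕ) < n + 1 ↔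
          ((p.succAbove l : Fin (j + 3)) : ℕ) < n by omega]
      rw [← a4] at a3
      have := abs_add_le (Hy (n + 1) - Hy n) (Hy n - lam t g)
      rw [sub_add_sub_cancel] at this
      push_cast
      linarith
  have := key (j + 3) le_rfl
  simp only [Hy, Fin.is_lt, if_true] at this
  push_cast at this
  exact this

/-- telescoping for functions bounded by B -/
theorem tel (j : ℕ) (t : Fin (j + 3) → K) (ht : Function.Injective t) (g g' : K → ℝ) (B δ : ℝ)
    (hB : 1 ≤ B) (hδ : 0 ≤ δ) (b1 : ∀ x, 0 ≤ g x ∧ g x ≤ B) (b2 : ∀ x, 0 ≤ g' x ∧ g' x ≤ B)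
    (hT : Sm j (fun x => g' x - g x) (δ ^ (2 ^ j))) :
    |lam t g' - lam t g| ≤ (j + 3) * B ^ (j + 3) * δ := by
  have h0 : 0 < B := by linarith
  have c : ∀ z : ℝ, |z| ≤ B → |B⁻¹ * z| ≤ 1 := fun z hz => by
    rw [abs_mul, abs_of_pos (inv_pos.2 h0), inv_mul_le_iff₀ h0, mul_one]; exact hz
  have h1 := tel1 j t ht (fun x => B⁻¹ * g x) (fun x => B⁻¹ * g' x) δ hδ
    (fun x => c _ (abs_le.2 ⟨by linarith [(b1 x).1], (b1 x).2⟩))
    (fun x => c _ (abs_le.2 ⟨by linarith [(b2 x).1], (b2 x).2⟩))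
    (fun x => by
      rw [← mul_sub]
      exact c _ (abs_le.2 ⟨by linarith [(b1 x).2, (b2 x).1], by linarith [(b1 x).1, (b2 x).2]⟩))
    (by
      intro a b H ha hb hH
      simp only [← mul_sub]
      exact (hT.smul B⁻¹ (inv_pos.2 h0).le a b H ha hb hH).trans
        (mul_le_of_le_one_left (by positivity) (inv_le_one_of_one_le₀ hB)))
  have e : ∀ u : K → ℝ, lam t (fun x => B⁻¹ * u x) = B⁻¹ ^ (j + 3) * lam t u := fun u => by
    simp only [lam, prod_mul_distrib, prod_const, card_univ, Fintype.card_fin, mul_expect]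
  rw [e, e, ← mul_sub, abs_mul, abs_of_pos (by positivity), inv_pow,
    inv_mul_le_iff₀ (by positivity)] at h1
  linarith

end Vale.Agent.P057H.CntG
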