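import Vale.Agent.P057H.Defs
import Vale.Agent.P057H.CntG

/-! Rows BCS, GVN, TEL. -/

set_option linter.all false

open Finset
open scoped BigOperators Classical

namespace Vale.Agent.P057H.H17

theorem ex_oc {j M : ℕ} [NeZero M] (f : Oc j M → ℝ) :
    𝔼 ω, f ω = 𝔼 W, 𝔼 y, 𝔼 v, f (W, y, v) := by
  rw [BcsG.ex_prod]
  exact expect_congr rfl fun W _ => BcsG.ex_prod fun p => f (W, p)

theorem sm_of {j M : ℕ} [NeZero M] {h : ZMod M → ℝ} {ε : ℝ} (hT : Nc j M h ε) : CntG.Sm j h ε := by
  intro a b H ha hb hH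
  refine le_of_eq_of_le (congrArg _ ?_) (hT a b H ha hb hH)
  rw [ex_oc]
  exact expect_congr rfl fun W _ => expect_congr rfl fun y _ => expect_congr rfl fun v _ =>
    mul_comm _ _

theorem bcs : BCS := by
  intro j M _ Δ ε a b u h1 h2 ha hb hu hI
  refine le_of_eq_of_le (congrArg (fun z => |z| ^ 2 ^ j) ?_) (BcsG.tj j Δ ε h1 (sm_of h2) a b
    (fun i W y v => u i (W, y, v)) ha hb (fun _ _ _ _ => hu _ _) fun i W x y v => hI i (W, y, v) x)
  rw [ex_oc]
  exact expect_congr rfl fun W _ => expect_congr rfl fun y _ => expect_congr rfl fun v _ =>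
    mul_comm _ _

theorem inj {k M : ℕ} [NeZero M] (h : k ≤ M) :
    Function.Injective fun i : Fin k => ((i : ℕ) : ZMod M) := fun a b e => by
  have := congrArg ZMod.val e
  simp only [ZMod.val_cast_of_lt (a.2.trans_le h), ZMod.val_cast_of_lt (b.2.trans_le h)] at this
  exact Fin.ext this

theorem gvn : GVN := by
  intro j M _ h i ε hM hb hT
  have := CntG.vn j (h i) ε (hb i) (sm_of hT) _ (inj hM) i (fun l => h (i.succAbove l))
    fun l => hb _
  simp only [apc, Fin.prod_univ_succAbove _ i]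
  exact this

theorem tel : TEL := by
  intro j M _ g g' B ε τ hM hB hτ b1 b2 hT hε
  exact CntG.tel j _ (inj hM) g g' B τ hB hτ b1 b2 fun a b H ha hb hH =>
    (sm_of hT a b H ha hb hH).trans hε

end Vale.Agent.P057H.H17
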