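import Vale.Agent.P057H.Defs
import Vale.Agent.P057L.Inc

/-! The maximal level: from the count and the descent to the increment. -/

set_option linter.all false

open Finset
open scoped BigOperators Classical

namespace Vale.Agent.P057H.H75

open Vale.Agent.P057Z Vale.Agent.P057L

theorem pf_pf (f : ℤ → ℝ) (x x' : ℤ) (D D' : ℕ) :
    pf (pf f x D) x' D' = pf f (x + D * x') (D * D') := by
  funext z
  simp only [pf]
  congr 1
  push_cast
  ring

theorem pf_one (f : ℤ → ℝ) : pf f 0 1 = f := by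
  funext z
  simp [pf]

theorem mo_self (j L : ℕ) (f : ℤ → ℝ) (x0 : ℤ) {ε : ℝ} (h : 0 ≤ ε) : Mo j L f f x0 ε := by
  intro a b H _ _ _
  simp only [sub_self, mul_zero, sum_const_zero, abs_zero]
  positivity

theorem exp_two (n : ℕ) : Real.exp (2 * (n + 1 : ℝ)) ≤ 2 ^ (3 * (n + 1)) := by
  have h : Real.exp 2 ≤ 2 ^ 3 := by
    have := Real.exp_one_lt_d9
    have e : Real.exp 2 = Real.exp 1 ^ 2 := by rw [← Real.exp_nat_mul]; norm_num
    rw [e]
    nlinarith [Real.exp_pos 1]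
  rw [pow_mul, mul_comm, show (n + 1 : ℝ) = (n + 1 : ℕ) by push_cast; rfl, Real.exp_nat_mul]
  exact pow_le_pow_left₀ (Real.exp_pos _).le h _

theorem two_le {n : ℕ} {Z : ℝ} (hn : 3 ≤ n) (h : (n : ℝ) ≤ Z) : 2 * 2 ^ n ≤ Real.exp Z := by
  refine le_trans ?_ (Real.exp_le_exp.2 h)
  obtain ⟨m, rfl⟩ : ∃ m, n = 3 + m := ⟨n - 3, by omega⟩
  have h1 := two_pow_le_exp m
  have h2 : (16 : ℝ) ≤ Real.exp 3 := by
    have := Real.exp_one_gt_d9
    have e : Real.exp 3 = Real.exp 1 ^ 3 := by rw [← Real.exp_nat_mul]; norm_num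
    rw [e]
    calc (16 : ℝ) ≤ 2.7 ^ 3 := by norm_num
      _ ≤ _ := pow_le_pow_left₀ (by norm_num) (by linarith) 3
  push_cast
  rw [Real.exp_add, pow_add]
  calc (2 : ℝ) * (2 ^ 3 * 2 ^ m) = 16 * 2 ^ m := by ring
    _ ≤ _ := mul_le_mul h2 h1 (by positivity) (Real.exp_pos _).le

theorem num {C P n : ℕ} {lam Z : ℝ} (hP : 9 ≤ P) (hn : 1 ≤ n) (hC : C ≤ n) (h0 : 0 ≤ lam)
    (hl : lam ≤ Z) (hZ : Z < n + 1) :
    C * 2 ^ n * lam ≤ 2 ^ (P * n) * Real.exp (-Z) ^ 2 := by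
  have a1 : (n + 1 : ℝ) ≤ 2 ^ n := by exact_mod_cast Nat.lt_two_pow_self
  have a2 : (C : ℝ) ≤ n := by exact_mod_cast hC
  have a3 : Real.exp (2 * Z) ≤ 2 ^ (3 * (n + 1)) :=
    (Real.exp_le_exp.2 (by linarith)).trans (exp_two n)
  have e : Real.exp (-Z) ^ 2 = (Real.exp (2 * Z))⁻¹ := by
    rw [← Real.exp_neg, ← Real.exp_nat_mul]
    congr 1
    push_cast
    ring
  rw [e, ← div_eq_mul_inv, le_div_iff₀ (Real.exp_pos _)]
  calc _ ≤ (2 : ℝ) ^ n * 2 ^ n * 2 ^ n * 2 ^ (3 * (n + 1)) := by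
        gcongr <;> linarith
    _ = 2 ^ (n + n + n + 3 * (n + 1)) := by simp only [pow_add]
    _ ≤ _ := pow_le_pow_right₀ (by norm_num) (by nlinarith)

theorem inch (hS : MS) (hM : MOI) (hN : CNT) (hD : DOWNH) : INCH := by
  intro j
  obtain ⟨η, η0, η1, P, i1, hP, hN⟩ := hN j
  choose CM hM using hM
  choose CD hD using hD
  obtain ⟨E, hE1, hE2⟩ : ∃ E : ℕ, (∀ j' ≤ j, CM j' ≤ E) ∧ ∀ j' ≤ j, CD j' ≤ E :=
    ⟨∑ i ∈ range (j + 1), (CM i + CD i), fun j' h => le_trans (Nat.le_add_right _ _)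
      (single_le_sum (f := fun i => CM i + CD i) (fun _ _ => Nat.zero_le _)
        (mem_range.2 (by omega))), fun j' h => le_trans (Nat.le_add_left _ _)
      (single_le_sum (f := fun i => CM i + CD i) (fun _ _ => Nat.zero_le _)
        (mem_range.2 (by omega)))⟩
  obtain ⟨i0, b1, b2, b3⟩ : ∃ i0, i1 ≤ i0 ∧ E + 1 ≤ i0 ∧ 3 ≤ i0 :=
    ⟨i1 + E + 3, by omega, by omega, by omega⟩
  obtain ⟨CN, hN⟩ := hN i0 b1
  obtain ⟨C0, hC0⟩ := pow_unbounded_of_one_lt (((2 : ℝ) ^ (P * i0)) ^ (E + 1))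
    (by linarith : 1 < 1 + η)
  obtain ⟨C, c1, c2, c3, c4⟩ : ∃ C : ℕ, C0 ≤ C ∧ CN ≤ C ∧ P * (E + 1) ≤ C ∧
      P * i0 * (E + 1) + 1 ≤ C := ⟨C0 + CN + P * (E + 1) + P * i0 * (E + 1) + 1, by omega,
    by omega, by omega, by omega⟩
  refine ⟨η, η0, C, fun X α N A X0 hX hA hF hα hc => ?_⟩
  have α0 : 0 < α := (Real.exp_pos _).trans_le hα
  have αX : 1 / α ≤ Real.exp X := by
    rw [div_le_iff₀ α0]
    have := mul_le_mul_of_nonneg_left hα (Real.exp_pos X).le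
    rwa [← Real.exp_add, add_neg_cancel, Real.exp_zero] at this
  have f0 : ∀ x, 0 ≤ ind A α x ∧ ind A α x ≤ 1 / α := fun x => by
    unfold ind
    split_ifs
    · exact ⟨by positivity, le_rfl⟩
    · exact ⟨le_rfl, by positivity⟩
  have one : ∀ n : ℕ, (1 : ℝ) ≤ 2 ^ n := fun n => one_le_pow₀ (by norm_num)
  have mono : ∀ {a b : ℕ}, a ≤ b → (2 : ℝ) ^ a ≤ 2 ^ b := fun h => pow_le_pow_right₀ (by norm_num) h
  have two : ∀ {a : ℕ}, 1 ≤ a → (2 : ℝ) ≤ 2 ^ a := fun h => by simpa using mono h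
  have fin : ∀ (lam Y : ℝ) (x : ℤ) (D L : ℕ), 1 + η ≤ lam → Y ≤ lam ^ C → 1 ≤ D → Lg N L Y →
      lam ≤ 𝔼 v ∈ rg L, ind A α (x + D * v) → ∃ (lam : ℝ) (L : ℕ) (A' : Finset ℤ), 1 + η ≤ lam ∧
        Lg N L (lam ^ C) ∧ A' ⊆ rg L ∧ APF (j + 3) A' ∧ lam * α * L ≤ A'.card :=
    fun lam Y x D L h1 h2 h3 h4 h5 => by
      obtain ⟨A', a, b, c⟩ := inc_of hF α0 h4.1 h3 h5
      exact ⟨lam, L, A', h1, h4.mono h2, a, b, c⟩
  have base : ((2 : ℝ) ^ (P * i0)) ^ (E + 1) ≤ (1 + η) ^ C :=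
    hC0.le.trans (pow_le_pow_right₀ (by linarith) c1)
  have Pi : ∀ i : ℕ, i ≤ P * i := fun i => Nat.le_mul_of_pos_left _ (by omega)
  obtain ⟨L0, g0, H⟩ := hN X α N A X0 (by
    refine le_trans ?_ hX
    have a : (CN : ℝ) ≤ C := by exact_mod_cast c2
    have b := Real.add_one_le_exp (C * (X + 1))
    nlinarith) hA hF hα hc
  let lv : ℕ → ℝ := fun i => if i = i0 then 1 + η else 2 ^ i
  let Gd : ℕ → Prop := fun i => i0 ≤ i ∧ ∃ j' ≤ j, ∃ (x : ℤ) (D L : ℕ), 1 ≤ D ∧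
    Lg N L (2 ^ (P * i)) ∧ St j' L (pf (ind A α) x D) (lv i) (2 ^ (P * i))
  have lt : ∀ i, Gd i → lv i < 1 / α := fun i ⟨_, j', _, x, D, L, _, g, s⟩ => by
    by_contra h
    exact hS.2.2.2 j' L _ _ _ (by positivity) g.1 (fun z => (f0 _).2.trans (not_lt.1 h)) s
  have ex : (∃ x : ℤ, 1 + η ≤ 𝔼 v ∈ rg L0, ind A α (x + v)) ∨ ∃ i, Gd i := by
    rcases H with H | H | ⟨i, hi, H⟩
    · exact Or.inl H
    · refine Or.inr ⟨i0, le_rfl, j, le_rfl, 0, 1, L0, le_rfl,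
        g0.mono (two (le_trans (by omega) (Pi i0))), ?_⟩
      rw [pf_one]
      simpa only [lv, if_true] using H
    · refine Or.inr ⟨i, hi.le, j, le_rfl, 0, 1, L0, le_rfl,
        g0.mono (two (le_trans (by omega) (Pi i))), ?_⟩
      rw [pf_one]
      simpa only [lv, if_neg hi.ne'] using H
  rcases ex with ⟨x, H⟩ | ⟨i', hi'⟩
  · refine fin (1 + η) 2 x 1 L0 le_rfl (le_trans ?_ base) le_rfl g0 (by simpa using H)
    exact (two (le_trans (by omega) (Pi i0))).trans (le_pw (one _) (by omega))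
  obtain ⟨n, hn⟩ := pow_unbounded_of_one_lt (1 / α) (by norm_num : (1 : ℝ) < 2)
  have bd : ∀ i, Gd i → i ≤ i0 + n := fun i h => by
    by_contra k
    have := lt i h
    simp only [lv, if_neg (show i ≠ i0 by omega)] at this
    linarith [mono (show n ≤ i by omega)]
  obtain ⟨i, hi, hmax⟩ : ∃ i, Gd i ∧ ∀ i', i < i' → ¬ Gd i' :=
    ⟨Nat.findGreatest Gd (i0 + n), Nat.findGreatest_spec (bd _ hi') hi', fun a ha h =>
      Nat.findGreatest_is_greatest ha (bd _ h) h⟩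
  have l3 := lt i hi
  obtain ⟨ii, j', hj', x, D, L, D1, g, s⟩ := hi
  have l1 : 1 + η ≤ lv i := by
    simp only [lv]
    split_ifs
    · exact le_rfl
    · linarith [two (show 1 ≤ i by omega)]
  have l2 : lv i ≤ 2 ^ (P * i) := by
    simp only [lv]
    split_ifs
    · linarith [two (le_trans (show 1 ≤ i by omega) (Pi i))]
    · exact mono (Pi i)
  have l4 : ((2 : ℝ) ^ (P * i)) ^ (E + 1) ≤ lv i ^ C := by
    simp only [lv]
    split_ifs with h
    · rw [h]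
      exact base
    · rw [← pow_mul, ← pow_mul]
      exact mono (by nlinarith)
  have l5 : ((2 : ℝ) ^ (P * i)) ^ (E + 1) * (X + 1) ≤ Real.log N := by
    have a : (2 : ℝ) ^ i ≤ Real.exp (i0 * (X + 1)) := by
      have k : (1 : ℝ) ≤ i0 := by exact_mod_cast (by omega : 1 ≤ i0)
      rcases ii.eq_or_lt with h | h
      · rw [← h]
        exact (two_pow_le_exp _).trans (Real.exp_le_exp.2 (by nlinarith))
      · simp only [lv, if_neg h.ne'] at l3
        exact (l3.le.trans αX).trans (Real.exp_le_exp.2 (by nlinarith))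
    have b : ((2 : ℝ) ^ (P * i)) ^ (E + 1) ≤ Real.exp ((P * (E + 1) : ℕ) * (i0 * (X + 1))) := by
      rw [Real.exp_nat_mul, mul_comm P i, pow_mul, ← pow_mul]
      exact pow_le_pow_left₀ (by positivity) a _
    have c : X + 1 ≤ Real.exp (X + 1) := by linarith [Real.add_one_le_exp (X + 1)]
    refine le_trans (mul_le_mul b c (by linarith) (Real.exp_pos _).le) (le_trans ?_ hX)
    rw [← Real.exp_add]
    refine Real.exp_le_exp.2 ?_
    have d : ((P * i0 * (E + 1) + 1 : ℕ) : ℝ) ≤ C := by exact_mod_cast c4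
    have := mul_le_mul_of_nonneg_right d (by linarith : 0 ≤ X + 1)
    push_cast at this ⊢
    linarith
  have l6 : i * (E + 1) ≤ 2 ^ (P * i) ∧ i + 1 ≤ 2 ^ (P * i) := by
    have a : i < 2 ^ i := Nat.lt_two_pow_self
    have b : 2 ^ (i + i) ≤ 2 ^ (P * i) := Nat.pow_le_pow_right (by norm_num) (by nlinarith)
    rw [pow_add] at b
    constructor <;> nlinarith
  have l7 : ((2 ^ (P * i) : ℕ) : ℝ) = 2 ^ (P * i) := by push_cast; rfl
  have m1 := one (P * i)
  have m2 : ((2 : ℝ) ^ (P * i)) ^ (E + 1) = (2 ^ (P * i * (E + 1)) : ℝ) := by rw [← pow_mul]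
  generalize (2 : ℝ) ^ (P * i) = μ at *
  have tr : ∀ {L' : ℕ}, Lg L L' (μ ^ CD j') → Lg N L' (μ ^ (E + 1)) := fun h =>
    (g.trans h (by linarith)).mono (by
      rw [pow_succ']
      exact mul_le_mul_of_nonneg_left (pw_le m1 (hE2 j' hj')) (by linarith))
  by_contra hcon
  have no : ∀ (x : ℤ) (D L' : ℕ), 1 ≤ D → Lg N L' (μ ^ (E + 1)) →
      𝔼 v ∈ rg L', ind A α (x + D * v) < lv i := fun x D L' h1 h2 =>
    not_le.1 fun h => hcon (fin _ _ x D L' l1 l4 h1 h2 h)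
  obtain ⟨x', D', L', d1, g', h⟩ := hD j' μ X (lv i) L (pf (ind A α) x D)
    (by rw [← l7]; exact_mod_cast (hE2 j' hj').trans (by omega)) X0 (by
      have a : μ * (μ ^ CD j' * (X + 1)) ≤ μ * Real.log L := by
        refine le_trans ?_ (l5.trans g.2)
        rw [← mul_assoc, ← pow_succ']
        exact mul_le_mul_of_nonneg_right (pw_le m1 (by linarith [hE2 j' hj'])) (by linarith)
      exact le_of_mul_le_mul_left a (by linarith))
    (fun z => ⟨(f0 _).1, (f0 _).2.trans αX⟩) (by linarith) l2 (l3.le.trans αX)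
    (fun j2 h2 x' D' L' d1 g' Z hZ x0 => by
      rw [pf_pf]
      have dd : 1 ≤ D * D' := Nat.mul_pos D1 d1
      rcases le_or_gt X Z with k | k
      · exact ⟨_, fun z => ⟨(f0 _).1, ((f0 _).2.trans αX).trans (Real.exp_le_exp.2 k)⟩,
          mo_self _ _ _ _ (Real.exp_pos _).le⟩
      have z0 : 0 ≤ Z := by linarith
      have z1 : 2 ^ (P * i) ≤ ⌊Z⌋₊ := Nat.le_floor (by rw [l7]; exact hZ)
      have z2 := Nat.floor_le z0
      have z3 := Nat.lt_floor_add_one Z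
      generalize ⌊Z⌋₊ = m at z1 z2 z3
      obtain ⟨G, g1, g2⟩ := hM j2 L' (pf (ind A α) (x + D * x') (D * D')) (2 ^ m) (lv i)
        (2 ^ (P * m)) (Real.exp (-Z)) x0 g'.1 (fun z => (f0 _).1) (one _) (by linarith)
        (Real.exp_pos _) (Real.exp_le_one_iff.2 (by linarith))
        (num hP (by omega) ((hE1 j2 (h2.trans hj')).trans (by omega)) (by linarith)
          (l2.trans hZ) z3)
        (fun y => (le_of_eq (expect_congr rfl fun v _ => by
          simp only [pf]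
          congr 1
          ring)).trans (no (x + D * x' + (D * D' : ℕ) * y) (D * D') L' dd (tr g')).le)
        (fun s' => hmax m (by omega) ⟨by omega, j2, h2.trans hj', _, _, L', dd,
          (tr g').mono (by
            rw [m2]
            exact mono (by rw [mul_assoc]; exact Nat.mul_le_mul_left _ (by omega))), by
          simpa only [lv, if_neg (show m ≠ i0 by omega)] using s'⟩)
      exact ⟨G, fun z => ⟨(g1 z).1, (g1 z).2.trans (two_le (by omega) z2)⟩, g2⟩) s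
  refine absurd (h.trans (le_of_eq (expect_congr rfl fun v _ => ?_)))
    (not_le.2 (no (x + D * x') (D * D') L' (Nat.mul_pos D1 d1) (tr g')))
  simp only [pf]
  congr 1
  push_cast
  ring

end Vale.Agent.P057H.H75
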