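import Vale.Agent.P057H.Defs

/-! Row TRIV: only trivial progressions are counted. -/

set_option linter.all false

open Finset
open scoped BigOperators Classical

namespace Vale.Agent.P057H

open Vale.Agent.P057Z Vale.Agent.P057L

namespace Triv

theorem step {k M N : ℕ} [NeZero M] (hM : 2 * N ≤ M) {x d : ZMod M}
    (h : ∀ i : ℕ, i < k → (x + (i : ZMod M) * d).val < N) (hk : 2 ≤ k) (i : ℕ) (hi : i < k) :
    ((x + (i : ZMod M) * d).val : ℤ) = x.val + i * (((x + d).val : ℤ) - x.val) := by
  induction i with
  | zero => simp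
  | succ i ih =>
    have h0 := h 0 (by omega)
    have h1 := h 1 (by omega)
    have h2 := h i (by omega)
    have h3 := h (i + 1) hi
    have e := ih (by omega)
    simp only [Nat.cast_zero, zero_mul, add_zero, Nat.cast_one, one_mul] at h0 h1
    have c : (M : ℤ) ∣ ((x + ((i + 1 : ℕ) : ZMod M) * d).val : ℤ) - (x + (i : ZMod M) * d).val -
        (((x + d).val : ℤ) - x.val) := by
      rw [← ZMod.intCast_zmod_eq_zero_iff_dvd]
      push_cast
      simp only [ZMod.natCast_val, ZMod.cast_id', id_eq]
      ring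
    have z := Int.eq_zero_of_abs_lt_dvd c (abs_lt.2 ⟨by omega, by omega⟩)
    push_cast at z e ⊢
    linarith

theorem zero {k M N : ℕ} [NeZero M] {A : Finset ℤ} (hk : 3 ≤ k) (hM : 2 * N ≤ M) (hA : A ⊆ rg N)
    (hF : APF k A) {x d : ZMod M} (h : ∀ i : ℕ, i < k → ((x + (i : ZMod M) * d).val : ℤ) ∈ A) :
    d = 0 := by
  have s := step hM (x := x) (d := d) (k := k) (fun i hi => by
    have := (mem_Ico.1 (hA (h i hi))).2
    exact_mod_cast this) (by omega)
  set D : ℤ := ((x + d).val : ℤ) - x.val with hD
  rcases lt_trichotomy D 0 with h1 | h1 | h1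
  · refine absurd (fun i hi => ?_) (hF (x.val + (k - 1 : ℕ) * D) (-D) (by omega))
    have := h (k - 1 - i) (by omega)
    rw [s _ (by omega), Nat.cast_sub (by omega)] at this
    rwa [show (x.val : ℤ) + (k - 1 : ℕ) * D + i * -D = x.val + ((k - 1 : ℕ) - i) * D by ring]
  · have : (x + d).val = x.val := by omega
    simpa using ZMod.val_injective M this
  · exact absurd (fun i hi => s i hi ▸ h i hi) (hF x.val D h1)

end Triv

theorem triv : TRIV := by
  intro k M N _ A α hk hM hA hF hα
  have hb : ∀ y, 0 ≤ per (ind A α) 0 N M y ∧ per (ind A α) 0 N M y ≤ 1 / α := fun y => by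
    have : 0 ≤ 1 / α := by positivity
    unfold per ind
    split_ifs <;> simp only [le_refl, this, and_self]
  refine expect_le univ_nonempty fun x _ => ?_
  have h1 : ∀ d : ZMod M, ∏ i : Fin k, per (ind A α) 0 N M (x + ((i : ℕ) : ZMod M) * d) ≤
      if d = 0 then (1 / α) ^ k else 0 := fun d => by
    split_ifs with hd
    · refine (prod_le_prod (fun i _ => (hb _).1) fun i _ => (hb _).2).trans_eq ?_
      rw [prod_const, card_univ, Fintype.card_fin]
    · by_contra hc
      refine hd (Triv.zero hk hM hA hF (x := x) fun i hi => ?_)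
      by_contra hn
      refine hc (prod_eq_zero (mem_univ ⟨i, hi⟩) ?_).le
      unfold per ind
      rw [zero_add, if_neg hn, ite_self]
  refine (expect_le_expect fun d _ => h1 d).trans_eq ?_
  rw [expect_eq_sum_div_card, sum_ite_eq', if_pos (mem_univ _), card_univ, ZMod.card]

end Vale.Agent.P057H
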