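import Vale.Agent.P057H.Defs
import Vale.Agent.P057H.UnG

/-! The error of a model has no large frequencies. -/

set_option linter.all false

open Finset
open scoped BigOperators Classical

namespace Vale.Agent.P057H

open Vale.Agent.P057Z Vale.Agent.P057L

namespace Unif

theorem ab1 (p : Prop) [Decidable p] : |(if p then (1 : ℝ) else 0)| ≤ 1 := by
  split_ifs <;> simp

end Unif

open Unif

theorem unif : UNIF := by
  intro j L T Q _ Λ _ f g lam ε z Υ F i U u ψ hT hTL tc hM hU hu
  have T0 : (0 : ℝ) < T := by exact_mod_cast hT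
  have L0 : (0 : ℝ) < L := by exact_mod_cast hT.trans hTL
  have ne : (∅ : Finset (Fin j)) ≠ univ := fun h => notMem_empty i (h ▸ mem_univ i)
  let H : (Finset (Fin j) → Λ) → Finset (Fin j) → ℤ → ℝ := fun υ S x =>
    if Υ S x = υ S ∧ (S = ∅ → x ∈ rg T) then 1 else 0
  let c : (Finset (Fin j) → Λ) → ℝ := fun υ => if F υ ∧ Υ univ 0 = υ univ then 1 else 0
  let Φ : (Finset (Fin j) → Λ) → Pt j 1 → ℤ → ℝ := fun υ W s =>
    c υ * (∏ S ∈ (univ : Finset (Finset (Fin j))).erase univ, H υ S (ss S W + s)) *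
      (f (z + ss univ W + s) - g (z + ss univ W + s))
  have e0 : ∀ W, ∀ s ∈ rg T, GG f lam z Υ F W s - GG g lam z Υ F W s = ∑ υ, Φ υ W s := by
    intro W s hs
    have hH : ∀ υ S, H υ S (ss S W + s) = if lb Υ W s S = υ S then 1 else 0 := fun υ S => by
      refine if_congr (and_iff_left ?_) rfl rfl
      rintro rfl
      simpa [ss] using hs
    rw [sum_eq_single (lb Υ W s) (fun υ _ hυ => ?_) fun h => absurd (mem_univ _) h]
    · simp only [Φ, hH, if_true, prod_const_one, mul_one, c, GG]
      rw [show Υ univ 0 = lb Υ W s univ from tc _ _]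
      by_cases h : F (lb Υ W s) <;> simp [h]
    · by_cases h : lb Υ W s univ = υ univ
      · obtain ⟨S, hS⟩ := Function.ne_iff.1 hυ
        have : S ≠ univ := fun e => hS (e ▸ h.symm)
        simp only [Φ]
        rw [prod_eq_zero (mem_erase.2 ⟨this, mem_univ S⟩) (by rw [hH, if_neg (Ne.symm hS)]),
          mul_zero, zero_mul]
      · simp only [Φ, c]
        rw [if_neg fun k => h ((tc _ _).trans k.2), zero_mul, zero_mul]
  have k : ∀ υ, ‖UnG.tw ψ U u T (Φ υ)‖ * T ≤ 2 * ε * (L : ℝ) ^ (j + 1) := fun υ => by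
    have := UnG.cplx (bp j 1 L) U hU (rg L) (sy (4 * L)) (rg T) (Φ υ) ψ u hu
      (δ := ε * (L : ℝ) ^ (j + 2)) (fun W s hs => by
        simp only [Φ]
        rw [prod_eq_zero (mem_erase.2 ⟨ne, mem_univ ∅⟩) (if_neg fun k => hs (by
          simpa [ss] using k.2 rfl)), mul_zero, zero_mul])
      (fun s hs y hy => by
        simp only [rg, sy, mem_Ico, mem_Ioo] at hs hy ⊢
        push_cast
        omega) fun a b ha hb => by
        refine le_of_eq_of_le (congrArg abs (sum_congr rfl fun W _ => ?_))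
          (hM (fun W y => if y ∈ rg L then c υ * a W y else 0) b (H υ) (fun W y => ?_) hb
            fun S x => ab1 _)
        · refine Eq.trans ?_ (sum_subset (s₁ := rg L) (fun y hy => by
            simp only [rg, sy, mem_Ico, mem_Ioo] at hy ⊢
            push_cast
            omega) fun y _ hy => by simp [hy])
          refine sum_congr rfl fun y hy => sum_congr rfl fun v _ => ?_
          simp only [Φ, if_pos hy, add_assoc]
          ring
        · beta_reduce
          split_ifs
          · rw [abs_mul]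
            exact mul_le_one₀ (ab1 _) (abs_nonneg _) (ha W y)
          · simp
    have e : (T : ℂ) * UnG.tw ψ U u T (Φ υ) =
        ∑ W ∈ U, u W * ∑ s ∈ rg T, (Φ υ W s : ℂ) * ch (ψ W * (s : ZMod Q)) := by
      rw [UnG.tw, mul_sum]
      refine sum_congr rfl fun W _ => ?_
      rw [expect_eq_sum_div_card, Win.c1]
      have : (T : ℂ) ≠ 0 := by exact_mod_cast T0.ne'
      field_simp
    rw [← e, Win.c1, norm_mul, Complex.norm_natCast] at this
    refine le_of_mul_le_mul_left ?_ L0
    calc _ = L * (T * ‖UnG.tw ψ U u T (Φ υ)‖) := by ring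
      _ ≤ _ := this
      _ = _ := by ring
  have ε0 : 0 ≤ 2 * ε * (L : ℝ) ^ (j + 1) := le_trans (by positivity) (k (lb Υ 0 0))
  have e1 : UnG.tw ψ U u T (fun W s => GG f lam z Υ F W s - GG g lam z Υ F W s) =
      ∑ υ, UnG.tw ψ U u T (Φ υ) := by
    rw [← UnG.tw_sum]
    exact UnG.tw_congr fun W _ s hs => e0 W s hs
  refine le_of_eq_of_le (congrArg (fun x => ‖x‖ * T) e1) ?_
  refine (mul_le_mul_of_nonneg_right (norm_sum_le _ _) T0.le).trans ?_
  rw [sum_mul]
  refine (sum_le_card_nsmul _ _ _ fun υ _ => k υ).trans ?_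
  rw [card_univ, Fintype.card_fun, Fintype.card_finset, Fintype.card_fin, nsmul_eq_mul]
  push_cast
  have := mul_nonneg (by positivity : (0 : ℝ) ≤ (Fintype.card Λ : ℝ) ^ 2 ^ j) ε0
  linarith

end Vale.Agent.P057H
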