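import Vale.Agent.P057Z.Km.Cs
import Vale.Agent.P057Z.Km.Apa
import Vale.Agent.P057Z.Km.Bb

/-! Almost periodicity for a whole family of sets at once, against bounded weights. -/

set_option linter.all false

open Finset
open scoped BigOperators

namespace Vale.Agent.P057H.Ap

open Vale.Agent.P057Z.Km Vale.Agent.P057Z.Km.Cs
open Vale.Agent.P015.R2.H74 (avg avg_iter_near)

noncomputable section

variable {G : Type} [AddCommGroup G] [Fintype G] [DecidableEq G] {ι : Type} [Fintype ι]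

open Classical in
theorem good {A : Finset G} (S : ι → Finset G) (hA : A.Nonempty) {ε η : ℝ} (hε : 0 < ε)
    (hε1 : ε ≤ 1) (hη : 0 < η) (n : ℕ)
    (hn : 4 * Real.exp (-(ε ^ 2 * n / 4)) * Fintype.card ι ≤ η) :
    (1 / 2 : ℝ) * (#A : ℝ) ^ n ≤ #{v ∈ Fintype.piFinset fun _ : Fin n => A |
      ∑ u, (#{y : G | Bad A (S u) ε v y} : ℝ) ≤ η * Fintype.card G} := by
  set P := Fintype.piFinset fun _ : Fin n => A with hP
  set c := η * Fintype.card G with hc
  have g0 : (0 : ℝ) < Fintype.card G := by exact_mod_cast Fintype.card_pos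
  have c0 : 0 < c := mul_pos hη g0
  have h1 : (#P : ℝ) = (#A : ℝ) ^ n := by simp [hP]
  have h2 : ∑ v ∈ P, ∑ u, (#{y : G | Bad A (S u) ε v y} : ℝ) ≤ c / 2 * (#A : ℝ) ^ n := by
    rw [sum_comm]
    refine (sum_le_card_nsmul _ _
      (Fintype.card G * (2 * Real.exp (-(ε ^ 2 * n / 4)) * (#A : ℝ) ^ n)) fun u _ => ?_).trans ?_
    · rw [card_swap]
      refine (sum_le_card_nsmul _ _ (2 * Real.exp (-(ε ^ 2 * n / 4)) * (#A : ℝ) ^ n)
        fun y _ => ?_).trans (by rw [nsmul_eq_mul, card_univ])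
      refine le_of_eq_of_le ?_ (tuple_tail A hA (fun a => ind (S u) (y + a))
        (fun a _ => ind_bd _ _) n ε hε hε1)
      exact congrArg _ (congrArg _ (filter_congr_decidable ..))
    · rw [nsmul_eq_mul, card_univ]
      have k : (0 : ℝ) ≤ (#A : ℝ) ^ n * Fintype.card G := by positivity
      have := mul_le_mul_of_nonneg_right hn k
      rw [hc]
      linarith
  have h3 : (#{v ∈ P | ∑ u, (#{y : G | Bad A (S u) ε v y} : ℝ) ≤ c} : ℝ) +
      #{v ∈ P | ¬ ∑ u, (#{y : G | Bad A (S u) ε v y} : ℝ) ≤ c} = #P := by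
    exact_mod_cast card_filter_add_card_filter_not (s := P) _
  have h4 : #{v ∈ P | ¬ ∑ u, (#{y : G | Bad A (S u) ε v y} : ℝ) ≤ c} • c ≤ c / 2 * (#A : ℝ) ^ n :=
    ((card_nsmul_le_sum _ _ _ fun v hv => (not_le.1 (mem_filter.1 hv).2).le).trans
      (sum_le_sum_of_subset_of_nonneg (filter_subset _ _) fun _ _ _ =>
        sum_nonneg fun _ _ => Nat.cast_nonneg _)).trans h2
  rw [nsmul_eq_mul] at h4
  nlinarith

/-- the correlation of `h` with the translates -/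
def phi (A : Finset G) (S : ι → Finset G) (u : G → ι) (h : G → ℝ) (w : G) : ℝ :=
  ∑ s, h s * F A (S (u s)) (s + w)

open Classical in
/-- Croot Sisask for the family -/
theorem per {A : Finset G} (S : ι → Finset G) (hA : A.Nonempty) {ε η : ℝ} (hε : 0 < ε)
    (hε1 : ε ≤ 1) (hη : 0 < η) {n : ℕ} (hn0 : n ≠ 0)
    (hn : 4 * Real.exp (-(ε ^ 2 * n / 4)) * Fintype.card ι ≤ η) :
    ∃ T : Finset G, T.Nonempty ∧
      (1 / 2) * ((#A : ℝ) / Fintype.card G) ^ n * Fintype.card G ≤ #T ∧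
      ∀ t ∈ T, ∀ t' ∈ T, ∀ (u : G → ι) (h : G → ℝ) (B : ℝ), (∀ s, |h s| ≤ B) → ∀ w,
        |phi A S u h (w + (t - t')) - phi A S u h w| ≤
          2 * ε * ∑ s, |h s| + 2 * η * B * Fintype.card G := by
  have c2 : (0 : ℝ) < #A := Nat.cast_pos.2 hA.card_pos
  have g0 : (0 : ℝ) < Fintype.card G := by exact_mod_cast Fintype.card_pos
  obtain ⟨z, hz⟩ := pigeon (D := univ) (U := univ) hA univ_nonempty (fun _ _ _ _ => mem_univ _) _
    (filter_subset _ _) (good S hA hε hε1 hη n hn)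
  rw [card_univ] at hz
  refine ⟨_, card_pos.1 (Nat.cast_pos.1 (lt_of_lt_of_le (by positivity) hz)),
    hz, fun t ht t' ht' u h B hB w => ?_⟩
  have g1 := (mem_filter.1 (mem_filter.1 ht).2).2
  have g2 := (mem_filter.1 (mem_filter.1 ht').2).2
  have B0 : 0 ≤ B := (abs_nonneg _).trans (hB 0)
  have key : ∀ (v : Fin n → G) (x : G),
      ∑ s, (if Bad A (S (u s)) ε v (s + x) then (1 : ℝ) else 0) ≤
        ∑ u, (#{y : G | Bad A (S u) ε v y} : ℝ) := fun v x => by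
    calc _ ≤ ∑ s, ∑ u, (if Bad A (S u) ε v (s + x) then (1 : ℝ) else 0) :=
          sum_le_sum fun s _ => single_le_sum
            (f := fun u => if Bad A (S u) ε v (s + x) then (1 : ℝ) else 0)
            (fun _ _ => by split_ifs <;> norm_num) (mem_univ (u s))
      _ = _ := by
          rw [sum_comm]
          refine sum_congr rfl fun u _ => ?_
          rw [card_filter]
          push_cast
          exact Equiv.sum_comp (Equiv.addRight x)
            fun y => if Bad A (S u) ε v y then (1 : ℝ) else 0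
  have n0 : (0 : ℝ) < n := Nat.cast_pos.2 (Nat.pos_of_ne_zero hn0)
  have pt : ∀ s, |h s * F A (S (u s)) (s + (w + (t - t'))) - h s * F A (S (u s)) (s + w)| ≤
      2 * ε * |h s| + B * (if Bad A (S (u s)) ε (fun i => z i - t) (s + (w + (t - t'))) then 1 else 0)
      + B * if Bad A (S (u s)) ε (fun i => z i - t') (s + w) then 1 else 0 := fun s => by
    have b1 := F_bd hA (S (u s)) (s + (w + (t - t')))
    have b2 := F_bd hA (S (u s)) (s + w)
    have b3 : |F A (S (u s)) (s + (w + (t - t'))) - F A (S (u s)) (s + w)| ≤ 1 :=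
      abs_le.2 ⟨by linarith, by linarith⟩
    have b4 := abs_nonneg (h s)
    have b5 := mul_nonneg hε.le b4
    have b6 := (mul_le_mul_of_nonneg_left b3 b4).trans ((mul_one _).le.trans (hB s))
    rw [← mul_sub, abs_mul]
    split_ifs with p q q
    · linarith
    · linarith
    · linarith
    · simp only [Bad, not_lt, abs_le] at p q
      rw [sum_congr rfl fun i _ => congrArg (ind (S (u s)))
        (show s + (w + (t - t')) + (z i - t) = s + w + (z i - t') by abel)] at p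
      have b7 : |F A (S (u s)) (s + (w + (t - t'))) - F A (S (u s)) (s + w)| ≤ 2 * ε :=
        abs_le.2 ⟨by nlinarith, by nlinarith⟩
      have := mul_le_mul_of_nonneg_left b7 b4
      linarith
  have h3 := (abs_sum_le_sum_abs _ univ).trans (sum_le_sum fun s _ => pt s)
  rw [sum_add_distrib, sum_add_distrib, ← mul_sum, ← mul_sum, ← mul_sum, sum_sub_distrib] at h3
  have h4 := mul_le_mul_of_nonneg_left ((key _ (w + (t - t'))).trans g1) B0
  have h5 := mul_le_mul_of_nonneg_left ((key _ w).trans g2) B0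
  unfold phi
  linarith

/-- **almost periods of a family form a Bohr set** -/
theorem aper {A : Finset G} (S : ι → Finset G) (hA : A.Nonempty) {ε η κ K : ℝ} {n k j : ℕ}
    (hK : (Fintype.card G : ℝ) ≤ K * #A) (hε : 0 < ε) (hε1 : ε ≤ 1) (hη : 0 < η) (hκ : 0 ≤ κ)
    (hn0 : n ≠ 0) (hn : 4 * Real.exp (-(ε ^ 2 * n / 4)) * Fintype.card ι ≤ η)
    (hj : 16 * Real.log (8 * K ^ n) < j) :
    ∃ Λ : Finset (AddChar G ℂ), #Λ ≤ j ∧ ∀ x, (∀ lam ∈ Λ, ‖lam x - 1‖ ≤ κ) →
      ∀ (u : G → ι) (h : G → ℝ) (B : ℝ), (∀ s, |h s| ≤ B) →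
        |phi A S u h x - phi A S u h 0| ≤ (4 * k * ε + √K * (j * κ + 2 / 4 ^ k)) * ∑ s, |h s| +
          4 * k * η * B * Fintype.card G := by
  classical
  have a2 : (0 : ℝ) < #A := by exact_mod_cast hA.card_pos
  have g0 : (0 : ℝ) < Fintype.card G := by exact_mod_cast Fintype.card_pos
  have K0 : 0 < K := (mul_pos_iff_of_pos_right a2).1 (g0.trans_le hK)
  obtain ⟨T, hTn, cT, hper⟩ := per S hA hε hε1 hη hn0 hn
  obtain ⟨Λ, hΛ, hΛ'⟩ := P057.local_chang T univ univ univ j (subset_univ _) hTn univ_nonempty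
    (fun _ _ _ _ => mem_univ _) (by rw [card_univ]; linarith) (1 / 2 * (1 / K) ^ n)
    (by positivity) (le_trans (by
      have k1 : 1 / K ≤ (#A : ℝ) / Fintype.card G := by
        rw [div_le_div_iff₀ K0 g0]
        linarith
      rw [card_univ]
      gcongr) cT) (by
      rwa [show 4 / (1 / 2 * (1 / K) ^ n) = 8 * K ^ n by
        rw [one_div_pow]
        field_simp
        norm_num])
  refine ⟨Λ, hΛ, fun x hx u h B hB => ?_⟩
  have hnear := avg_iter_near T (phi A S u h) _ (fun t ht t' ht' w => hper t ht t' ht' u h B hB w) k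
  have e1 : ∀ (S' : Finset G) (y : G), F A S' y = psi {0} A S' y := fun S' y => by
    rw [psi_eq]; simp
  have e2 : ∀ (S' : Finset G) (y : G), psi {0} A S' y = psi A {0} S' y := fun S' y => by
    simp only [psi, card_filter, sum_product, sum_singleton, card_singleton, zero_add, add_zero,
      Nat.cast_one, one_mul, mul_one]
  have hc := Apa.compare T (phi A S u h)
    (fun γ => ∑ s, (h s : ℂ) * (Apa.cf A {0} (S (u s)) γ * γ s)) (fun w => by
      simp only [phi, Complex.ofReal_sum, Complex.ofReal_mul, e1, e2, Apa.psi_fourier, mul_sum,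
        sum_mul]
      rw [sum_comm]
      refine sum_congr rfl fun γ _ => sum_congr rfl fun s _ => ?_
      rw [AddChar.map_add_eq_mul]
      ring) k x (η := j * κ) (by positivity) fun γ hγ => by
      obtain ⟨χ, k1, k2⟩ := hΛ' γ hγ
      have k3 := Apa.char_le (κ := 0) (x := x) univ_nonempty k1 (by simp)
      have k4 := sum_le_card_nsmul Λ _ κ hx
      have k5 : (#Λ : ℝ) * κ ≤ j * κ := by gcongr
      rw [nsmul_eq_mul] at k4
      linarith [k2 x]
  have hs : ∑ γ : AddChar G ℂ, ‖∑ s, (h s : ℂ) * (Apa.cf A {0} (S (u s)) γ * γ s)‖ ≤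
      √K * ∑ s, |h s| := by
    refine (sum_le_sum fun γ _ => norm_sum_le _ _).trans ?_
    rw [sum_comm, mul_sum]
    refine sum_le_sum fun s _ => ?_
    simp only [norm_mul, AddChar.norm_apply, mul_one, Complex.norm_real, Real.norm_eq_abs]
    rw [← mul_sum, mul_comm]
    exact mul_le_mul_of_nonneg_right (Apa.cf_le hA (singleton_nonempty 0)
      (le_trans (by exact_mod_cast card_le_univ _) hK)) (abs_nonneg _)
  have a4 : (0 : ℝ) < ((#T : ℝ) ^ 2) ^ k := by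
    have : (0 : ℝ) < #T := by exact_mod_cast hTn.card_pos
    positivity
  have b1 := abs_le.1 (hnear x)
  have b2 := abs_le.1 (hnear 0)
  have b3 := abs_le.1 (hc.trans (mul_le_mul_of_nonneg_right hs (by positivity)))
  exact abs_le.2 ⟨le_of_mul_le_mul_left (by linarith [b1.2, b2.1, b3.1]) a4,
    le_of_mul_le_mul_left (by linarith [b1.1, b2.2, b3.2]) a4⟩

theorem pw_exp (Y : ℝ) (hY : 0 ≤ Y) (k : ℕ) : Y ^ k ≤ k.factorial * Real.exp Y := by
  have := Real.pow_div_factorial_le_exp Y hY k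
  rwa [div_le_iff₀ (by positivity), mul_comm] at this

theorem num1 {Y n c : ℝ} (hY : 10 ^ 9 ≤ Y) (n1 : Y ^ 6 ≤ n) (hc : c ≤ Real.exp Y) :
    4 * Real.exp (-((1 / (32 * Y ^ 2)) ^ 2 * n / 4)) * c ≤ Real.exp (-(2 * Y)) := by
  have Y0 : 0 < Y := by linarith
  have a1 : 5 * Y ≤ (1 / (32 * Y ^ 2)) ^ 2 * n / 4 := by
    have : (1 / (32 * Y ^ 2)) ^ 2 * Y ^ 6 / 4 = Y * Y / 4096 := by field_simp; norm_num
    have b : (1 / (32 * Y ^ 2)) ^ 2 * Y ^ 6 / 4 ≤ (1 / (32 * Y ^ 2)) ^ 2 * n / 4 := by gcongr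
    have : 20480 * Y ≤ Y * Y := mul_le_mul_of_nonneg_right (by linarith) Y0.le
    linarith
  have a2 : (4 : ℝ) ≤ Real.exp (2 * Y) := by linarith [Real.add_one_le_exp (2 * Y)]
  calc _ ≤ 4 * Real.exp (-((1 / (32 * Y ^ 2)) ^ 2 * n / 4)) * Real.exp Y := by gcongr
    _ ≤ Real.exp (2 * Y) * Real.exp (-(5 * Y)) * Real.exp Y := by gcongr
    _ = _ := by rw [← Real.exp_add, ← Real.exp_add]; congr 1; ring

theorem num2 {Y j : ℝ} {n : ℕ} (hY : 10 ^ 9 ≤ Y) (n2 : (n : ℝ) ≤ 2 * Y ^ 6) (j1 : Y ^ 8 < j + 1) :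
    16 * Real.log (8 * Real.exp Y ^ n) < j := by
  have Y0 : 0 < Y := by linarith
  rw [Real.log_mul (by norm_num) (by positivity), Real.log_pow, Real.log_exp]
  have a1 : Real.log 8 ≤ 7 := by linarith [Real.log_le_sub_one_of_pos (by norm_num : (0 : ℝ) < 8)]
  have a2 : n * Y ≤ 2 * Y ^ 6 * Y := mul_le_mul_of_nonneg_right n2 Y0.le
  have a3 : 1 ≤ Y ^ 7 := one_le_pow₀ (by linarith)
  have a5 : 1000 * Y ^ 7 ≤ Y * Y ^ 7 := mul_le_mul_of_nonneg_right (by linarith) (by positivity)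
  have a4 : Y ^ 8 = Y * Y ^ 7 := by ring
  have a6 : 2 * Y ^ 6 * Y = 2 * Y ^ 7 := by ring
  linarith

theorem num3 {Y k : ℝ} (hY : 10 ^ 9 ≤ Y) (k2 : k ≤ 2 * Y) :
    4 * k * Real.exp (-(2 * Y)) ≤ Real.exp (-Y) := by
  have Y0 : 0 < Y := by linarith
  have a1 := pw_exp Y Y0.le 2
  have a2 : 4 * k ≤ Real.exp Y := by
    norm_num [Nat.factorial] at a1
    have : 16 * Y ≤ Y * Y := mul_le_mul_of_nonneg_right (by linarith) Y0.le
    linarith [sq Y]
  calc _ ≤ Real.exp Y * Real.exp (-(2 * Y)) := by gcongr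
    _ = _ := by rw [← Real.exp_add]; congr 1; ring

theorem num4 {Y j : ℝ} {k : ℕ} (hY : 10 ^ 9 ≤ Y) (k1 : Y ≤ k) (k2 : (k : ℝ) ≤ 2 * Y)
    (j2 : j ≤ Y ^ 8) : 4 * k * (1 / (32 * Y ^ 2)) + √(Real.exp Y) *
      (j * (7 * Real.exp (-(2 * Y))) + 2 / 4 ^ k) ≤ 1 / Y := by
  have Y0 : 0 < Y := by linarith
  have p2 : 4 * k * (1 / (32 * Y ^ 2)) ≤ 1 / (4 * Y) := by
    calc _ ≤ 4 * (2 * Y) * (1 / (32 * Y ^ 2)) := by gcongr
      _ = _ := by field_simp; norm_num
  have p3 : Real.exp (Y / 2) * (j * (7 * Real.exp (-(2 * Y)))) ≤ 1 / (4 * Y) := by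
    have a1 := pw_exp Y Y0.le 10
    have a2 : Real.exp (Y / 2) ≤ Real.exp Y := Real.exp_le_exp.2 (by linarith)
    have a3 : 28 * Y ^ 9 ≤ Real.exp Y := by
      norm_num [Nat.factorial] at a1
      have b : Y ^ 10 = Y * Y ^ 9 := by ring
      have : 10 ^ 9 * Y ^ 9 ≤ Y * Y ^ 9 := mul_le_mul_of_nonneg_right hY (by positivity)
      have : 0 ≤ Y ^ 9 := by positivity
      linarith
    rw [le_div_iff₀ (by positivity)]
    calc _ ≤ Real.exp (Y / 2) * (Y ^ 8 * (7 * Real.exp (-(2 * Y)))) * (4 * Y) := by gcongr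
      _ ≤ Real.exp Y * (Y ^ 8 * (7 * Real.exp (-(2 * Y)))) * (4 * Y) := by gcongr
      _ = 28 * Y ^ 9 * (Real.exp Y * Real.exp (-(2 * Y))) := by ring
      _ ≤ Real.exp Y * (Real.exp Y * Real.exp (-(2 * Y))) := by gcongr
      _ = 1 := by rw [← Real.exp_add, ← Real.exp_add, ← Real.exp_zero]; congr 1; ring
  have p4 : Real.exp (Y / 2) * (2 / 4 ^ k) ≤ 1 / (4 * Y) := by
    have a1 : Real.exp Y ≤ 4 ^ k := by
      calc Real.exp Y ≤ Real.exp (k * 1) := Real.exp_le_exp.2 (by linarith)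
        _ = Real.exp 1 ^ k := Real.exp_nat_mul 1 k
        _ ≤ 4 ^ k := by gcongr; linarith [Real.exp_one_lt_d9]
    have a2 := pw_exp (Y / 2) (by positivity) 2
    have a3 : 8 * Y ≤ Real.exp (Y / 2) := by
      norm_num [Nat.factorial] at a2
      have : 64 * Y ≤ Y * Y := mul_le_mul_of_nonneg_right (by linarith) Y0.le
      have : (Y / 2) ^ 2 = Y * Y / 4 := by ring
      linarith
    have a4 : Real.exp (Y / 2) * Real.exp (Y / 2) = Real.exp Y := by
      rw [← Real.exp_add, add_halves]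
    have a5 := mul_le_mul_of_nonneg_left a3 (Real.exp_pos (Y / 2)).le
    rw [← mul_div_assoc, div_le_div_iff₀ (by positivity) (by positivity)]
    linarith
  rw [← Real.exp_half, mul_add]
  have : 1 / Y = 4 * (1 / (4 * Y)) := by field_simp
  have : 0 ≤ 1 / (4 * Y) := by positivity
  linarith

open Vale.Agent.P057Z in
theorem chr {Q : ℕ} [Fact Q.Prime] (lam : AddChar (ZMod Q) ℂ) :
    ∃ ξ : ZMod Q, ∀ x, ‖lam x - 1‖ ≤ 7 * nm (ξ * x) := by
  obtain ⟨ξ, hξ⟩ := Km.char Q 1 (lam.compAddMonoidHom (Pi.evalAddMonoidHom (fun _ => ZMod Q) 0))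
  exact ⟨ξ 0, fun x => by simpa [dotProduct] using hξ fun _ => x⟩

open Vale.Agent.P057Z in
/-- the polynomial form in a group of prime order -/
theorem aperZ {Y : ℝ} (hY : 10 ^ 9 ≤ Y) {Q : ℕ} [Fact Q.Prime] {A : Finset (ZMod Q)}
    (S : ι → Finset (ZMod Q)) (hA : Real.exp (-Y) * Q ≤ #A)
    (hι : (Fintype.card ι : ℝ) ≤ Real.exp Y) :
    ∃ ξ : Fin ⌊Y ^ 8⌋₊ → ZMod Q, ∀ x, (∀ i, nm (ξ i * x) ≤ Real.exp (-(2 * Y))) →
      ∀ (u : ZMod Q → ι) (h : ZMod Q → ℝ) (B : ℝ), (∀ s, |h s| ≤ B) →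
        |phi A S u h x - phi A S u h 0| ≤ 1 / Y * ∑ s, |h s| + Real.exp (-Y) * B * Q := by
  classical
  have Y0 : 0 < Y := by linarith
  have Y1 : 1 ≤ Y := by linarith
  have q0 : (0 : ℝ) < Q := by exact_mod_cast (Fact.out : Q.Prime).pos
  have eY := Real.exp_pos Y
  have eN := Real.exp_pos (-Y)
  have ee : Real.exp (-Y) * Real.exp Y = 1 := by rw [← Real.exp_add]; simp
  have hA0 : A.Nonempty := card_pos.1 (Nat.cast_pos.1 (lt_of_lt_of_le (mul_pos eN q0) hA))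
  have k1 : Y ≤ ⌈Y⌉₊ := Nat.le_ceil Y
  have k2 : (⌈Y⌉₊ : ℝ) ≤ 2 * Y := by linarith [Nat.ceil_lt_add_one Y0.le]
  have y6 : 1 ≤ Y ^ 6 := one_le_pow₀ Y1
  have n1 : Y ^ 6 ≤ ⌈Y ^ 6⌉₊ := Nat.le_ceil _
  have n2 : (⌈Y ^ 6⌉₊ : ℝ) ≤ 2 * Y ^ 6 := by
    linarith [Nat.ceil_lt_add_one (zero_le_one.trans y6)]
  have y2 : 1 ≤ Y ^ 2 := one_le_pow₀ Y1
  obtain ⟨Λ, hΛ, H⟩ := aper S hA0 (ε := 1 / (32 * Y ^ 2)) (η := Real.exp (-(2 * Y)))
    (κ := 7 * Real.exp (-(2 * Y))) (K := Real.exp Y) (n := ⌈Y ^ 6⌉₊) (k := ⌈Y⌉₊) (j := ⌊Y ^ 8⌋₊)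
    (by
      rw [ZMod.card]
      have := mul_le_mul_of_nonneg_left hA eY.le
      rwa [← mul_assoc, mul_comm (Real.exp Y), ee, one_mul] at this)
    (by positivity) (by rw [div_le_one (by positivity)]; linarith) (Real.exp_pos _) (by positivity)
    (Nat.cast_ne_zero.1 (by linarith : (0 : ℝ) < ⌈Y ^ 6⌉₊).ne') (num1 hY n1 hι)
    (num2 hY n2 (Nat.lt_floor_add_one _))
  choose fr hfr using fun lam : AddChar (ZMod Q) ℂ => chr lam
  obtain ⟨e⟩ : Nonempty (Λ ↪ Fin ⌊Y ^ 8⌋₊) :=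
    Function.Embedding.nonempty_of_card_le (by simpa using hΛ)
  refine ⟨Function.extend e (fun l => fr l) 0, fun x hx u h B hB => ?_⟩
  have B0 : 0 ≤ B := (abs_nonneg _).trans (hB 0)
  refine (H x (fun lam hl => (hfr lam x).trans ?_) u h B hB).trans ?_
  · have := hx (e ⟨lam, hl⟩)
    rw [e.injective.extend_apply] at this
    linarith
  rw [ZMod.card]
  exact add_le_add (mul_le_mul_of_nonneg_right (num4 hY k1 k2 (Nat.floor_le (by positivity)))
    (sum_nonneg fun _ _ => abs_nonneg _)) (mul_le_mul_of_nonneg_right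
      (mul_le_mul_of_nonneg_right (num3 hY k2) B0) q0.le)

end

end Vale.Agent.P057H.Ap
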