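import Vale.Agent.P057H.Defs
import Vale.Agent.P057H.Aper
import Vale.Agent.P057Z.Km.Apb

/-! Weighted almost periodicity on the integers. -/

set_option linter.all false

open Finset
open scoped BigOperators

namespace Vale.Agent.P057H

open Vale.Agent.P057Z Vale.Agent.P057L Vale.Agent.P057Z.Km.Cs

namespace Wap

variable {Q N : ℕ} [Fact Q.Prime]

theorem inj (hQ : 8 * N ≤ Q) {s t : ℤ} (h1 : s - t < 8 * N) (h2 : t - s < 8 * N)
    (e : (s : ZMod Q) = t) : s = t := by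
  have hd := (ZMod.intCast_eq_intCast_iff_dvd_sub s t Q).1 e
  have h0 : (8 * N : ℤ) ≤ Q := by exact_mod_cast hQ
  have := Int.eq_zero_of_abs_lt_dvd hd (abs_lt.2 ⟨by omega, by omega⟩)
  omega

theorem vm (hQ : 8 * N ≤ Q) {s : ℤ} (hs : s ∈ Ico (-(N : ℤ)) (3 * N)) :
    (s : ZMod Q).valMinAbs = s := by
  have h0 : (8 * N : ℤ) ≤ Q := by exact_mod_cast hQ
  rw [mem_Ico] at hs
  exact (ZMod.valMinAbs_spec _ _).2 ⟨rfl, by omega, by omega⟩

theorem tr (hQ : 8 * N ≤ Q) (φ : ZMod Q → ℝ) :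
    ∑ x : ZMod Q, (if x.valMinAbs ∈ Ico (-(N : ℤ)) (3 * N) then φ x else 0) =
      ∑ s ∈ Ico (-(N : ℤ)) (3 * N), φ s := by
  rw [← sum_filter]
  refine sum_nbij' (fun x => x.valMinAbs) (fun s => (s : ZMod Q)) (fun x hx => (mem_filter.1 hx).2)
    (fun s hs => mem_filter.2 ⟨mem_univ _, by rwa [vm hQ hs]⟩)
    (fun x _ => ZMod.coe_valMinAbs x) (fun s hs => vm hQ hs) fun x _ => ?_
  rw [ZMod.coe_valMinAbs]

theorem ainj (hQ : 8 * N ≤ Q) {a : Finset ℤ} (ha : a ⊆ rg N) :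
    Set.InjOn (fun y : ℤ => -(y : ZMod Q)) a := fun y hy z hz e => by
  have h1 := mem_Ico.1 (ha hy)
  have h2 := mem_Ico.1 (ha hz)
  exact inj hQ (by omega) (by omega) (neg_injective e)

theorem fk (hQ : 8 * N ≤ Q) {a S : Finset ℤ} (ha : a ⊆ rg N) (hS : S ⊆ rg N) {s : ℤ}
    (h1 : -(2 * N : ℤ) ≤ s) (h2 : s ≤ 4 * N) :
    F (a.image fun y : ℤ => -(y : ZMod Q)) (S.image fun y : ℤ => (y : ZMod Q)) s = kk a S s := by
  unfold F kk
  rw [card_image_of_injOn (ainj hQ ha), sum_image (ainj hQ ha), card_filter]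
  push_cast
  congr 1
  refine sum_congr rfl fun y hy => ?_
  have k := mem_Ico.1 (ha hy)
  unfold Km.Cs.ind
  refine if_congr ⟨fun h => ?_, fun h => mem_image.2 ⟨_, h, by push_cast; ring⟩⟩ rfl rfl
  obtain ⟨z, hz, e⟩ := mem_image.1 h
  have k' := mem_Ico.1 (hS hz)
  rwa [← inj hQ (s := z) (t := s - y) (by omega) (by omega) (by rw [e]; push_cast; ring)]

theorem num {Y : ℝ} (hY : 10 ^ 9 ≤ Y) : 12 * Y * Real.exp (-(3 * Y)) * Real.exp Y ≤ 2 := by
  have h1 : Real.exp (-(3 * Y)) * Real.exp Y * Real.exp (2 * Y) = 1 := by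
    rw [← Real.exp_add, ← Real.exp_add, ← Real.exp_zero]; congr 1; ring
  have h2 := Ap.pw_exp (2 * Y) (by linarith) 2
  norm_num [Nat.factorial] at h2
  have h3 : 6 * Y ≤ Y * Y := mul_le_mul_of_nonneg_right (by linarith) (by linarith)
  have h4 : 6 * Y ≤ Real.exp (2 * Y) := by nlinarith
  have h5 : 0 < Real.exp (-(3 * Y)) * Real.exp Y := by positivity
  nlinarith

end Wap

open Wap in
theorem wap : WAP := by
  classical
  refine ⟨10 ^ 9, fun Y N Q _ hY hN h8 h16 => ?_⟩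
  replace hY : (10 : ℝ) ^ 9 ≤ Y := by exact_mod_cast hY
  have Y1 : 1 ≤ Y := by linarith
  have Y0 : 0 < Y := by linarith
  generalize hC : (10 ^ 9 : ℕ) = C at hN ⊢
  have c16 : 16 ≤ C := by rw [← hC]; norm_num
  have p1 : Y ^ 16 ≤ Y ^ C := pow_le_pow_right₀ Y1 c16
  have p2 : (3 * Y) ^ 8 ≤ Y ^ 16 := by
    rw [show Y ^ 16 = (Y * Y) ^ 8 by ring]
    exact pow_le_pow_left₀ (by linarith) (mul_le_mul_of_nonneg_right (by linarith) Y0.le) 8
  have p3 : 2 * (3 * Y) ≤ Y ^ C := by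
    have : Y ^ 2 ≤ Y ^ C := pow_le_pow_right₀ Y1 (by omega)
    nlinarith
  have N1 : 1 ≤ N := Nat.pos_of_ne_zero fun e => by
    rw [e, Nat.cast_zero, Real.log_zero] at hN
    linarith
  have n0 : (0 : ℝ) < N := by exact_mod_cast N1
  have q16 : (Q : ℝ) ≤ 16 * N := by exact_mod_cast h16
  refine ⟨⌊(3 * Y) ^ 8⌋₊, N, (Nat.floor_le (by positivity)).trans (p2.trans p1), N1, le_rfl,
    le_mul_of_one_le_right n0.le (Real.one_le_exp (by positivity)),
    fun Λ _ a S υ w hΛ ha hd hS hw => ?_⟩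
  obtain ⟨ξ, H⟩ := Ap.aperZ (Y := 3 * Y) (by linarith) (Q := Q)
    (A := a.image fun y : ℤ => -(y : ZMod Q)) (fun l => (S l).image fun y : ℤ => (y : ZMod Q)) (by
      rw [card_image_of_injOn (ainj h8 ha)]
      refine le_trans ?_ hd
      have e : Real.exp (-Y) = Real.exp (-(3 * Y)) * Real.exp (2 * Y) := by
        rw [← Real.exp_add]; congr 1; ring
      have k : 16 ≤ Real.exp (2 * Y) := by linarith [Real.add_one_le_exp (2 * Y)]
      rw [e, mul_assoc]
      exact mul_le_mul_of_nonneg_left (q16.trans (mul_le_mul_of_nonneg_right k n0.le))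
        (Real.exp_pos _).le)
    (hΛ.trans (Real.exp_le_exp.2 (by linarith)))
  refine ⟨ξ, fun t ht hξ => ?_⟩
  rw [abs_le] at ht
  have K := H (-(t : ZMod Q)) (fun i => by
      rw [mul_neg, Km.Apb.nm_neg, mul_comm]
      exact (hξ i).trans (Real.exp_le_exp.2 (by linarith)))
    (fun x => υ x.valMinAbs)
    (fun x => if x.valMinAbs ∈ Ico (-(N : ℤ)) (3 * N) then w x.valMinAbs else 0) (Real.exp Y)
    (fun x => by
      split_ifs
      · rw [abs_of_nonneg (zero_le_one.trans (hw _).1)]; exact (hw _).2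
      · rw [abs_zero]; exact (Real.exp_pos _).le)
  have e1 : ∀ t : ℤ, -(N : ℤ) ≤ t → t ≤ N →
      Ap.phi (a.image fun y : ℤ => -(y : ZMod Q)) (fun l => (S l).image fun y : ℤ => (y : ZMod Q))
        (fun x => υ x.valMinAbs)
        (fun x => if x.valMinAbs ∈ Ico (-(N : ℤ)) (3 * N) then w x.valMinAbs else 0)
        (-(t : ZMod Q)) = ∑ s ∈ Ico (-(N : ℤ)) (3 * N), w s * kk a (S (υ s)) (s - t) := by
    intro t h1 h2
    unfold Ap.phi
    simp only [ite_mul, zero_mul]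
    rw [tr h8]
    refine sum_congr rfl fun s hs => ?_
    rw [vm h8 hs]
    have k := mem_Ico.1 hs
    rw [← fk h8 ha (hS _) (s := s - t) (by omega) (by omega), Int.cast_sub, sub_eq_add_neg]
  have e2 := e1 0 (by omega) (by omega)
  rw [Int.cast_zero, neg_zero] at e2
  have e3 : ∑ x : ZMod Q, |if x.valMinAbs ∈ Ico (-(N : ℤ)) (3 * N) then w x.valMinAbs else 0| =
      ∑ s ∈ Ico (-(N : ℤ)) (3 * N), w s := by
    simp only [apply_ite abs, abs_zero]
    rw [tr h8]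
    exact sum_congr rfl fun s hs => by
      rw [vm h8 hs, abs_of_nonneg (zero_le_one.trans (hw _).1)]
  rw [e1 t ht.1 ht.2, e2, e3, ← sum_sub_distrib] at K
  simp only [sub_zero, ← mul_sub] at K
  refine K.trans ?_
  have s1 : 4 * (N : ℝ) ≤ ∑ s ∈ Ico (-(N : ℤ)) (3 * N), w s := by
    have := card_nsmul_le_sum (Ico (-(N : ℤ)) (3 * N)) w 1 fun s _ => (hw s).1
    rw [Int.card_Ico, nsmul_eq_mul, mul_one, show (3 * N - -N : ℤ) = (4 * N : ℕ) by push_cast; ring,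
      Int.toNat_natCast] at this
    exact_mod_cast this
  generalize ∑ s ∈ Ico (-(N : ℤ)) (3 * N), w s = W at s1 ⊢
  have k := num hY
  rw [mul_assoc (12 * Y)] at k
  have k0 : 0 < Real.exp (-(3 * Y)) * Real.exp Y := by positivity
  generalize Real.exp (-(3 * Y)) * Real.exp Y = e at k0 k ⊢
  have k1 : e * Q ≤ e * (4 * W) := mul_le_mul_of_nonneg_left (by linarith) k0.le
  have k2 := mul_le_mul_of_nonneg_right k (by linarith : 0 ≤ W)
  rw [le_div_iff₀ Y0]
  have k3 : (1 / (3 * Y) * W + e * Q) * Y = W / 3 + e * Q * Y := by field_simp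
  have k4 := mul_le_mul_of_nonneg_right k1 Y0.le
  rw [k3]
  linarith

end Vale.Agent.P057H
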