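import Vale.Agent.P057H.Defs
import Vale.Agent.P057L.Win

/-! Row WND: from an excess on the cyclic group to a state on a box of integers. -/

set_option linter.all false

open Finset
open scoped BigOperators Classical

namespace Vale.Agent.P057H

open Vale.Agent.P057L

namespace H77

theorem rg_ne {N : ℕ} (h : 1 ≤ N) : (rg N).Nonempty :=
  ⟨0, mem_Ico.2 ⟨le_rfl, by exact_mod_cast h⟩⟩

theorem bp_ne {j L : ℕ} (h : 1 ≤ L) : (bp j 1 L).Nonempty :=
  Fintype.piFinset_nonempty.2 fun _ => Fintype.piFinset_nonempty.2 fun _ => rg_ne h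

theorem card_bp (j L : ℕ) : (bp j 1 L).card = L ^ j := by
  simp [bp, bz, rg]

/-- averaging over translates of a family of shifts -/
theorem shift {G T : Type} [AddCommGroup G] [Fintype G] (s : Finset T) (hs : s.Nonempty)
    (e : T → G) (Φ : G → ℝ) : ∃ x : G, 𝔼 x, Φ x ≤ 𝔼 t ∈ s, Φ (x + e t) := by
  have h : 𝔼 x, Φ x = 𝔼 x : G, 𝔼 t ∈ s, Φ (x + e t) := by
    rw [expect_comm]
    rw [expect_congr rfl fun t _ => Fintype.expect_equiv (Equiv.addRight (e t))
      (fun x => Φ (x + e t)) Φ fun _ => rfl, expect_const hs]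
  obtain ⟨x, -, hx⟩ := exists_le_of_le_expect (s := univ) univ_nonempty h.le
  exact ⟨x, hx⟩

/-- a lift of a window -/
theorem lift {M M0 K : ℕ} [NeZero M] (f : ℤ → ℝ) (x0 : ℤ) (hf : ∀ x, 0 ≤ f x) (hM : M0 + K ≤ M)
    (s : ZMod M) : ∃ x1 : ℤ, ∀ t : ℤ, 0 ≤ t → t < K → per f x0 M0 M (s + t) ≤ f (x1 + t) := by
  have v : ∀ n : ℤ, 0 ≤ n → n < M → (((n : ZMod M).val : ℕ) : ℤ) = n := fun n a b => by
    rw [ZMod.val_intCast, Int.emod_eq_of_lt a b]
  have k1 : ∀ n : ℤ, 0 ≤ n → n < M → per f x0 M0 M (n : ZMod M) ≤ f (x0 + n) := fun n a b => by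
    rw [per]
    split_ifs
    · rw [v n a b]
    · exact hf _
  have hs := ZMod.val_lt s
  rcases lt_or_ge s.val M0 with h | h
  · refine ⟨x0 + s.val, fun t a b => ?_⟩
    have := k1 (s.val + t) (by omega) (by omega)
    rw [add_assoc]
    simpa using this
  · refine ⟨x0 + (s.val - M), fun t a b => ?_⟩
    rcases le_or_gt 0 ((s.val : ℤ) - M + t) with c | c
    · have := k1 (s.val - M + t) c (by omega)
      rw [add_assoc]
      simpa using this
    · have e : s + t = ((s.val + t : ℤ) : ZMod M) := by simp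
      have := v (s.val + t) (by omega) (by omega)
      rw [e, per, if_neg (by omega)]
      exact hf _

/-- popular points with a popular label -/
theorem pop {X α : Type} [Fintype α] [Nonempty α] (s : Finset X) (hs : s.Nonempty) (a : X → α)
    (w : X → ℝ) {ε B : ℝ} (hε : 0 ≤ ε) (hB : 0 < B) (hw : ∀ x ∈ s, w x ≤ B)
    (h : ε ≤ 𝔼 x ∈ s, w x) :
    ∃ (a0 : α) (t : Finset X), t ⊆ s ∧ ε / (2 * B * Fintype.card α) * s.card ≤ t.card ∧
      ∀ x ∈ t, a x = a0 ∧ ε / 2 ≤ w x := by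
  set Ω := s.filter fun x => ε / 2 ≤ w x with hΩ
  have c0 : (0 : ℝ) < s.card := by exact_mod_cast hs.card_pos
  have a0 : (0 : ℝ) < Fintype.card α := by exact_mod_cast Fintype.card_pos
  have s1 : ∑ x ∈ s, w x ≤ Ω.card * B + s.card * (ε / 2) := by
    rw [← nsmul_eq_mul, ← nsmul_eq_mul, ← sum_const, ← sum_const, hΩ, sum_filter,
      ← sum_add_distrib]
    refine sum_le_sum fun x hx => ?_
    split_ifs with k
    · linarith [hw x hx]
    · linarith [not_le.1 k]
  rw [expect_eq_sum_div_card, le_div_iff₀ c0] at h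
  obtain ⟨d, -, hd⟩ := exists_le_card_fiber_of_nsmul_le_card_of_maps_to (s := Ω) (f := a)
    (t := univ) (b := (Ω.card : ℝ) / Fintype.card α) (fun W _ => mem_univ _) univ_nonempty
    (by rw [nsmul_eq_mul, card_univ, mul_div_cancel₀ _ a0.ne'])
  refine ⟨d, _, (filter_subset _ _).trans (filter_subset _ _), le_trans ?_ hd, fun x hx =>
    ⟨(mem_filter.1 hx).2, (mem_filter.1 (mem_filter.1 hx).1).2⟩⟩
  rw [div_mul_eq_mul_div, div_le_div_iff₀ (by positivity) a0]
  nlinarith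

end H77

open H77 in
/-- **row WND** -/
theorem H77.wnd : WND := by
  intro j M M0 L n _ f x0 lam lam' δ m hL hM hf hl hl' hm pm hδ hn ⟨A, B, Υ, F, tc, h⟩
  have m0 : 0 < m := by linarith
  have δ0 : 0 < δ := by nlinarith
  have hs : (bp j 1 L ×ˢ rg L).Nonempty := (bp_ne hL).product (rg_ne hL)
  obtain ⟨⟨W0, y0, v0⟩, hx⟩ := shift (G := Oc j M) ((bp j 1 L ×ˢ rg L) ×ˢ rg L)
    (hs.product (rg_ne hL))
    (fun t => (fun i => (t.1.1 i 0 : ZMod M), (t.1.2 : ZMod M), (t.2 : ZMod M)))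
    (fun ω => if F (A ω.1 ω.2.1) (B ω.1 ω.2.2) (fun S => Υ S (sc S ω)) then
      per f x0 M0 M (sc univ ω) - lam else 0)
  rw [expect_product] at hx
  obtain ⟨x1, hx1⟩ := lift f x0 hf hM (∑ i, W0 i + y0 + v0)
  let b' : Pt j 1 → ℤ → Fin n → Bool := fun W v => B (W0 + fun i => (W i 0 : ZMod M)) (v0 + v)
  let u' : Finset (Fin j) → ℤ → Fin n → Bool := fun S s => Υ S (∑ i ∈ S, W0 i + y0 + v0 + s)
  let a' : Pt j 1 × ℤ → Fin n → Bool := fun p => A (W0 + fun i => (p.1 i 0 : ZMod M)) (y0 + p.2)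
  let w : Pt j 1 × ℤ → ℝ := fun p => 𝔼 v ∈ rg L,
    if F (a' p) (b' p.1 v) (lb u' p.1 (p.2 + v)) then
      f (x1 + ss univ p.1 + p.2 + v) - lam else 0
  have e : ∀ (S : Finset (Fin j)) (W : Pt j 1) (y v : ℤ),
      sc S (W0 + fun i => (W i 0 : ZMod M), y0 + y, v0 + v) =
        ∑ i ∈ S, W0 i + y0 + v0 + ((ss S W + (y + v) : ℤ) : ZMod M) := fun S W y v => by
    simp only [sc, ss, Pi.add_apply, sum_add_distrib]
    push_cast
    ring
  have hw : δ ≤ 𝔼 p ∈ bp j 1 L ×ˢ rg L, w p := by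
    refine (h.trans hx).trans (expect_le_expect fun p hp => expect_le_expect fun v hv => ?_)
    obtain ⟨p1, p2⟩ := mem_product.1 hp
    have q1 := fun i => mem_Ico.1 (Fintype.mem_piFinset.1 (Fintype.mem_piFinset.1 p1 i) 0)
    have q2 := mem_Ico.1 p2
    have q3 := mem_Ico.1 hv
    have q4 : 0 ≤ ss univ p.1 := sum_nonneg fun i _ => (q1 i).1
    have q5 : ss univ p.1 ≤ j * L := by
      refine (sum_le_card_nsmul _ _ (L : ℤ) fun i _ => (q1 i).2.le).trans_eq ?_
      simp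
    simp only [Prod.mk_add_mk, e]
    refine le_of_le_of_eq (b := if F (a' p) (b' p.1 v) (lb u' p.1 (p.2 + v)) then
      f (x1 + (ss univ p.1 + (p.2 + v))) - lam else 0) ?_ (by simp only [add_assoc])
    change (if F (a' p) (b' p.1 v) (lb u' p.1 (p.2 + v)) then _ else _) ≤ _
    split_ifs
    · exact sub_le_sub_right (hx1 _ (by omega) (by push_cast; nlinarith)) _
    · exact le_rfl
  obtain ⟨a0, t, ht, ha, hp'⟩ := pop (bp j 1 L ×ˢ rg L) hs a' w δ0.le (by linarith : 0 < lam') (fun p _ => by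
    refine le_trans (expect_le_expect fun v _ => ?_) (pm (x1 + ss univ p.1 + p.2))
    split_ifs
    · linarith
    · exact hf _) hw
  have c : (Fintype.card (Fin n → Bool) : ℝ) = 2 ^ n := by simp
  have c1 : (2 : ℝ) ^ n ≤ Real.exp m := by
    refine le_trans ?_ hn
    rw [mul_assoc]
    exact le_mul_of_one_le_right (by positivity) (one_le_mul_of_one_le_of_one_le hm hl')
  refine ⟨x1, _, _, inferInstance, inferInstance, t, b', u', F a0, c.trans_le c1, c.trans_le c1,
    fun x x' => tc _ _, ht, le_trans ?_ ha, fun p hp => ?_⟩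
  · rw [card_product, card_bp, Win.c1, c]
    push_cast
    rw [← pow_succ]
    refine mul_le_mul_of_nonneg_right ?_ (by positivity)
    rw [Real.exp_neg, le_div_iff₀ (by positivity), inv_mul_le_iff₀ (Real.exp_pos _)]
    refine le_of_mul_le_mul_right ?_ m0
    have := mul_le_mul hn hδ (by norm_num) (Real.exp_pos _).le
    nlinarith
  · obtain ⟨k1, k2⟩ := hp' p hp
    rw [← k1]
    refine le_trans ?_ k2
    rw [div_le_div_iff₀ m0 (by norm_num)]
    linarith

end Vale.Agent.P057H
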