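import Vale.Agent.P057H.AmG

/-! Rounding of faces and averaging over the fibres of the sum. -/

set_option linter.all false

open Finset
open scoped BigOperators

namespace Vale.Agent.P057H.ZhG

/-- the sign of a bit -/
def sg (b : Bool) : ℝ := if b then 1 else -1

theorem abs_sg (b : Bool) : |sg b| = 1 := by cases b <;> simp [sg]

theorem rnd1 {X D : Type} [Fintype X] (φ : X → ℝ) (π : X → D) (a : D → ℝ) (ha : ∀ d, |a d| ≤ 1) :
    ∃ s : D → Bool, |𝔼 x, φ x * a (π x)| ≤ |𝔼 x, φ x * sg (s (π x))| := by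
  classical
  let c : D → ℝ := fun d => ∑ x with π x = d, φ x
  have e : ∀ u : D → ℝ, ∑ x, φ x * u (π x) = ∑ d ∈ univ.image π, c d * u d := fun u => by
    rw [← sum_fiberwise_of_maps_to (g := π) (t := univ.image π)
      fun x hx => mem_image_of_mem π hx]
    refine sum_congr rfl fun d _ => ?_
    rw [sum_mul]
    exact sum_congr rfl fun x hx => by rw [(mem_filter.1 hx).2]
  refine ⟨fun d => decide (0 ≤ c d), ?_⟩
  rw [expect_eq_sum_div_card, expect_eq_sum_div_card, abs_div, abs_div, e,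
    e fun d => sg (decide (0 ≤ c d))]
  refine div_le_div_of_nonneg_right ((abs_sum_le_sum_abs _ _).trans
    ((sum_le_sum fun d _ => ?_).trans (le_abs_self _))) (abs_nonneg _)
  rw [abs_mul]
  refine (mul_le_of_le_one_right (abs_nonneg _) (ha d)).trans (le_of_eq ?_)
  by_cases h : 0 ≤ c d
  · simp [sg, h, abs_of_nonneg h]
  · simp [sg, h, abs_of_neg (not_le.1 h)]

/-- faces with values in `[-1, 1]` are dominated by faces with values `± 1` -/
theorem rnd {X τ D : Type} [Fintype X] [DecidableEq τ] (π : τ → X → D) (a : τ → D → ℝ)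
    (ha : ∀ t d, |a t d| ≤ 1) (T : Finset τ) : ∀ φ : X → ℝ, ∃ s : τ → D → Bool,
      |𝔼 x, φ x * ∏ t ∈ T, a t (π t x)| ≤ |𝔼 x, φ x * ∏ t ∈ T, sg (s t (π t x))| := by
  induction T using Finset.induction_on with
  | empty => exact fun φ => ⟨fun _ _ => true, by simp⟩
  | insert t T ht ih =>
    intro φ
    obtain ⟨s, hs⟩ := ih fun x => φ x * a t (π t x)
    obtain ⟨s0, h0⟩ := rnd1 (fun x => φ x * ∏ t ∈ T, sg (s t (π t x))) (π t) (a t) (ha t)
    refine ⟨Function.update s t s0, ?_⟩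
    simp only [prod_insert ht, Function.update_self, ← mul_assoc]
    refine hs.trans ((le_of_eq ?_).trans (h0.trans (le_of_eq ?_)))
    · simp only [mul_right_comm]
    · refine congrArg _ (expect_congr rfl fun x _ => ?_)
      rw [mul_right_comm]
      refine congrArg _ (prod_congr rfl fun u hu => ?_)
      rw [Function.update_of_ne fun e : u = t => ht (e ▸ hu)]

variable {G : Type} [AddCommGroup G] [Fintype G] {j : ℕ}

/-- the space of the variables -/
abbrev Xs (G : Type) (j : ℕ) : Type := (Fin j → G) × G × G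

/-- the full sum -/
def tot (x : Xs G j) : G := ∑ i, x.1 i + x.2.1 + x.2.2

/-- a test -/
def tst (a b : (Fin j → G) → G → ℝ) (H : Finset (Fin j) → G → ℝ) (x : Xs G j) : ℝ :=
  a x.1 x.2.1 * b x.1 x.2.2 * ∏ S ∈ univ.erase univ, H S (∑ i ∈ S, x.1 i + x.2.1 + x.2.2)

theorem nest (Φ : Xs G j → ℝ) : 𝔼 x, Φ x = 𝔼 W, 𝔼 y, 𝔼 v, Φ (W, y, v) := by
  rw [← univ_product_univ, expect_product]
  refine expect_congr rfl fun W _ => ?_
  rw [← univ_product_univ, expect_product]

theorem rndT (φ : Xs G j → ℝ) {δ : ℝ}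
    (h : ∀ (a b : (Fin j → G) → G → Bool) (H : Finset (Fin j) → G → Bool),
      |𝔼 x, φ x * tst (fun W y => sg (a W y)) (fun W v => sg (b W v)) (fun S s => sg (H S s)) x| ≤ δ)
    (a b : (Fin j → G) → G → ℝ) (H : Finset (Fin j) → G → ℝ) (ha : ∀ W y, |a W y| ≤ 1)
    (hb : ∀ W v, |b W v| ≤ 1) (hH : ∀ S s, |H S s| ≤ 1) : |𝔼 x, φ x * tst a b H x| ≤ δ := by
  classical
  obtain ⟨s3, h3⟩ := rnd (fun (S : Finset (Fin j)) (x : Xs G j) => ∑ i ∈ S, x.1 i + x.2.1 + x.2.2)
    H hH (univ.erase univ) fun x => φ x * (a x.1 x.2.1 * b x.1 x.2.2)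
  obtain ⟨s2, h2⟩ := rnd1 (fun x : Xs G j => φ x * a x.1 x.2.1 *
    ∏ S ∈ univ.erase univ, sg (s3 S (∑ i ∈ S, x.1 i + x.2.1 + x.2.2))) (fun x => (x.1, x.2.2))
    (fun p => b p.1 p.2) fun p => hb _ _
  obtain ⟨s1, h1⟩ := rnd1 (fun x : Xs G j => φ x * sg (s2 (x.1, x.2.2)) *
    ∏ S ∈ univ.erase univ, sg (s3 S (∑ i ∈ S, x.1 i + x.2.1 + x.2.2))) (fun x => (x.1, x.2.1))
    (fun p => a p.1 p.2) fun p => ha _ _
  have e : ∀ {u v : Xs G j → ℝ}, (∀ x, u x = v x) → |𝔼 x, u x| ≤ |𝔼 x, v x| :=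
    fun h => le_of_eq (congrArg _ (expect_congr rfl fun x _ => h x))
  refine (e fun x => ?_).trans (h3.trans ((e fun x => ?_).trans (h2.trans ((e fun x => ?_).trans
    (h1.trans ((e fun x => ?_).trans (h (fun W y => s1 (W, y)) (fun W v => s2 (W, v)) s3)))))))
  all_goals simp only [tst]; ring

/-- a shift with sum zero -/
def sh (p : (Fin j → G) × G) : Xs G j := (p.1, p.2, -(∑ i, p.1 i + p.2))

theorem tot_add (x z : Xs G j) : tot (x + z) = tot x + tot z := by
  simp only [tot, Prod.fst_add, Prod.snd_add, Pi.add_apply, sum_add_distrib]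
  abel

theorem tot_sh (p : (Fin j → G) × G) : tot (sh p) = 0 := by simp [tot, sh]

theorem sh_add (p q : (Fin j → G) × G) : sh (p + q) = sh p + sh q := by
  simp only [sh, Prod.fst_add, Prod.snd_add, Pi.add_apply, sum_add_distrib, Prod.mk_add_mk]
  congr 2
  abel

theorem ex_add {A : Type} [AddCommGroup A] [Fintype A] (Φ : A → ℝ) (z : A) :
    𝔼 x, Φ (x + z) = 𝔼 x, Φ x :=
  Fintype.expect_equiv (Equiv.addRight z) _ _ fun _ => rfl

theorem ex_tot (f : G → ℝ) : 𝔼 x : Xs G j, f (tot x) = 𝔼 s, f s := by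
  rw [nest]
  have e : ∀ (W : Fin j → G) (y : G), 𝔼 v, f (tot (W, y, v)) = 𝔼 s, f s := fun W y => by
    rw [← ex_add f (∑ i, W i + y)]
    exact expect_congr rfl fun v _ => congrArg f (add_comm _ _)
  simp only [e, Fintype.expect_const]

/-- **averaging over the fibres of the sum** -/
theorem zh0 (f : G → ℝ) (u : Xs G j → ℝ) {Λ δ : ℝ} (hu : ∀ x, 0 ≤ u x ∧ u x ≤ Λ)
    (h : ∀ (a b : (Fin j → G) → G → Bool) (H : Finset (Fin j) → G → Bool),
      |𝔼 x, (f (tot x) - u x) *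
        tst (fun W y => sg (a W y)) (fun W v => sg (b W v)) (fun S s => sg (H S s)) x| ≤ δ) :
    ∃ g : G → ℝ, (∀ s, 0 ≤ g s ∧ g s ≤ Λ) ∧ 𝔼 s, g s = 𝔼 x, u x ∧
      ∀ (a b : (Fin j → G) → G → ℝ) (H : Finset (Fin j) → G → ℝ), (∀ W y, |a W y| ≤ 1) →
        (∀ W v, |b W v| ≤ 1) → (∀ S s, |H S s| ≤ 1) →
        |𝔼 x, (f (tot x) - g (tot x)) * tst a b H x| ≤ δ := by
  let g : G → ℝ := fun s => 𝔼 p, u (sh p + (0, 0, s))
  have hg : ∀ x, g (tot x) = 𝔼 p, u (x + sh p) := fun x => by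
    refine (ex_add (fun p => u (sh p + (0, 0, tot x))) (x.1, x.2.1)).symm.trans
      (expect_congr rfl fun p _ => congrArg u ?_)
    rw [sh_add, add_assoc, add_comm x]
    congr 1
    obtain ⟨W, y, v⟩ := x
    simp only [sh, tot, Prod.mk_add_mk, add_zero]
    congr 2
    abel
  refine ⟨g, fun s => ⟨expect_nonneg fun p _ => (hu _).1,
    expect_le univ_nonempty fun p _ => (hu _).2⟩, ?_, fun a b H ha hb hH => ?_⟩
  · rw [← ex_tot (j := j) g]
    simp only [hg]
    rw [expect_comm]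
    simp only [ex_add u, Fintype.expect_const]
  · have e : ∀ x, (f (tot x) - g (tot x)) * tst a b H x =
        𝔼 p, (f (tot (x + sh p)) - u (x + sh p)) * tst a b H (x + sh p - sh p) := fun x => by
      simp only [tot_add, tot_sh, add_zero, add_sub_cancel_right]
      rw [← expect_mul, expect_sub_distrib, Fintype.expect_const, hg]
    simp only [e]
    rw [expect_comm]
    refine (abs_expect_le _ _).trans (expect_le univ_nonempty fun p _ => ?_)
    rw [ex_add (fun x => (f (tot x) - u x) * tst a b H (x - sh p)) (sh p)]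
    refine le_trans (le_of_eq (congrArg _ (expect_congr rfl fun x _ => ?_))) (rndT _ h
      (fun W y => a (W - p.1) (y - p.2)) (fun W v => b (W - p.1) (v - (sh p).2.2))
      (fun S s => H S (s - (∑ i ∈ S, p.1 i + p.2 + (sh p).2.2))) (fun _ _ => ha _ _)
      (fun _ _ => hb _ _) fun _ _ => hH _ _)
    simp only [tst]
    refine congrArg _ (congrArg _ (prod_congr rfl fun S _ => congrArg _ ?_))
    simp only [Prod.fst_sub, Prod.snd_sub, Pi.sub_apply, sum_sub_distrib, sh]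
    abel

open Classical in
/-- **the cyclic model**: labels are words of length `n` in two letters -/
theorem zh (f : G → ℝ) (hf : ∀ s, 0 ≤ f s) {B Λ ε : ℝ} (hB : 𝔼 s, f s ≤ B) (hΛ : 0 ≤ Λ)
    (hε : 0 ≤ ε) (N : ℕ) (hN : 2 * Λ * B < N * ε ^ 2)
    (h : ∀ n ≤ N, ∀ (A Bl : (Fin j → G) → G → Fin n → Bool)
      (U : Finset (Fin j) → G → Fin n → Bool)
      (F : (Fin n → Bool) → (Fin n → Bool) → (Finset (Fin j) → Fin n → Bool) → Prop),
      (∀ s, U univ s = fun _ => true) →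
      𝔼 W, 𝔼 y, 𝔼 v, (if F (A W y) (Bl W v) (fun S => U S (∑ i ∈ S, W i + y + v)) then
        f (∑ i, W i + y + v) - Λ else 0) ≤ ε) :
    ∃ g : G → ℝ, (∀ s, 0 ≤ g s ∧ g s ≤ Λ) ∧ 𝔼 s, g s ≤ 𝔼 s, f s ∧
      ∀ (a b : (Fin j → G) → G → ℝ) (H : Finset (Fin j) → G → ℝ), (∀ W y, |a W y| ≤ 1) →
        (∀ W v, |b W v| ≤ 1) → (∀ S s, |H S s| ≤ 1) →
        |𝔼 W, 𝔼 y, 𝔼 v, (f (∑ i, W i + y + v) - g (∑ i, W i + y + v)) *
          (a W y * b W v * ∏ S ∈ univ.erase univ, H S (∑ i ∈ S, W i + y + v))| ≤ 2 * ε := by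
  let lb : ((Fin j → G) → G → Bool) → ((Fin j → G) → G → Bool) → (Finset (Fin j) → G → Bool) →
      Xs G j → Bool × Bool × (Finset (Fin j) → Bool) := fun a b H x =>
    (a x.1 x.2.1, b x.1 x.2.2, fun S => if S = univ then true else
      H S (∑ i ∈ S, x.1 i + x.2.1 + x.2.2))
  obtain ⟨u, h1, h2, h3⟩ := AmG.am (f := fun x : Xs G j => f (tot x)) (fun x => hf _)
    ((ex_tot f).trans_le hB) {l | ∃ a b H, l = lb a b H} hΛ hε N hN (fun n hn ls hl F => by
      choose a b H e using hl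
      have := h n hn (fun W y t => a t W y) (fun W v t => b t W v)
        (fun S s t => if S = univ then true else H t S s)
        (fun p q r => F fun t => (p t, q t, fun S => r S t)) fun s => by simp
      rw [nest]
      simp only [e]
      exact this)
  obtain ⟨g, k1, k2, k3⟩ := zh0 f u h1 (δ := 2 * ε) fun a b H => by
    refine le_trans (le_of_eq (congrArg _ (expect_congr rfl fun x _ => congrArg _ ?_)))
      (h3 _ ⟨a, b, H, rfl⟩ (fun c => sg c.1 * sg c.2.1 * ∏ S ∈ univ.erase univ, sg (c.2.2 S))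
        fun c => by simp [abs_mul, abs_prod, abs_sg])
    exact congrArg _ (prod_congr rfl fun S hS => by simp only [lb, if_neg (ne_of_mem_erase hS)])
  refine ⟨g, k1, k2.trans_le (h2.trans_eq (ex_tot f)), fun a b H ha hb hH => ?_⟩
  have := k3 a b H ha hb hH
  rwa [nest] at this

end Vale.Agent.P057H.ZhG
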