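import Vale.Agent.P057H.Defs
import Vale.Agent.P057H.ZhG

/-! Row ZH: the cyclic model. -/

set_option linter.all false

open Finset
open scoped BigOperators Classical

namespace Vale.Agent.P057H

theorem zh : ZH := by
  intro j M _ f lam η ε δ E n hf hE l0 η0 η1 ε0 hn hδ hV
  have E0 : 0 ≤ E := (expect_nonneg fun x _ => hf x).trans hE
  obtain ⟨g, h1, -, h3⟩ := ZhG.zh (j := j) f hf hE l0.le (ε := ε / 2) (by linarith) n
    (by nlinarith [mul_nonneg l0.le E0]) fun k hk A B U F hU => by
      by_contra hc
      let pad : (Fin k → Bool) → Fin n → Bool := fun w t => if h : t.1 < k then w ⟨t, h⟩ else true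
      let cut : (Fin n → Bool) → Fin k → Bool := fun w t => w (t.castLE hk)
      have e : ∀ w, cut (pad w) = w := fun w => funext fun t => dif_pos t.2
      refine hV ⟨fun W y => pad (A W y), fun W v => pad (B W v), fun S s => pad (U S s),
        fun p q r => F (cut p) (cut q) fun S => cut (r S), fun x x' => congrArg pad ((hU x).trans (hU x').symm), ?_⟩
      rw [ZhG.nest]
      simp only [e]
      exact le_trans (by nlinarith) (not_le.1 hc).le
  refine ⟨g, fun x => ⟨(h1 x).1, (h1 x).2.trans (by nlinarith)⟩, fun a b H ha hb hH => ?_⟩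
  rw [ZhG.nest]
  refine le_trans (le_of_eq (congrArg _ ?_)) ((h3 a b H ha hb hH).trans (by linarith))
  exact expect_congr rfl fun W _ => expect_congr rfl fun y _ => expect_congr rfl fun v _ =>
    mul_comm _ _

end Vale.Agent.P057H
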