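import Vale.Agent.P057L.Bas
import Vale.Agent.P057L.Bogz
import Vale.Agent.P057L.Box3
import Vale.Agent.P057L.Ch
import Vale.Agent.P057L.Covr
import Vale.Agent.P057L.Crq
import Vale.Agent.P057L.Cs2
import Vale.Agent.P057L.Drp1
import Vale.Agent.P057L.Exd
import Vale.Agent.P057L.Exg
import Vale.Agent.P057L.Fact
import Vale.Agent.P057L.Idx
import Vale.Agent.P057L.Ker
import Vale.Agent.P057L.Kha
import Vale.Agent.P057L.Khb
import Vale.Agent.P057L.Pet
import Vale.Agent.P057L.Pet2
import Vale.Agent.P057L.Poor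
import Vale.Agent.P057L.Prune
import Vale.Agent.P057L.Sch
import Vale.Agent.P057L.Slc
import Vale.Agent.P057L.Step
import Vale.Agent.P057L.Stz
import Vale.Agent.P057L.Van
import Vale.Agent.P057L.Ven
import Vale.Agent.P057L.Weyl
import Vale.Agent.P057L.Win
import Vale.Agent.P057H.Ms
import Vale.Agent.P057H.Wap
import Vale.Agent.P057H.SmaH28
import Vale.Agent.P057H.Smb
import Vale.Agent.P057H.Gfh
import Vale.Agent.P057H.Unif
import Vale.Agent.P057H.DrophH56
import Vale.Agent.P057H.Csth
import Vale.Agent.P057H.StephH66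
import Vale.Agent.P057H.Downh
import Vale.Agent.P057H.Zh
import Vale.Agent.P057H.WndH77
import Vale.Agent.P057H.Moi
import Vale.Agent.P057H.TelH17
import Vale.Agent.P057H.BaseH69
import Vale.Agent.P057H.Triv
import Vale.Agent.P057H.CntH82
import Vale.Agent.P057H.TopH75
import Vale.Agent.P057H.Fin

/-! Assembly of all rows: the polylogarithmic bound. -/

namespace Vale.Agent.P057H.All

open Vale.Agent.P057L

theorem seq1 : SEQ := seq (exd exg)

theorem pet3 : PET :=
  pet (poor bas) (pet1 bas bogz (extb (exta stz idx))) (pet2 van (covr ker crq)) (fact crq) cs2 seq1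

theorem kh1 : ∀ j m, 1 ≤ m → KH j m :=
  khall (kh0 (sch ker weyl)) (kha bas win pet3 lin) (khb bas win (slc bas prune))

theorem steph1 : STEPH :=
  H66.steph (H28.sma wap) smb gfh unif (H56.droph (drp1 box3) (cov (P057L.ch exg)))
    (vec (ven (hyb_of prune)) seq1) (fun j => kh1 j 1 le_rfl) (csth bas win)

theorem final : P057H.RESULT :=
  result_of (H75.inch ms (Moi.moi zh H77.wnd) (H82.cnt zh H77.wnd H17.tel H69.base triv)
    (downh ms steph1))

end Vale.Agent.P057H.All
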