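import Mathlib

/-! Varnavides averaging in `ZMod M`, from a Szemeredi type statement. -/

namespace Vale.Agent.P057H.Varn

open Finset

noncomputable section

/-- Szemeredi type statement at density `δ`. -/
def Sz (k : ℕ) (δ : ℝ) : Prop :=
  ∃ L : ℕ, 0 < L ∧ ∀ I : Finset ℕ, I ⊆ range L → δ * L ≤ (I.card : ℝ) →
    ∃ a s : ℕ, 0 < s ∧ ∀ i : ℕ, i < k → a + i * s ∈ I

theorem bij (M : ℕ) [Fact M.Prime] (a s : ZMod M) (hs : s ≠ 0) (F : ZMod M → ZMod M → ℝ) :
    ∑ x : ZMod M, ∑ d : ZMod M, F (x + a * d) (s * d) = ∑ x : ZMod M, ∑ d : ZMod M, F x d := by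
  rw [Finset.sum_comm]
  have h1 : ∀ d : ZMod M, ∑ x : ZMod M, F (x + a * d) (s * d) = ∑ x : ZMod M, F x (s * d) :=
    fun d => Equiv.sum_comp (Equiv.addRight (a * d)) (fun x => F x (s * d))
  simp_rw [h1]
  rw [Finset.sum_comm]
  refine Finset.sum_congr rfl fun x _ => ?_
  exact Equiv.sum_comp (Equiv.mulLeft₀ s hs) (fun d => F x d)

theorem core (k : ℕ) (hk : 2 ≤ k) (β : ℝ) (hβ : 0 < β) (h : Sz k (β / 2)) :
    ∃ c : ℝ, 0 < c ∧ ∃ M₀ : ℕ, ∀ (M : ℕ) [Fact M.Prime], M₀ ≤ M → ∀ B : Finset (ZMod M),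
      β * M ≤ (B.card : ℝ) →
      c * (M : ℝ) ^ 2 ≤ ∑ x : ZMod M, ∑ d : ZMod M,
        ∏ i ∈ range k, (if x + (i : ZMod M) * d ∈ B then (1 : ℝ) else 0) := by
  classical
  obtain ⟨L, hL, hS⟩ := h
  have hLr : (0 : ℝ) < L := by exact_mod_cast hL
  refine ⟨β / 2 / (L : ℝ) ^ 2, by positivity, L, fun M _ hM B hB => ?_⟩
  have hMp : M.Prime := Fact.out
  have hMr : (0 : ℝ) < M := by exact_mod_cast hMp.pos
  set u : ZMod M → ℝ := fun x => if x ∈ B then 1 else 0 with hu
  have hu0 : ∀ x, 0 ≤ u x := fun x => by simp only [hu]; split_ifs <;> norm_num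
  set Λ : ZMod M → ZMod M → ℝ := fun x d => ∏ i ∈ range k, u (x + (i : ZMod M) * d) with hΛ
  have hΛ0 : ∀ x d, 0 ≤ Λ x d := fun x d => Finset.prod_nonneg fun i _ => hu0 _
  have hsu : ∑ x, u x = (B.card : ℝ) := by
    simp only [hu]
    rw [Finset.sum_boole]
    simp
  have key : ∀ x d : ZMod M, ∑ t ∈ range L, u (x + (t : ZMod M) * d) ≤
      β / 2 * L + L * ∑ a ∈ range L, ∑ s ∈ Ico 1 L, Λ (x + (a : ZMod M) * d) ((s : ZMod M) * d) := by
    intro x d
    have hnn : 0 ≤ ∑ a ∈ range L, ∑ s ∈ Ico 1 L, Λ (x + (a : ZMod M) * d) ((s : ZMod M) * d) :=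
      Finset.sum_nonneg fun a _ => Finset.sum_nonneg fun s _ => hΛ0 _ _
    have hc : ∑ t ∈ range L, u (x + (t : ZMod M) * d) =
        (((range L).filter fun t : ℕ => x + (t : ZMod M) * d ∈ B).card : ℝ) := by
      simp only [hu]
      rw [Finset.sum_boole]
    rw [hc]
    by_cases hI : β / 2 * L ≤ (((range L).filter fun t : ℕ => x + (t : ZMod M) * d ∈ B).card : ℝ)
    · obtain ⟨a, s, hs, has⟩ := hS _ (Finset.filter_subset _ _) hI
      have h0 := Finset.mem_filter.1 (has 0 (by omega))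
      have h1 := Finset.mem_filter.1 (has 1 (by omega))
      have ha : a ∈ range L := by simpa using h0.1
      have hsL : s ∈ Ico 1 L := by
        have := Finset.mem_range.1 h1.1
        rw [Finset.mem_Ico]
        omega
      have hone : Λ (x + (a : ZMod M) * d) ((s : ZMod M) * d) = 1 := by
        refine Finset.prod_eq_one fun i hi => ?_
        have h2 := (Finset.mem_filter.1 (has i (Finset.mem_range.1 hi))).2
        have h3 : x + (a : ZMod M) * d + (i : ZMod M) * ((s : ZMod M) * d) =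
            x + ((a + i * s : ℕ) : ZMod M) * d := by push_cast; ring
        simp only [hu]
        rw [h3, if_pos h2]
      have hge : (1 : ℝ) ≤ ∑ a ∈ range L, ∑ s ∈ Ico 1 L,
          Λ (x + (a : ZMod M) * d) ((s : ZMod M) * d) := by
        calc (1 : ℝ) = Λ (x + (a : ZMod M) * d) ((s : ZMod M) * d) := hone.symm
          _ ≤ ∑ s ∈ Ico 1 L, Λ (x + (a : ZMod M) * d) ((s : ZMod M) * d) :=
            Finset.single_le_sum (f := fun s : ℕ => Λ (x + (a : ZMod M) * d) ((s : ZMod M) * d))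
              (fun s _ => hΛ0 _ _) hsL
          _ ≤ _ := Finset.single_le_sum (f := fun a : ℕ => ∑ s ∈ Ico 1 L,
              Λ (x + (a : ZMod M) * d) ((s : ZMod M) * d))
              (fun a _ => Finset.sum_nonneg fun s _ => hΛ0 _ _) ha
      have hle : (((range L).filter fun t : ℕ => x + (t : ZMod M) * d ∈ B).card : ℝ) ≤ L := by
        have := Finset.card_filter_le (range L) fun t : ℕ => x + (t : ZMod M) * d ∈ B
        rw [Finset.card_range] at this
        exact_mod_cast this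
      have : 0 ≤ β / 2 * L := by positivity
      nlinarith
    · have : 0 ≤ (L : ℝ) * ∑ a ∈ range L, ∑ s ∈ Ico 1 L,
          Λ (x + (a : ZMod M) * d) ((s : ZMod M) * d) := by positivity
      linarith [not_le.1 hI]
  have hcard : (Fintype.card (ZMod M) : ℝ) = M := by rw [ZMod.card]
  have lhs : ∑ x : ZMod M, ∑ d : ZMod M, ∑ t ∈ range L, u (x + (t : ZMod M) * d) =
      (M : ℝ) * L * B.card := by
    rw [Finset.sum_comm]
    have : ∀ d : ZMod M, ∑ x : ZMod M, ∑ t ∈ range L, u (x + (t : ZMod M) * d) = L * B.card := by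
      intro d
      rw [Finset.sum_comm]
      have h4 : ∀ t ∈ range L, ∑ x : ZMod M, u (x + (t : ZMod M) * d) = B.card := fun t _ => by
        rw [← hsu]
        exact Equiv.sum_comp (Equiv.addRight ((t : ZMod M) * d)) u
      rw [Finset.sum_congr rfl h4]
      simp
    simp_rw [this]
    simp [mul_assoc]
  set S : ℝ := ∑ x : ZMod M, ∑ d : ZMod M, Λ x d with hSd
  have hS0 : 0 ≤ S := Finset.sum_nonneg fun x _ => Finset.sum_nonneg fun d _ => hΛ0 _ _
  have rhs : ∑ x : ZMod M, ∑ d : ZMod M, ∑ a ∈ range L, ∑ s ∈ Ico 1 L,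
      Λ (x + (a : ZMod M) * d) ((s : ZMod M) * d) ≤ (L : ℝ) ^ 2 * S := by
    have e1 : ∑ x : ZMod M, ∑ d : ZMod M, ∑ a ∈ range L, ∑ s ∈ Ico 1 L,
        Λ (x + (a : ZMod M) * d) ((s : ZMod M) * d) = ∑ a ∈ range L, ∑ s ∈ Ico 1 L,
        ∑ x : ZMod M, ∑ d : ZMod M, Λ (x + (a : ZMod M) * d) ((s : ZMod M) * d) := by
      simp_rw [Finset.sum_comm (s := (univ : Finset (ZMod M))) (t := range L),
        Finset.sum_comm (s := (univ : Finset (ZMod M))) (t := Ico 1 L)]
    rw [e1]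
    have e2 : ∀ a ∈ range L, ∑ s ∈ Ico 1 L,
        ∑ x : ZMod M, ∑ d : ZMod M, Λ (x + (a : ZMod M) * d) ((s : ZMod M) * d) ≤ L * S := by
      intro a _
      have e3 : ∀ s ∈ Ico 1 L, ∑ x : ZMod M, ∑ d : ZMod M,
          Λ (x + (a : ZMod M) * d) ((s : ZMod M) * d) = S := by
        intro s hs
        rw [Finset.mem_Ico] at hs
        refine bij M _ _ ?_ Λ
        intro h0
        rw [ZMod.natCast_eq_zero_iff] at h0
        have := Nat.le_of_dvd (by omega) h0
        omega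
      rw [Finset.sum_congr rfl e3, Finset.sum_const, Nat.card_Ico, nsmul_eq_mul]
      refine mul_le_mul_of_nonneg_right ?_ hS0
      exact_mod_cast Nat.sub_le L 1
    calc _ ≤ ∑ _a ∈ range L, (L : ℝ) * S := Finset.sum_le_sum e2
      _ = _ := by rw [Finset.sum_const, Finset.card_range, nsmul_eq_mul]; ring
  have tot : (M : ℝ) * L * B.card ≤ (M : ℝ) ^ 2 * (β / 2 * L) + L * ((L : ℝ) ^ 2 * S) := by
    rw [← lhs]
    calc _ ≤ ∑ x : ZMod M, ∑ d : ZMod M, (β / 2 * L + L * ∑ a ∈ range L, ∑ s ∈ Ico 1 L,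
            Λ (x + (a : ZMod M) * d) ((s : ZMod M) * d)) :=
          Finset.sum_le_sum fun x _ => Finset.sum_le_sum fun d _ => key x d
      _ = (M : ℝ) ^ 2 * (β / 2 * L) + L * ∑ x : ZMod M, ∑ d : ZMod M, ∑ a ∈ range L,
            ∑ s ∈ Ico 1 L, Λ (x + (a : ZMod M) * d) ((s : ZMod M) * d) := by
          simp_rw [Finset.sum_add_distrib, ← Finset.mul_sum]
          simp only [Finset.sum_const, Finset.card_univ, nsmul_eq_mul, hcard]
          ring
      _ ≤ _ := by gcongr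
  have h5 : (M : ℝ) * L * (β * M) ≤ (M : ℝ) * L * B.card := by gcongr
  have h6 : β / 2 * (M : ℝ) ^ 2 ≤ (L : ℝ) ^ 2 * S := by
    have : (L : ℝ) * (β / 2 * (M : ℝ) ^ 2) ≤ L * ((L : ℝ) ^ 2 * S) := by nlinarith
    exact le_of_mul_le_mul_left this hLr
  show _ ≤ S
  rw [div_mul_eq_mul_div, div_le_iff₀ (by positivity)]
  linarith

/-- Weighted form: a bounded nonnegative function of positive mean has many progressions. -/
theorem wt (k : ℕ) (hk : 2 ≤ k) (δ C : ℝ) (hδ : 0 < δ) (hC : 0 < C) (h : ∀ β, 0 < β → Sz k β) :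
    ∃ c : ℝ, 0 < c ∧ ∃ M₀ : ℕ, ∀ (M : ℕ) [Fact M.Prime], M₀ ≤ M → ∀ g : ZMod M → ℝ,
      (∀ x, 0 ≤ g x) → (∀ x, g x ≤ C) → δ * M ≤ ∑ x, g x →
      c * (M : ℝ) ^ 2 ≤ ∑ x : ZMod M, ∑ d : ZMod M, ∏ i ∈ range k, g (x + (i : ZMod M) * d) := by
  classical
  obtain ⟨c, hc, M₀, H⟩ := core k hk (δ / 2 / C) (by positivity) (h _ (by positivity))
  refine ⟨(δ / 2) ^ k * c, by positivity, M₀, fun M _ hM g h0 h1 hs => ?_⟩
  have hcard : (Fintype.card (ZMod M) : ℝ) = M := by rw [ZMod.card]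
  set B : Finset (ZMod M) := univ.filter fun x => δ / 2 ≤ g x with hB
  have hBc : δ / 2 / C * M ≤ (B.card : ℝ) := by
    have h2 : ∑ x, g x ≤ ∑ x : ZMod M, (δ / 2 + C * (if δ / 2 ≤ g x then (1 : ℝ) else 0)) := by
      refine Finset.sum_le_sum fun x _ => ?_
      split_ifs with hx
      · linarith [h1 x]
      · linarith [not_le.1 hx]
    rw [Finset.sum_add_distrib, ← Finset.mul_sum, Finset.sum_boole] at h2
    simp only [Finset.sum_const, Finset.card_univ, nsmul_eq_mul, hcard] at h2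
    rw [div_mul_eq_mul_div, div_le_iff₀ hC]
    linarith
  have h3 := H M hM B hBc
  rw [mul_assoc]
  refine (mul_le_mul_of_nonneg_left h3 (by positivity)).trans ?_
  rw [Finset.mul_sum]
  refine Finset.sum_le_sum fun x _ => ?_
  rw [Finset.mul_sum]
  refine Finset.sum_le_sum fun d _ => ?_
  have e : (δ / 2) ^ k = ∏ _i ∈ range k, δ / 2 := by rw [Finset.prod_const, Finset.card_range]
  rw [e, ← Finset.prod_mul_distrib]
  refine Finset.prod_le_prod (fun i _ => ?_) fun i _ => ?_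
  · split_ifs
    · positivity
    · simp
  · split_ifs with hx
    · rw [mul_one]
      exact (Finset.mem_filter.1 hx).2
    · rw [mul_zero]
      exact h0 _

/-- The Szemeredi type statement from the quantitative bound. -/
theorem sz_of (k : ℕ) (h : ∃ c : ℝ, 0 < c ∧ ∃ N₀ : ℕ, ∀ N : ℕ, N₀ ≤ N → ∀ A : Finset ℕ,
    A ⊆ Icc 1 N → (∀ a d : ℕ, 0 < d → ¬ ∀ i : ℕ, i < k → a + i * d ∈ A) →
    (A.card : ℝ) ≤ N * Real.exp (-(c * Real.log (Real.log N) / Real.log (Real.log (Real.log N)))))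
    (hk : 1 ≤ k) (β : ℝ) (hβ : 0 < β) : Sz k β := by
  classical
  obtain ⟨c, hc, N₀, H⟩ := h
  have t1 : Filter.Tendsto (fun N : ℕ => Real.log (Real.log N)) Filter.atTop Filter.atTop :=
    Real.tendsto_log_atTop.comp (Real.tendsto_log_atTop.comp tendsto_natCast_atTop_atTop)
  have t2 : Filter.Tendsto (fun y : ℝ => y / Real.log y) Filter.atTop Filter.atTop := by
    have h1 : Filter.Tendsto (fun y : ℝ => Real.log y / y) Filter.atTop (nhds 0) := by
      simpa using Real.isLittleO_log_id_atTop.tendsto_div_nhds_zero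
    have h2 : Filter.Tendsto (fun y : ℝ => Real.log y / y) Filter.atTop (nhdsWithin 0 (Set.Ioi 0)) := by
      refine tendsto_nhdsWithin_iff.2 ⟨h1, ?_⟩
      filter_upwards [Filter.eventually_gt_atTop 1] with y hy
      exact div_pos (Real.log_pos hy) (by linarith)
    simpa [Function.comp_def] using tendsto_inv_nhdsGT_zero.comp h2
  have t3 : Filter.Tendsto (fun N : ℕ =>
      Real.exp (-(c * Real.log (Real.log N) / Real.log (Real.log (Real.log N))))) Filter.atTop
      (nhds 0) := by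
    refine Real.tendsto_exp_neg_atTop_nhds_zero.comp ?_
    simpa [Function.comp_def, mul_div_assoc] using (t2.comp t1).const_mul_atTop hc
  obtain ⟨N₁, hN₁⟩ := Filter.eventually_atTop.1 (t3.eventually (gt_mem_nhds hβ))
  refine ⟨max (max N₀ N₁) 1, by omega, fun I hI hc => ?_⟩
  set L := max (max N₀ N₁) 1 with hL
  by_contra hno
  have hLr : (0 : ℝ) < L := by
    have : 0 < L := by omega
    exact_mod_cast this
  have h1 := H L (by omega) (I.image (· + 1)) (fun x hx => by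
    obtain ⟨y, hy, rfl⟩ := Finset.mem_image.1 hx
    have := Finset.mem_range.1 (hI hy)
    rw [Finset.mem_Icc]
    omega) (fun a d hd hall => hno (by
      obtain ⟨y, _, hy⟩ := Finset.mem_image.1 (hall 0 (by omega))
      refine ⟨a - 1, d, hd, fun i hi => ?_⟩
      obtain ⟨z, hz, hz'⟩ := Finset.mem_image.1 (hall i hi)
      have : a - 1 + i * d = z := by omega
      rw [this]
      exact hz))
  rw [Finset.card_image_of_injective _ (add_left_injective 1)] at h1
  have h2 := hN₁ L (by omega)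
  nlinarith

end

end Vale.Agent.P057H.Varn
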