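import Vale.Agent.P057H.Defs
import Vale.Agent.P057H.Varn
import Vale.Agent.P057L.All

/-! The first model has many progressions. -/

namespace Vale.Agent.P057H.Base

open Finset Vale.Agent.P057H.Varn
open scoped BigOperators

noncomputable section

theorem fib (M : ℕ) [NeZero M] (s : ℕ) (hs : 0 < s) (e : ZMod M) :
    ((univ : Finset (ZMod M)).filter fun d => (s : ZMod M) * d = e).card ≤ s := by
  have hM : 0 < M := Nat.pos_of_ne_zero (NeZero.ne M)
  have h0 : ((univ : Finset (ZMod M)).filter fun d => (s : ZMod M) * d = e).card ≤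
      (range s).card := by
    refine Finset.card_le_card_of_injOn (fun d => s * d.val / M) (fun d _ => ?_) ?_
    · rw [Finset.mem_coe, Finset.mem_range, Nat.div_lt_iff_lt_mul hM]
      exact Nat.mul_lt_mul_of_pos_left (ZMod.val_lt d) hs
    · intro d hd d' hd' h
      have hd1 := (Finset.mem_filter.1 (Finset.mem_coe.1 hd)).2
      have hd2 := (Finset.mem_filter.1 (Finset.mem_coe.1 hd')).2
      have h1 : (s * d.val) % M = (s * d'.val) % M := by
        have h3 : ((s * d.val : ℕ) : ZMod M) = ((s * d'.val : ℕ) : ZMod M) := by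
          push_cast
          rw [ZMod.natCast_zmod_val, ZMod.natCast_zmod_val, hd1, hd2]
        exact (ZMod.natCast_eq_natCast_iff' _ _ _).1 h3
      have h4 : s * d.val / M = s * d'.val / M := h
      have h2 : s * d.val = s * d'.val := by
        rw [← Nat.div_add_mod (s * d.val) M, ← Nat.div_add_mod (s * d'.val) M, h1, h4]
      exact ZMod.val_injective M (Nat.eq_of_mul_eq_mul_left hs h2)
  simpa using h0

theorem sub (M : ℕ) [NeZero M] (a : ZMod M) (s : ℕ) (hs : 0 < s) (F : ZMod M → ZMod M → ℝ)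
    (hF : ∀ x d, 0 ≤ F x d) :
    ∑ x : ZMod M, ∑ d : ZMod M, F (x + a * d) ((s : ZMod M) * d) ≤
      s * ∑ x : ZMod M, ∑ d : ZMod M, F x d := by
  rw [Finset.sum_comm]
  have h1 : ∀ d : ZMod M, ∑ x : ZMod M, F (x + a * d) ((s : ZMod M) * d) =
      ∑ x : ZMod M, F x ((s : ZMod M) * d) :=
    fun d => Equiv.sum_comp (Equiv.addRight (a * d)) (fun x => F x ((s : ZMod M) * d))
  simp_rw [h1]
  rw [Finset.sum_comm, Finset.mul_sum]
  refine Finset.sum_le_sum fun x _ => ?_
  rw [← Finset.sum_fiberwise (univ : Finset (ZMod M)) (fun d => (s : ZMod M) * d), Finset.mul_sum]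
  refine Finset.sum_le_sum fun e _ => ?_
  have h2 : ∀ d ∈ (univ : Finset (ZMod M)).filter fun d => (s : ZMod M) * d = e,
      F x ((s : ZMod M) * d) = F x e := fun d hd => by rw [(Finset.mem_filter.1 hd).2]
  rw [Finset.sum_congr rfl h2, Finset.sum_const, nsmul_eq_mul]
  refine mul_le_mul_of_nonneg_right ?_ (hF _ _)
  exact_mod_cast fib M s hs e

theorem core (k : ℕ) (hk : 2 ≤ k) (β : ℝ) (hβ : 0 < β) (h : Sz k (β / 2)) :
    ∃ c : ℝ, 0 < c ∧ ∃ M₀ : ℕ, ∀ (M : ℕ) [NeZero M], M₀ ≤ M → ∀ B : Finset (ZMod M),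
      β * M ≤ (B.card : ℝ) →
      c * (M : ℝ) ^ 2 ≤ ∑ x : ZMod M, ∑ d : ZMod M,
        ∏ i ∈ range k, (if x + (i : ZMod M) * d ∈ B then (1 : ℝ) else 0) := by
  classical
  obtain ⟨L, hL, hS⟩ := h
  have hLr : (0 : ℝ) < L := by exact_mod_cast hL
  refine ⟨β / 2 / (L : ℝ) ^ 3, by positivity, L, fun M _ hM B hB => ?_⟩
  have hMr : (0 : ℝ) < M := by exact_mod_cast Nat.pos_of_ne_zero (NeZero.ne M)
  set u : ZMod M → ℝ := fun x => if x ∈ B then 1 else 0 with hu
  have hu0 : ∀ x, 0 ≤ u x := fun x => by simp only [hu]; split_ifs <;> norm_num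
  set Λ : ZMod M → ZMod M → ℝ := fun x d => ∏ i ∈ range k, u (x + (i : ZMod M) * d) with hΛ
  have hΛ0 : ∀ x d, 0 ≤ Λ x d := fun x d => Finset.prod_nonneg fun i _ => hu0 _
  have hsu : ∑ x, u x = (B.card : ℝ) := by
    simp only [hu]
    rw [Finset.sum_boole]
    simp
  have key : ∀ x d : ZMod M, ∑ t ∈ range L, u (x + (t : ZMod M) * d) ≤
      β / 2 * L + L * ∑ a ∈ range L, ∑ s ∈ Ico 1 L, Λ (x + (a : ZMod M) * d) ((s : ZMod M) * d) := by
    intro x d
    have hnn : 0 ≤ ∑ a ∈ range L, ∑ s ∈ Ico 1 L, Λ (x + (a : ZMod M) * d) ((s : ZMod M) * d) :=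
      Finset.sum_nonneg fun a _ => Finset.sum_nonneg fun s _ => hΛ0 _ _
    have hc : ∑ t ∈ range L, u (x + (t : ZMod M) * d) =
        (((range L).filter fun t : ℕ => x + (t : ZMod M) * d ∈ B).card : ℝ) := by
      simp only [hu]
      rw [Finset.sum_boole]
    rw [hc]
    by_cases hI : β / 2 * L ≤ (((range L).filter fun t : ℕ => x + (t : ZMod M) * d ∈ B).card : ℝ)
    · obtain ⟨a, s, hs, has⟩ := hS _ (Finset.filter_subset _ _) hI
      have h0 := Finset.mem_filter.1 (has 0 (by omega))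
      have h1 := Finset.mem_filter.1 (has 1 (by omega))
      have ha : a ∈ range L := by simpa using h0.1
      have hsL : s ∈ Ico 1 L := by
        have := Finset.mem_range.1 h1.1
        rw [Finset.mem_Ico]
        omega
      have hone : Λ (x + (a : ZMod M) * d) ((s : ZMod M) * d) = 1 := by
        refine Finset.prod_eq_one fun i hi => ?_
        have h2 := (Finset.mem_filter.1 (has i (Finset.mem_range.1 hi))).2
        have h3 : x + (a : ZMod M) * d + (i : ZMod M) * ((s : ZMod M) * d) =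
            x + ((a + i * s : ℕ) : ZMod M) * d := by push_cast; ring
        simp only [hu]
        rw [h3, if_pos h2]
      have hge : (1 : ℝ) ≤ ∑ a ∈ range L, ∑ s ∈ Ico 1 L,
          Λ (x + (a : ZMod M) * d) ((s : ZMod M) * d) := by
        calc (1 : ℝ) = Λ (x + (a : ZMod M) * d) ((s : ZMod M) * d) := hone.symm
          _ ≤ ∑ s ∈ Ico 1 L, Λ (x + (a : ZMod M) * d) ((s : ZMod M) * d) :=
            Finset.single_le_sum (f := fun s : ℕ => Λ (x + (a : ZMod M) * d) ((s : ZMod M) * d))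
              (fun s _ => hΛ0 _ _) hsL
          _ ≤ _ := Finset.single_le_sum (f := fun a : ℕ => ∑ s ∈ Ico 1 L,
              Λ (x + (a : ZMod M) * d) ((s : ZMod M) * d))
              (fun a _ => Finset.sum_nonneg fun s _ => hΛ0 _ _) ha
      have hle : (((range L).filter fun t : ℕ => x + (t : ZMod M) * d ∈ B).card : ℝ) ≤ L := by
        have := Finset.card_filter_le (range L) fun t : ℕ => x + (t : ZMod M) * d ∈ B
        rw [Finset.card_range] at this
        exact_mod_cast this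
      have : 0 ≤ β / 2 * L := by positivity
      nlinarith
    · have : 0 ≤ (L : ℝ) * ∑ a ∈ range L, ∑ s ∈ Ico 1 L,
          Λ (x + (a : ZMod M) * d) ((s : ZMod M) * d) := by positivity
      linarith [not_le.1 hI]
  have hcard : (Fintype.card (ZMod M) : ℝ) = M := by rw [ZMod.card]
  have lhs : ∑ x : ZMod M, ∑ d : ZMod M, ∑ t ∈ range L, u (x + (t : ZMod M) * d) =
      (M : ℝ) * L * B.card := by
    rw [Finset.sum_comm]
    have : ∀ d : ZMod M, ∑ x : ZMod M, ∑ t ∈ range L, u (x + (t : ZMod M) * d) = L * B.card := by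
      intro d
      rw [Finset.sum_comm]
      have h4 : ∀ t ∈ range L, ∑ x : ZMod M, u (x + (t : ZMod M) * d) = B.card := fun t _ => by
        rw [← hsu]
        exact Equiv.sum_comp (Equiv.addRight ((t : ZMod M) * d)) u
      rw [Finset.sum_congr rfl h4]
      simp
    simp_rw [this]
    simp [mul_assoc]
  set S : ℝ := ∑ x : ZMod M, ∑ d : ZMod M, Λ x d with hSd
  have hS0 : 0 ≤ S := Finset.sum_nonneg fun x _ => Finset.sum_nonneg fun d _ => hΛ0 _ _
  have rhs : ∑ x : ZMod M, ∑ d : ZMod M, ∑ a ∈ range L, ∑ s ∈ Ico 1 L,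
      Λ (x + (a : ZMod M) * d) ((s : ZMod M) * d) ≤ (L : ℝ) ^ 3 * S := by
    have e1 : ∑ x : ZMod M, ∑ d : ZMod M, ∑ a ∈ range L, ∑ s ∈ Ico 1 L,
        Λ (x + (a : ZMod M) * d) ((s : ZMod M) * d) = ∑ a ∈ range L, ∑ s ∈ Ico 1 L,
        ∑ x : ZMod M, ∑ d : ZMod M, Λ (x + (a : ZMod M) * d) ((s : ZMod M) * d) := by
      simp_rw [Finset.sum_comm (s := (univ : Finset (ZMod M))) (t := range L),
        Finset.sum_comm (s := (univ : Finset (ZMod M))) (t := Ico 1 L)]
    rw [e1]
    have e2 : ∀ a ∈ range L, ∑ s ∈ Ico 1 L,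
        ∑ x : ZMod M, ∑ d : ZMod M, Λ (x + (a : ZMod M) * d) ((s : ZMod M) * d) ≤
          L * (L * S) := by
      intro a _
      have e3 : ∀ s ∈ Ico 1 L, ∑ x : ZMod M, ∑ d : ZMod M,
          Λ (x + (a : ZMod M) * d) ((s : ZMod M) * d) ≤ L * S := by
        intro s hs
        rw [Finset.mem_Ico] at hs
        refine (sub M _ s (by omega) Λ hΛ0).trans (mul_le_mul_of_nonneg_right ?_ hS0)
        exact_mod_cast hs.2.le
      refine (Finset.sum_le_sum e3).trans ?_
      rw [Finset.sum_const, Nat.card_Ico, nsmul_eq_mul]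
      refine mul_le_mul_of_nonneg_right ?_ (by positivity)
      exact_mod_cast Nat.sub_le L 1
    calc _ ≤ ∑ _a ∈ range L, (L : ℝ) * (L * S) := Finset.sum_le_sum e2
      _ = _ := by rw [Finset.sum_const, Finset.card_range, nsmul_eq_mul]; ring
  have tot : (M : ℝ) * L * B.card ≤ (M : ℝ) ^ 2 * (β / 2 * L) + L * ((L : ℝ) ^ 3 * S) := by
    rw [← lhs]
    calc _ ≤ ∑ x : ZMod M, ∑ d : ZMod M, (β / 2 * L + L * ∑ a ∈ range L, ∑ s ∈ Ico 1 L,
            Λ (x + (a : ZMod M) * d) ((s : ZMod M) * d)) :=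
          Finset.sum_le_sum fun x _ => Finset.sum_le_sum fun d _ => key x d
      _ = (M : ℝ) ^ 2 * (β / 2 * L) + L * ∑ x : ZMod M, ∑ d : ZMod M, ∑ a ∈ range L,
            ∑ s ∈ Ico 1 L, Λ (x + (a : ZMod M) * d) ((s : ZMod M) * d) := by
          simp_rw [Finset.sum_add_distrib, ← Finset.mul_sum]
          simp only [Finset.sum_const, Finset.card_univ, nsmul_eq_mul, hcard]
          ring
      _ ≤ _ := by gcongr
  have h5 : (M : ℝ) * L * (β * M) ≤ (M : ℝ) * L * B.card := by gcongr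
  have h6 : β / 2 * (M : ℝ) ^ 2 ≤ (L : ℝ) ^ 3 * S := by
    have : (L : ℝ) * (β / 2 * (M : ℝ) ^ 2) ≤ L * ((L : ℝ) ^ 3 * S) := by nlinarith
    exact le_of_mul_le_mul_left this hLr
  show _ ≤ S
  rw [div_mul_eq_mul_div, div_le_iff₀ (by positivity)]
  linarith

/-- Weighted form: a bounded nonnegative function of positive mean has many progressions. -/
theorem wt (k : ℕ) (hk : 2 ≤ k) (δ C : ℝ) (hδ : 0 < δ) (hC : 0 < C) (h : ∀ β, 0 < β → Sz k β) :
    ∃ c : ℝ, 0 < c ∧ ∃ M₀ : ℕ, ∀ (M : ℕ) [NeZero M], M₀ ≤ M → ∀ g : ZMod M → ℝ,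
      (∀ x, 0 ≤ g x) → (∀ x, g x ≤ C) → δ * M ≤ ∑ x, g x →
      c * (M : ℝ) ^ 2 ≤ ∑ x : ZMod M, ∑ d : ZMod M, ∏ i ∈ range k, g (x + (i : ZMod M) * d) := by
  classical
  obtain ⟨c, hc, M₀, H⟩ := core k hk (δ / 2 / C) (by positivity) (h _ (by positivity))
  refine ⟨(δ / 2) ^ k * c, by positivity, M₀, fun M _ hM g h0 h1 hs => ?_⟩
  have hcard : (Fintype.card (ZMod M) : ℝ) = M := by rw [ZMod.card]
  set B : Finset (ZMod M) := univ.filter fun x => δ / 2 ≤ g x with hB
  have hBc : δ / 2 / C * M ≤ (B.card : ℝ) := by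
    have h2 : ∑ x, g x ≤ ∑ x : ZMod M, (δ / 2 + C * (if δ / 2 ≤ g x then (1 : ℝ) else 0)) := by
      refine Finset.sum_le_sum fun x _ => ?_
      split_ifs with hx
      · linarith [h1 x]
      · linarith [not_le.1 hx]
    rw [Finset.sum_add_distrib, ← Finset.mul_sum, Finset.sum_boole] at h2
    simp only [Finset.sum_const, Finset.card_univ, nsmul_eq_mul, hcard] at h2
    rw [div_mul_eq_mul_div, div_le_iff₀ hC]
    linarith
  have h3 := H M hM B hBc
  rw [mul_assoc]
  refine (mul_le_mul_of_nonneg_left h3 (by positivity)).trans ?_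
  rw [Finset.mul_sum]
  refine Finset.sum_le_sum fun x _ => ?_
  rw [Finset.mul_sum]
  refine Finset.sum_le_sum fun d _ => ?_
  have e : (δ / 2) ^ k = ∏ _i ∈ range k, δ / 2 := by rw [Finset.prod_const, Finset.card_range]
  rw [e, ← Finset.prod_mul_distrib]
  refine Finset.prod_le_prod (fun i _ => ?_) fun i _ => ?_
  · split_ifs
    · positivity
    · simp
  · split_ifs with hx
    · rw [mul_one]
      exact (Finset.mem_filter.1 hx).2
    · rw [mul_zero]
      exact h0 _

theorem mean (j M : ℕ) [NeZero M] (h : ZMod M → ℝ) (ε : ℝ) (H : Nc j M h ε) :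
    |∑ x, h x| ≤ ε * M := by
  have hM : (0 : ℝ) < M := by exact_mod_cast Nat.pos_of_ne_zero (NeZero.ne M)
  have h1 := H (fun _ _ => 1) (fun _ _ => 1) (fun _ _ => 1) (by simp) (by simp) (by simp)
  simp only [Finset.prod_const_one, one_mul] at h1
  have h2 : 𝔼 ω : Oc j M, h (sc univ ω) = (∑ x, h x) / M := by
    rw [Finset.expect_eq_sum_div_card, Fintype.sum_prod_type]
    have h3 : ∀ W : Fin j → ZMod M, ∑ p : ZMod M × ZMod M, h (sc univ (W, p)) =
        M * ∑ x, h x := by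
      intro W
      rw [Fintype.sum_prod_type]
      have h4 : ∀ y : ZMod M, ∑ v : ZMod M, h (sc univ (W, y, v)) = ∑ x, h x := fun y =>
        Equiv.sum_comp (Equiv.addLeft (∑ i, W i + y)) h
      simp_rw [h4]
      simp
    simp_rw [h3]
    simp only [Finset.sum_const, Finset.card_univ, nsmul_eq_mul, Fintype.card_prod, ZMod.card]
    have h5 : (0 : ℝ) < (Fintype.card (Fin j → ZMod M) : ℝ) := by
      exact_mod_cast Fintype.card_pos
    push_cast
    field_simp
  rw [h2, abs_div, abs_of_pos hM, div_le_iff₀ hM] at h1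
  exact h1

end

end Vale.Agent.P057H.Base

namespace Vale.Agent.P057H

open Finset
open scoped BigOperators

theorem base : BASE := by
  intro j
  obtain ⟨c, hc, M₀, H⟩ := Base.wt (j + 3) (by omega) (1 / 5) 2 (by norm_num) (by norm_num)
    (fun β hβ => Varn.sz_of (j + 3) (P057L.All.final (j + 3) (by omega)) (by omega) β hβ)
  refine ⟨1 / 10, c, by norm_num, le_rfl, hc, M₀, fun M N _ f g hN h2 h4 _ hf hg hn => ?_⟩
  have hM : (0 : ℝ) < M := by exact_mod_cast Nat.pos_of_ne_zero (NeZero.ne M)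
  have h5 := (abs_le.1 (Base.mean j M _ _ hn)).2
  rw [Finset.sum_sub_distrib, hf] at h5
  have h6 : (M : ℝ) ≤ 4 * N := by exact_mod_cast h4
  have h7 := H M (by omega) g (fun x => (hg x).1) (fun x => (hg x).2.trans (by norm_num))
    (by nlinarith)
  have h8 : apc (j + 3) M (fun _ => g) = (∑ x : ZMod M, ∑ d : ZMod M,
      ∏ i ∈ range (j + 3), g (x + (i : ZMod M) * d)) / (M : ℝ) ^ 2 := by
    unfold apc
    simp only [Finset.expect_eq_sum_div_card, Finset.card_univ, ZMod.card]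
    rw [← Finset.sum_div, div_div, sq]
    congr 1
    refine Finset.sum_congr rfl fun x _ => Finset.sum_congr rfl fun d _ => ?_
    exact Fin.prod_univ_eq_prod_range (fun i => g (x + (i : ZMod M) * d)) (j + 3)
  rw [h8, le_div_iff₀ (by positivity)]
  exact h7

end Vale.Agent.P057H
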