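import Vale.Agent.P057H.BoxG

/-! The count of progressions is controlled by the arithmetic cut norm. -/

set_option linter.all false

open Finset
open scoped BigOperators

namespace Vale.Agent.P057H.GvnG

variable {R : Type} [CommRing R] [Fintype R]

/-- the arithmetic cut norm of `h` is at most `δ` -/
def Cut (j : ℕ) (h : R → ℝ) (δ : ℝ) : Prop :=
  ∀ (a b : (Fin j → R) → R → ℝ) (H : Finset (Fin j) → R → ℝ), (∀ W y, |a W y| ≤ 1) →
    (∀ W v, |b W v| ≤ 1) → (∀ S x, |H S x| ≤ 1) →
    𝔼 W, 𝔼 y, 𝔼 v, h (∑ i, W i + y + v) * (a W y * b W v *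
      ∏ S ∈ univ.erase univ, H S (∑ i ∈ S, W i + y + v)) ≤ δ

/-- the count of the configurations `x + n i * d` -/
noncomputable def Lam {k : ℕ} (n : Fin k → R) (f : Fin k → R → ℝ) : ℝ :=
  𝔼 x, 𝔼 d, ∏ i, f i (x + n i * d)

theorem par (Φ : R → R → ℝ) {p q r s : R} (hr : IsUnit r) (hs : IsUnit s) (h : IsUnit (p - q))
    (x0 d0 : R) : 𝔼 x, 𝔼 d, Φ x d =
      𝔼 y, 𝔼 v, Φ (x0 - p * r * y - q * s * v) (d0 + r * y + s * v) := by
  classical
  rw [← expect_product', ← expect_product', univ_product_univ]
  refine (Fintype.expect_bijective (fun z : R × R =>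
    (x0 - p * r * z.1 - q * s * z.2, d0 + r * z.1 + s * z.2)) ?_ _ _ fun _ => rfl).symm
  refine Finite.injective_iff_bijective.1 fun z w e => ?_
  obtain ⟨e1, e2⟩ := Prod.mk.inj e
  have a : z.1 = w.1 := (h.mul hr).mul_left_cancel (by linear_combination -e1 - q * e2)
  rw [a] at e2
  exact Prod.ext a (hs.mul_left_cancel (by linear_combination e2))

/-- **one slot has a small cut norm** -/
theorem gvn (j : ℕ) (n : Fin (j + 3) → R) (hn : ∀ i l, i ≠ l → IsUnit (n i - n l))
    (f : Fin (j + 3) → R → ℝ) {B δ : ℝ} (hB : 0 < B) (hf : ∀ i x, |f i x| ≤ B) (i0 : Fin (j + 3))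
    (hT : Cut j (f i0) δ) :
    |Lam n f| ^ (2 ^ j) ≤ B ^ ((j + 2) * 2 ^ j) * (B ^ (2 ^ j - 1) * δ) := by
  classical
  let p : Fin (j + 2) → Fin (j + 3) := i0.succAbove
  have ex : ∀ l, ∃ r : R, (n i0 - n (p l)) * r = 1 := fun l =>
    (hn i0 (p l) (Fin.succAbove_ne i0 l).symm).exists_right_inv
  choose r hr using ex
  have ur : ∀ l, IsUnit (r l) := fun l => IsUnit.of_mul_eq_one_right _ (hr l)
  let lin : Fin (j + 3) → (Fin j → R) → R → R → R := fun i W y v =>
    ∑ l, (n i - n (p l.succ.succ)) * r l.succ.succ * W l + (n i - n (p 0)) * r 0 * y +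
      (n i - n (p 1)) * r 1 * v
  have e1 : Lam n f = 𝔼 W : Fin j → R, 𝔼 y, 𝔼 v, ∏ i, f i (lin i W y v) := by
    rw [← expect_const (univ_nonempty (α := Fin j → R)) (Lam n f)]
    refine expect_congr rfl fun W _ => ?_
    rw [Lam, par (fun x d => ∏ i, f i (x + n i * d)) (ur 0) (ur 1)
      (hn (p 0) (p 1) fun e => absurd (Fin.succAbove_right_injective e) (by simp))
      (-∑ l, n (p l.succ.succ) * r l.succ.succ * W l) (∑ l, r l.succ.succ * W l)]
    refine expect_congr rfl fun y _ => expect_congr rfl fun v _ => prod_congr rfl fun i _ => ?_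
    congr 1
    simp only [lin, sub_mul, sum_sub_distrib, mul_add, mul_sum, mul_assoc]
    ring
  have nb : ∀ (s : ℝ), |s| = 1 → ∀ i x, |s * f i x / B| ≤ 1 := fun s hs i x => by
    rw [abs_div, abs_mul, hs, one_mul, abs_of_pos hB, div_le_one hB]
    exact hf i x
  have key : ∀ s : ℝ, |s| = 1 → (s * Lam n f) ^ (2 ^ j) ≤
      B ^ ((j + 2) * 2 ^ j) * (B ^ (2 ^ j - 1) * δ) := fun s hs => by
    have k := BoxG.bcs j (f i0) hB (hf i0) hT (fun W y => s * f (p 1) (lin (p 1) W y 0) / B)
      (fun W v => 1 * f (p 0) (lin (p 0) W 0 v) / B)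
      (fun l W y v => 1 * f (p l.succ.succ) (lin (p l.succ.succ) W y v) / B)
      (fun _ _ => nb s hs _ _) (fun _ _ => nb 1 abs_one _ _) (fun _ _ _ _ => nb 1 abs_one _ _)
      (fun l W t y v => by
        have : ∑ m, (n (p l.succ.succ) - n (p m.succ.succ)) * r m.succ.succ *
            Function.update W l t m =
            ∑ m, (n (p l.succ.succ) - n (p m.succ.succ)) * r m.succ.succ * W m :=
          sum_congr rfl fun m _ => by
            by_cases e : m = l
            · simp [e]
            · rw [Function.update_of_ne e]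
        simp only [lin, this])
    refine le_trans (le_of_eq ?_) (mul_le_mul_of_nonneg_left k (pow_pos hB _).le)
    rw [pow_mul, ← mul_pow, e1]
    congr 1
    simp only [mul_expect]
    refine expect_congr rfl fun W _ => expect_congr rfl fun y _ => expect_congr rfl fun v _ => ?_
    have l0 : lin i0 W y v = ∑ i, W i + y + v := by simp only [lin, hr, one_mul]
    have l1 : lin (p 1) W y 0 = lin (p 1) W y v := by simp only [lin, sub_self, zero_mul]
    have l2 : lin (p 0) W 0 v = lin (p 0) W y v := by simp only [lin, sub_self, zero_mul]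
    rw [Fin.prod_univ_succAbove _ i0, Fin.prod_univ_succ, Fin.prod_univ_succ, l0, l1, l2,
      prod_div_distrib, prod_const, card_univ, Fintype.card_fin]
    simp only [one_mul]
    have : (Fin.succ 0 : Fin (j + 2)) = 1 := rfl
    rw [this]
    field_simp
    ring
  rcases abs_cases (Lam n f) with h | h <;> rw [h.1]
  · simpa using key 1 abs_one
  · simpa using key (-1) (by simp)

/-- **telescoping** -/
theorem tel (j : ℕ) (n : Fin (j + 3) → R) (hn : ∀ i l, i ≠ l → IsUnit (n i - n l))
    (f g : Fin (j + 3) → R → ℝ) {B δ η : ℝ} (hB : 0 < B) (hf : ∀ i x, |f i x| ≤ B)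
    (hg : ∀ i x, |g i x| ≤ B) (hd : ∀ i x, |f i x - g i x| ≤ B)
    (hT : ∀ i, Cut j (fun x => f i x - g i x) δ) (h0 : 0 ≤ η)
    (hη : B ^ ((j + 2) * 2 ^ j) * (B ^ (2 ^ j - 1) * δ) ≤ η ^ (2 ^ j)) :
    |Lam n f - Lam n g| ≤ (j + 3) * η := by
  classical
  let m : ℕ → Fin (j + 3) → R → ℝ := fun t l => if (l : ℕ) < t then g l else f l
  have mb : ∀ t l x, |m t l x| ≤ B := fun t l x => by
    simp only [m]
    split_ifs
    exacts [hg l x, hf l x]
  have st : ∀ t : Fin (j + 3), |Lam n (m t) - Lam n (m (t + 1))| ≤ η := fun t => by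
    have k := gvn j n hn (Function.update (m t) t fun x => f t x - g t x) hB (fun i x => by
      by_cases e : i = t
      · subst e
        rw [Function.update_self]
        exact hd i x
      · rw [Function.update_of_ne e]
        exact mb _ _ _) t (by rw [Function.update_self]; exact hT t)
    have e : Lam n (m t) - Lam n (m (t + 1)) =
        Lam n (Function.update (m t) t fun x => f t x - g t x) := by
      simp only [Lam, ← expect_sub_distrib]
      refine expect_congr rfl fun x _ => expect_congr rfl fun d _ => ?_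
      rw [← mul_prod_erase univ _ (mem_univ t), ← mul_prod_erase univ _ (mem_univ t),
        ← mul_prod_erase univ _ (mem_univ t), Function.update_self]
      have a1 : m t t = f t := if_neg (lt_irrefl _)
      have a2 : m (t + 1) t = g t := if_pos (Nat.lt_succ_self _)
      have a3 : ∏ i ∈ univ.erase t, m (t + 1) i (x + n i * d) =
          ∏ i ∈ univ.erase t, m t i (x + n i * d) := prod_congr rfl fun i hi => by
        have : (i : ℕ) ≠ t := fun e => ne_of_mem_erase hi (Fin.ext e)
        have c : ((i : ℕ) < t + 1) = ((i : ℕ) < t) := propext (by omega)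
        simp only [m, c]
      have a4 : ∏ i ∈ univ.erase t, Function.update (m t) t (fun x => f t x - g t x) i
          (x + n i * d) = ∏ i ∈ univ.erase t, m t i (x + n i * d) :=
        prod_congr rfl fun i hi => by rw [Function.update_of_ne (ne_of_mem_erase hi)]
      rw [a1, a2, a3, a4]
      ring
    rw [e]
    exact (pow_le_pow_iff_left₀ (abs_nonneg _) h0 (by positivity)).1 (k.trans hη)
  have ind : ∀ t ≤ j + 3, |Lam n (m 0) - Lam n (m t)| ≤ t * η := fun t ht => by
    induction t with
    | zero => simp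
    | succ t ih =>
      have a := abs_sub_le (Lam n (m 0)) (Lam n (m t)) (Lam n (m (t + 1)))
      have b := st ⟨t, ht⟩
      have c := ih (by omega)
      push_cast
      linarith
  have z := ind (j + 3) le_rfl
  have z0 : m 0 = f := funext fun l => if_neg (Nat.not_lt_zero _)
  have z1 : m (j + 3) = g := funext fun l => if_pos l.2
  rw [z0, z1] at z
  exact_mod_cast z

/-- the nodes of a progression modulo a number without small prime factors -/
theorem unit_of {M k : ℕ} (h : Nat.Coprime M k.factorial) (i l : Fin k) (e : i ≠ l) :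
    IsUnit (((i : ℕ) : ZMod M) - ((l : ℕ) : ZMod M)) := by
  have key : ∀ a b : Fin k, (a : ℕ) < b → IsUnit (((b : ℕ) : ZMod M) - ((a : ℕ) : ZMod M)) :=
    fun a b hab => by
      rw [← Nat.cast_sub hab.le]
      exact (ZMod.isUnit_iff_coprime _ _).2 (Nat.Coprime.coprime_dvd_left
        (Nat.dvd_factorial (by omega) (by omega)) h.symm)
  rcases lt_or_gt_of_ne (Fin.val_ne_of_ne e) with c | c
  · rw [← neg_sub]
    exact (key i l c).neg
  · exact key l i c

end Vale.Agent.P057H.GvnG
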