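import Vale.Agent.P057H.Defs
import Vale.Agent.P057H.GvnG

/-! Rows BCS, GVN, TEL. -/

set_option linter.all false

open Finset
open scoped BigOperators Classical

namespace Vale.Agent.P057H

namespace Bcs

variable {j M : ℕ} [NeZero M]

theorem oc (Φ : Oc j M → ℝ) : 𝔼 ω, Φ ω = 𝔼 W, 𝔼 y, 𝔼 v, Φ (W, y, v) := by
  rw [← univ_product_univ, expect_product]
  refine expect_congr rfl fun W _ => ?_
  rw [← univ_product_univ, expect_product]

theorem cut {h : ZMod M → ℝ} {ε : ℝ} (H : Nc j M h ε) : GvnG.Cut j h ε := by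
  intro a b G ha hb hG
  refine le_trans (le_of_eq ?_) ((le_abs_self _).trans (H a b G ha hb hG))
  rw [oc]
  exact expect_congr rfl fun W _ => expect_congr rfl fun y _ => expect_congr rfl fun v _ =>
    mul_comm _ _

theorem un {M : ℕ} [h : Fact M.Prime] {k : ℕ} (hk : k ≤ M) (i l : Fin k) (e : i ≠ l) :
    IsUnit (((i : ℕ) : ZMod M) - ((l : ℕ) : ZMod M)) := by
  refine (sub_ne_zero.2 fun c => e (Fin.ext ?_)).isUnit
  have := (ZMod.natCast_eq_natCast_iff' _ _ _).1 c
  rwa [Nat.mod_eq_of_lt (by omega), Nat.mod_eq_of_lt (by omega)] at this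

theorem gvn0 : GVN := by
  intro j M _ h i ε hM hh hN
  have k := GvnG.gvn j (fun i => ((i : ℕ) : ZMod M)) (un hM) h one_pos hh i (cut hN)
  rw [one_pow, one_pow, one_mul, one_mul] at k
  exact k

theorem tel0 : TEL := by
  intro j M _ g g' B ε τ hM hB h0 hg hg' hN hε
  have B0 : 0 < B := by linarith
  have k := GvnG.tel j (fun i => ((i : ℕ) : ZMod M)) (un hM) (fun _ => g') (fun _ => g)
    (η := B ^ (j + 3) * τ) B0
    (fun _ x => abs_le.2 ⟨by linarith [(hg' x).1], (hg' x).2⟩)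
    (fun _ x => abs_le.2 ⟨by linarith [(hg x).1], (hg x).2⟩)
    (fun _ x => abs_le.2 ⟨by linarith [(hg' x).1, (hg x).2], by linarith [(hg' x).2, (hg x).1]⟩)
    (fun _ => cut hN) (by positivity) (by
      rw [mul_pow, ← pow_mul, show (j + 3) * 2 ^ j = (j + 2) * 2 ^ j + 2 ^ j by ring, pow_add,
        mul_assoc]
      refine mul_le_mul_of_nonneg_left ((mul_le_mul_of_nonneg_left hε (by positivity)).trans
        (mul_le_mul_of_nonneg_right (pow_le_pow_right₀ hB (Nat.sub_le _ _)) (by positivity)))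
        (by positivity))
  rw [mul_assoc]
  exact k

end Bcs

theorem bcs : BCS := by
  intro j M _ Δ ε a b u hΔ hN ha hb hu hi
  have key : ∀ s : ℝ, |s| = 1 → (s * 𝔼 ω : Oc j M, a ω.1 ω.2.1 * b ω.1 ω.2.2 * (∏ i, u i ω) *
      Δ (sc univ ω)) ^ 2 ^ j ≤ ε := fun s hs => by
    have k := BoxG.bcs j Δ one_pos hΔ (Bcs.cut hN) (fun W y => s * a W y) b
      (fun l W y v => u l (W, y, v)) (fun W y => by rw [abs_mul, hs, one_mul]; exact ha W y) hb
      (fun _ _ _ _ => hu _ _) fun l W t y v => hi l (W, y, v) t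
    rw [one_pow, one_mul] at k
    refine le_trans (le_of_eq ?_) k
    congr 1
    rw [Bcs.oc]
    simp only [mul_expect]
    refine expect_congr rfl fun W _ => expect_congr rfl fun y _ => expect_congr rfl fun v _ => ?_
    simp only [sc]
    ring
  rcases abs_cases (𝔼 ω : Oc j M, a ω.1 ω.2.1 * b ω.1 ω.2.2 * (∏ i, u i ω) * Δ (sc univ ω))
    with h | h <;> rw [h.1]
  · simpa using key 1 abs_one
  · simpa using key (-1) (by simp)

end Vale.Agent.P057H
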