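import Vale.Agent.P057H.Defs

/-! The count of progressions is controlled by the tests. -/

set_option linter.all false

open Finset
open scoped BigOperators Classical

namespace Vale.Agent.P057H

namespace Gvn

variable {j M : ℕ} [Fact M.Prime]

/-- the linear forms -/
def fm (e c : Fin (j + 2) → ZMod M) (m : ZMod M) (W : Fin j → ZMod M) (y v : ZMod M) : ZMod M :=
  ∑ t, W t * ((m - e t.succ.succ) * c t.succ.succ) + y * ((m - e 1) * c 1) + v * ((m - e 0) * c 0)

/-- the difference -/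
def df (c : Fin (j + 2) → ZMod M) (W : Fin j → ZMod M) (y v : ZMod M) : ZMod M :=
  ∑ t, W t * c t.succ.succ + y * c 1 + v * c 0

theorem fm_eq (e c : Fin (j + 2) → ZMod M) (m : ZMod M) (W : Fin j → ZMod M) (y v : ZMod M) :
    fm e c 0 W y v + m * df c W y v = fm e c m W y v := by
  have : ∑ t, W t * ((0 - e t.succ.succ) * c t.succ.succ) + m * ∑ t, W t * c t.succ.succ =
      ∑ t, W t * ((m - e t.succ.succ) * c t.succ.succ) := by
    rw [mul_sum, ← sum_add_distrib]
    exact sum_congr rfl fun t _ => by ring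
  unfold fm df
  linear_combination this

theorem ex_eq (e c : Fin (j + 2) → ZMod M) (h0 : c 0 ≠ 0) (h1 : c 1 ≠ 0) (he : e 0 ≠ e 1)
    (Φ : ZMod M → ZMod M → ℝ) :
    𝔼 x, 𝔼 d, Φ x d = 𝔼 ω : Oc j M, Φ (fm e c 0 ω.1 ω.2.1 ω.2.2) (df c ω.1 ω.2.1 ω.2.2) := by
  rw [← expect_product', univ_product_univ, ← univ_product_univ (α := Fin j → ZMod M),
    expect_product]
  refine (Fintype.expect_const (ι := Fin j → ZMod M) _).symm.trans (expect_congr rfl fun W _ => ?_)
  refine (Fintype.expect_bijective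
    (fun p : ZMod M × ZMod M => (fm e c 0 W p.1 p.2, df c W p.1 p.2)) ?_ _ _ fun p => rfl).symm
  refine Finite.injective_iff_bijective.1 fun p q h => ?_
  have a := congrArg Prod.fst h
  have b := congrArg Prod.snd h
  simp only [fm, df] at a b
  have hs := sub_ne_zero.2 he
  refine Prod.ext (mul_right_cancel₀ h1 (mul_left_cancel₀ hs ?_))
    (mul_right_cancel₀ h0 (mul_left_cancel₀ hs ?_))
  · linear_combination a + e 0 * b
  · linear_combination (-1 : ZMod M) * a - e 1 * b

end Gvn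

open Gvn in
theorem gvn (hB : BCS) : GVN := by
  intro j M _ h i ε hM hh hN
  have inj : ∀ a b : Fin (j + 3), ((a : ℕ) : ZMod M) = ((b : ℕ) : ZMod M) → a = b := fun a b e =>
    Fin.ext (Nat.ModEq.eq_of_lt_of_lt ((ZMod.natCast_eq_natCast_iff _ _ _).1 e)
      (a.2.trans_le hM) (b.2.trans_le hM))
  set e : Fin (j + 2) → ZMod M := fun t => ((i.succAbove t : ℕ) : ZMod M) with he
  have ne : ∀ t, ((i : ℕ) : ZMod M) - e t ≠ 0 := fun t k =>
    Fin.succAbove_ne i t (inj _ _ (sub_eq_zero.1 k)).symm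
  set c : Fin (j + 2) → ZMod M := fun t => (((i : ℕ) : ZMod M) - e t)⁻¹ with hc
  have key := hB j M (h i) ε (fun W y => h (i.succAbove 0) (fm e c (e 0) W y 0))
    (fun W v => h (i.succAbove 1) (fm e c (e 1) W 0 v))
    (fun t ω => h (i.succAbove t.succ.succ) (fm e c (e t.succ.succ) ω.1 ω.2.1 ω.2.2)) (hh i) hN
    (fun _ _ => hh _ _) (fun _ _ => hh _ _) (fun _ _ => hh _ _) (fun t ω x => by
      refine congrArg _ ?_
      unfold fm
      congr 2
      refine sum_congr rfl fun s _ => ?_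
      by_cases k : s = t
      · rw [k, sub_self, zero_mul, mul_zero, mul_zero]
      · exact congrArg (· * _) (Function.update_of_ne k _ _))
  refine le_trans (le_of_eq ?_) key
  rw [apc, ex_eq e c (inv_ne_zero (ne 0)) (inv_ne_zero (ne 1))
    (fun k => zero_ne_one (Fin.succAbove_right_injective (inj _ _ k)))]
  refine congrArg (fun z : ℝ => |z| ^ 2 ^ j) (expect_congr rfl fun ω _ => ?_)
  have top : fm e c ((i : ℕ) : ZMod M) ω.1 ω.2.1 ω.2.2 = sc univ ω := by
    simp only [fm, sc, hc, mul_inv_cancel₀ (ne _), mul_one]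
  have a0 : fm e c (e 0) ω.1 ω.2.1 ω.2.2 = fm e c (e 0) ω.1 ω.2.1 0 := by simp [fm]
  have a1 : fm e c (e 1) ω.1 ω.2.1 ω.2.2 = fm e c (e 1) ω.1 0 ω.2.2 := by simp [fm]
  simp only [fm_eq]
  rw [Fin.prod_univ_succAbove _ i, Fin.prod_univ_succ, Fin.prod_univ_succ, top, ← a0, ← a1]
  simp only [Fin.succ_zero_eq_one, he]
  ring

end Vale.Agent.P057H
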