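import Vale.Agent.P057H.Defs
import Vale.Agent.P057L.Inc

/-! The density increment from the deepest state. -/

set_option linter.all false

open Finset
open scoped BigOperators

namespace Vale.Agent.P057H.H98

open Vale.Agent.P057Z Vale.Agent.P057L

/-- a large mean or a state at the level `i` -/
def Gd (j N P : ℕ) (f : ℤ → ℝ) (lam : ℝ) (i : ℕ) : Prop :=
  ∃ (x : ℤ) (D L : ℕ), 1 ≤ D ∧ Lg N L (2 ^ (P * i)) ∧
    (lam ≤ 𝔼 v ∈ rg L, f (x + D * v) ∨ ∃ j' ≤ j, St j' L (pf f x D) lam (2 ^ (P * i)))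

theorem pf_pf (f : ℤ → ℝ) (x x' : ℤ) (D D' : ℕ) :
    pf (pf f x D) x' D' = pf f (x + D * x') (D * D') := by
  funext z
  simp only [pf]
  congr 1
  push_cast
  ring

theorem rgne {L : ℕ} (h : 1 ≤ L) : (rg L).Nonempty := by
  rw [← card_pos, inc_card_rg]
  exact h

theorem gd_le (hS : MS) {j N P i : ℕ} {f : ℤ → ℝ} {lam B : ℝ} (hf : ∀ x, f x ≤ B)
    (h : Gd j N P f lam i) : lam ≤ B := by
  obtain ⟨x, D, L, -, lg, h | ⟨j', -, h⟩⟩ := h
  · exact h.trans (expect_le (rgne lg.1) fun _ _ => hf _)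
  · by_contra k
    exact hS.2.2.2 j' L _ lam _ (by positivity) lg.1 (fun z => (hf _).trans (not_le.1 k).le) h

/-- the deeper models -/
theorem hm {j j' N P i D L c : ℕ} {f : ℤ → ℝ} {x : ℤ} (hj : j' ≤ j) (hP : 9 ≤ P) (hi : 1 ≤ i)
    (hc : c ≤ i) (f0 : ∀ x, 0 ≤ f x)
    (hM : ∀ (L : ℕ) (f : ℤ → ℝ) (lam lam' m ε : ℝ) (x0 : ℤ), 1 ≤ L → (∀ x, 0 ≤ f x) →
      1 ≤ lam → 1 ≤ lam' → 0 < ε → ε ≤ 1 → c * lam * lam' ≤ m * ε ^ 2 →
      (∀ x : ℤ, 𝔼 v ∈ rg L, f (x + v) ≤ lam') → ¬ St j' L f lam m →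
      ∃ g : ℤ → ℝ, (∀ x, 0 ≤ g x ∧ g x ≤ 2 * lam) ∧ Mo j' L f g x0 ε)
    (hQ : ∀ i' > i, ¬ Gd j N P f (2 ^ i') i') (hD : 1 ≤ D) (lg : Lg N L (2 ^ (P * (i * i)))) :
    HM j' L (pf f x D) (2 ^ (P * i)) := by
  intro Z hZ x0
  have Z0 : 0 ≤ Z := le_trans (by positivity) hZ
  obtain ⟨n, n1, n2⟩ := exists_nat_pow_near (Real.one_le_exp Z0) (one_lt_two (α := ℝ))
  have n3 : 2 ^ (P * i) < n + 1 := by
    have a := two_pow_le_exp (2 ^ (P * i))
    push_cast at a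
    exact (pow_lt_pow_iff_right₀ (one_lt_two (α := ℝ))).1
      ((a.trans (Real.exp_le_exp.2 hZ)).trans_lt n2)
  have n4 : (i + 1) * (i + 1) ≤ 2 ^ (P * i) := by
    have a : i + 1 ≤ 2 ^ i := Nat.lt_two_pow_self
    calc _ ≤ 2 ^ i * 2 ^ i := Nat.mul_le_mul a a
      _ = 2 ^ (2 * i) := by ring
      _ ≤ _ := Nat.pow_le_pow_right two_pos (Nat.mul_le_mul_right _ (by omega))
  have n0 : 1 ≤ n := by nlinarith
  obtain ⟨n, rfl⟩ : ∃ m, n = m + 1 := ⟨n - 1, by omega⟩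
  have n5 : i * i ≤ n := by nlinarith
  have n6 : i < n := by nlinarith
  have lg' : Lg N L (2 ^ (P * n)) :=
    lg.mono (pow_le_pow_right₀ one_le_two (Nat.mul_le_mul_left _ n5))
  have q := hQ n n6
  have o : (1 : ℝ) ≤ 2 ^ n := one_le_pow₀ one_le_two
  obtain ⟨g, g1, g2⟩ := hM L (pf f x D) (2 ^ n) (2 ^ n) (2 ^ (P * n)) (Real.exp (-Z)) x0 lg.1
    (fun _ => f0 _) o o (Real.exp_pos _) (Real.exp_le_one_iff.2 (by linarith)) (by
      have a : (c : ℝ) ≤ 2 ^ n := by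
        exact_mod_cast (hc.trans n6.le).trans (Nat.lt_two_pow_self (n := n)).le
      have b : (2 : ℝ) ^ (9 * n) ≤ 2 ^ (P * n) :=
        pow_le_pow_right₀ one_le_two (Nat.mul_le_mul_right _ hP)
      have d : (16 : ℝ) ≤ (2 ^ n) ^ 4 := by
        have : (2 : ℝ) ^ 1 ≤ 2 ^ n := pow_le_pow_right₀ one_le_two (by omega)
        calc (16 : ℝ) = (2 ^ 1) ^ 4 := by norm_num
          _ ≤ _ := by gcongr
      have E := Real.exp_pos Z
      rw [Real.exp_neg, inv_pow, ← div_eq_mul_inv, le_div_iff₀ (by positivity)]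
      refine le_trans ?_ b
      rw [show (2 : ℝ) ^ (n + 1 + 1) = 4 * 2 ^ n by ring] at n2
      rw [mul_comm 9, pow_mul]
      generalize (2 : ℝ) ^ n = t at a d n2 o
      calc _ ≤ t * t * t * (4 * t) ^ 2 := by gcongr
        _ = 16 * t ^ 5 := by ring
        _ ≤ t ^ 4 * t ^ 5 := by gcongr
        _ = _ := by ring)
    (fun y => by
      by_contra k
      refine q ⟨x + D * y, D, L, hD, lg', Or.inl ((not_le.1 k).le.trans_eq ?_)⟩
      refine expect_congr rfl fun v _ => ?_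
      simp only [pf]
      congr 1
      ring)
    fun k => q ⟨x, D, L, hD, lg', Or.inr ⟨j', hj, k⟩⟩
  exact ⟨g, fun y => ⟨(g1 y).1, (g1 y).2.trans (by rw [← pow_succ']; exact n1)⟩, g2⟩

theorem inch (h1 : CNT) (h2 : DOWNH) (h3 : MOI) (hS : MS) : INCH := by
  intro j
  obtain ⟨η, η0, η1, P, i1, hP, h1⟩ := h1 j
  choose Cd h2 using h2
  choose Cm h3 using h3
  obtain ⟨i0, k1, k2, k3⟩ : ∃ i0, i1 ≤ i0 ∧ 1 ≤ i0 ∧ ∀ j' ≤ j, Cd j' + 1 ≤ i0 ∧ Cm j' ≤ i0 := by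
    refine ⟨i1 + 1 + ∑ a ∈ range (j + 1), (Cd a + Cm a), by omega, by omega, fun j' hj => ?_⟩
    have : Cd j' + Cm j' ≤ ∑ a ∈ range (j + 1), (Cd a + Cm a) :=
      single_le_sum (f := fun a => Cd a + Cm a) (fun _ _ => Nat.zero_le _)
        (mem_range.2 (Nat.lt_succ_of_le hj))
    omega
  obtain ⟨C1, h1⟩ := h1 i0 k1
  obtain ⟨m, hm'⟩ := pow_unbounded_of_one_lt (2 : ℝ) (by linarith : 1 < 1 + η)
  have m1 : 1 ≤ m := Nat.pos_of_ne_zero fun e => by rw [e] at hm'; norm_num at hm'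
  refine ⟨η, η0, m * i0 * (P * i0) + 1 + C1, fun X α N A hX hN hA hF hα hc => ?_⟩
  set a := m * i0 with ha
  have a1 : 1 ≤ a := Nat.mul_pos m1 k2
  have α0 : 0 < α := (Real.exp_pos _).trans_le hα
  have fb : ∀ x, 0 ≤ ind A α x ∧ ind A α x ≤ Real.exp X := fun x => by
    unfold ind
    split_ifs
    · refine ⟨by positivity, ?_⟩
      rw [div_le_iff₀ α0]
      have := mul_le_mul_of_nonneg_left hα (Real.exp_pos X).le
      rwa [← Real.exp_add, add_neg_cancel, Real.exp_zero] at this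
    · exact ⟨le_rfl, (Real.exp_pos _).le⟩
  have fin : ∀ (i : ℕ) (lam : ℝ), i0 ≤ i → 1 + η ≤ lam → lam ≤ 2 ^ i → 2 ^ i ≤ lam ^ a →
      Gd j N P (ind A α) lam i → (∀ i' > i, ¬ Gd j N P (ind A α) (2 ^ i') i') →
      ∃ (lam : ℝ) (L : ℕ) (A' : Finset ℤ), 1 + η ≤ lam ∧
        Lg N L (lam ^ (a * (P * i0) + 1 + C1)) ∧ A' ⊆ rg L ∧ APF (j + 3) A' ∧
        lam * α * L ≤ A'.card := by
    intro i lam hi l1 l2 l3 G hQ
    have l0 : 1 ≤ lam := by linarith
    have l4 := gd_le hS (fun x => (fb x).2) G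
    have μ1 : (1 : ℝ) ≤ 2 ^ (P * i) := one_le_pow₀ one_le_two
    have w : ((2 : ℝ) ^ (P * i)) ^ i0 ≤ lam ^ (a * (P * i0)) := by
      calc _ = ((2 : ℝ) ^ i) ^ (P * i0) := by rw [← pow_mul, ← pow_mul]; congr 1; ring
        _ ≤ (lam ^ a) ^ (P * i0) := by gcongr
        _ = _ := (pow_mul _ _ _).symm
    have w' : ((2 : ℝ) ^ (P * i)) ^ i0 ≤ lam ^ (a * (P * i0) + 1 + C1) :=
      w.trans (pw_le l0 (by omega))
    obtain ⟨x, D, L, hD, lg, h | ⟨j', hj, h⟩⟩ := G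
    · obtain ⟨A', b1, b2, b3⟩ := inc_of hF α0 lg.1 hD h
      exact ⟨lam, L, A', l1, lg.mono ((le_pw μ1 k2).trans w'), b1, b2, b3⟩
    · have i2 : (i : ℝ) ≤ 2 ^ (P * i) := by
        exact_mod_cast (Nat.le_mul_of_pos_left i (by omega : 0 < P)).trans
          (Nat.lt_two_pow_self (n := P * i)).le
      have t : (2 : ℝ) ^ (P * i) * (2 ^ (P * i)) ^ Cd j' ≤ (2 ^ (P * i)) ^ i0 := by
        rw [← pow_succ']
        exact pw_le μ1 (k3 j' hj).1
      obtain ⟨x', D', L', hD', lg', h'⟩ := h2 j' (2 ^ (P * i)) X lam L (pf (ind A α) x D)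
        (le_trans (by exact_mod_cast (by have := (k3 j' hj).1; omega : Cd j' ≤ i)) i2) hX (by
          refine le_of_mul_le_mul_left (le_trans ?_ (hN.trans lg.2)) (by positivity)
          rw [← mul_assoc]
          calc _ ≤ Real.exp X ^ (a * (P * i0)) * Real.exp X :=
                mul_le_mul ((t.trans w).trans (by gcongr)) (Real.add_one_le_exp X) (by linarith)
                  (by positivity)
            _ ≤ _ := by
              rw [← pow_succ, ← Real.exp_nat_mul]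
              refine Real.exp_le_exp.2 (mul_le_mul (by exact_mod_cast Nat.le_add_right _ _)
                (by linarith) hX (by positivity)))
        (fun _ => fb _) l0
        (l2.trans (pow_le_pow_right₀ one_le_two (Nat.le_mul_of_pos_left i (by omega)))) l4
        (fun j'' hj' x' D' L' hD' lg' => by
          rw [pf_pf]
          refine hm (hj'.trans hj) hP (k2.trans hi) ((k3 j'' (hj'.trans hj)).2.trans hi)
            (fun x => (fb x).1) (h3 j'') hQ (Nat.mul_pos hD hD')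
            ((lg.trans lg' (by positivity)).mono (t.trans ?_))
          rw [← mul_assoc, pow_mul _ (P * i) i]
          exact pw_le μ1 hi) h
      have e : ∀ v : ℤ, pf (ind A α) x D (x' + D' * v) =
          ind A α (x + D * x' + ((D * D' : ℕ) : ℤ) * v) := fun v =>
        congrFun (pf_pf (ind A α) x x' D D') v
      simp only [e] at h'
      obtain ⟨A', b1, b2, b3⟩ := inc_of hF α0 lg'.1 (Nat.mul_pos hD hD') h'
      exact ⟨lam, L', A', l1, (lg.trans lg' (by positivity)).mono (t.trans w'), b1, b2, b3⟩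
  have ex : ∃ n, ∀ i' > i0 + n, ¬ Gd j N P (ind A α) (2 ^ i') i' := by
    refine ⟨⌈Real.exp X⌉₊, fun i' hi G => ?_⟩
    have b1 := (gd_le hS (fun x => (fb x).2) G).trans (Nat.le_ceil _)
    have b2 : 2 ^ i' ≤ ⌈Real.exp X⌉₊ := by exact_mod_cast b1
    have b3 : i' < 2 ^ i' := Nat.lt_two_pow_self
    omega
  classical
  have q := Nat.find_spec ex
  rcases hn : Nat.find ex with _ | n
  · rw [hn, add_zero] at q
    have two : ∀ i, 1 ≤ i → (2 : ℝ) ≤ 2 ^ (P * i) := fun i hi =>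
      le_pw one_le_two (Nat.mul_pos (by omega) hi)
    have p1 : pf (ind A α) 0 1 = ind A α := by
      funext z
      simp [pf]
    obtain ⟨L, lg, H⟩ := h1 X α N A hX (le_trans (by
      have b := Real.add_one_le_exp (((a * (P * i0) + 1 + C1 : ℕ) : ℝ) * (X + 1))
      have b2 : (C1 : ℝ) * (X + 1) ≤ ((a * (P * i0) + 1 + C1 : ℕ) : ℝ) * (X + 1) :=
        mul_le_mul_of_nonneg_right (by exact_mod_cast Nat.le_add_left _ _) (by linarith)
      linarith) hN) hA hF hα hc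
    refine fin i0 (1 + η) le_rfl le_rfl (le_trans (by linarith) (le_pw one_le_two k2))
      (by rw [ha, pow_mul]; gcongr) ?_ q
    obtain ⟨x, H⟩ | H | ⟨i, hi, H⟩ := H
    · exact ⟨x, 1, L, le_rfl, lg.mono (two _ k2), Or.inl (by simpa using H)⟩
    · exact ⟨0, 1, L, le_rfl, lg.mono (two _ k2), Or.inr ⟨j, le_rfl, by rwa [p1]⟩⟩
    · exact absurd ⟨0, 1, L, le_rfl, lg.mono (two _ (by omega)),
        Or.inr ⟨j, le_rfl, by rwa [p1]⟩⟩ (q i hi)
  · have q' := Nat.find_min ex (show n < Nat.find ex by omega)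
    rw [hn] at q
    simp only [not_forall, not_not] at q'
    obtain ⟨i, hi, G⟩ := q'
    obtain rfl : i = i0 + (n + 1) := by
      by_contra k
      exact q i (by omega) G
    have o : (2 : ℝ) ≤ 2 ^ (i0 + (n + 1)) := le_pw one_le_two (by omega)
    exact fin _ _ (by omega) (by linarith) le_rfl (le_pw (by linarith) a1) G q

end Vale.Agent.P057H.H98
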