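import Vale.Agent.P057H.Defs
import Vale.Agent.P057L.Step

/-! The step, from its blocks. -/

set_option linter.all false

open Finset
open scoped BigOperators Classical

namespace Vale.Agent.P057H.H66

open Vale.Agent.P057Z Vale.Agent.P057L

variable {j : ℕ}

theorem sm_mono {Q r : ℕ} [Fact Q.Prime] {Y Y' : ℝ} {L T : ℕ} {ρ : ℝ} {f : ℤ → ℝ} {lam μ : ℝ}
    {x0 : ℤ} {Λ1 Λ2 : Type} {Ω : Finset (Pt j 1 × ℤ)} {B : Pt j 1 → ℤ → Λ1}
    {Υ : Finset (Fin j) → ℤ → Λ2} {F : Λ1 → (Finset (Fin j) → Λ2) → Prop}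
    {ξ γ : Pt j 1 → Fin r → ZMod Q} {x : Pt j 1 → ℤ}
    (h : Sm1 Y L T ρ f lam μ x0 Ω B Υ F ξ γ x) (hY : Y ≤ Y') :
    Sm1 Y' L T ρ f lam μ x0 Ω B Υ F ξ γ x :=
  ⟨h.hr.trans hY, (Real.exp_le_exp.2 (by linarith)).trans h.hρ, h.hρ1, h.hT, h.hTN,
    h.hNT.trans (by gcongr), h.hNQ, h.hQN.trans (by gcongr), h.sub,
    ex_mono h.den (by positivity) hY, h.hx,
    fun W => (Real.exp_le_exp.2 (by linarith)).trans (h.hZ W), h.ex⟩

theorem rg_ne {L : ℕ} (h : 1 ≤ L) : (rg L).Nonempty := ⟨0, by unfold rg; rw [mem_Ico]; omega⟩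

theorem gg_mean {Λ : Type} {f : ℤ → ℝ} {lam : ℝ} (z : ℤ) (Υ : Finset (Fin j) → ℤ → Λ)
    (F : (Finset (Fin j) → Λ) → Prop) (W : Pt j 1) (hf : ∀ x, 0 ≤ f x) (hl : 0 ≤ lam) {L : ℕ}
    (hL : 1 ≤ L) (o : ℤ) (D : ℕ) (h : 𝔼 v ∈ rg L, f (z + ss univ W + o + D * v) ≤ lam) :
    𝔼 v ∈ rg L, GG f lam z Υ F W (o + D * v) ≤ 2 * lam := by
  calc _ ≤ 𝔼 v ∈ rg L, (f (z + ss univ W + o + D * v) + lam) := by
        refine expect_le_expect fun v _ => ?_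
        unfold GG
        split_ifs
        · rw [← add_assoc]; linarith
        · linarith [hf (z + ss univ W + o + D * v)]
    _ ≤ _ := by rw [expect_add_distrib, expect_const (rg_ne hL)]; linarith

theorem ss_lc (S : Finset (Fin j)) (W w : Pt j 1) (d : ℕ) :
    ss S (lc W d w) = ss S W + d * ss S w := by
  simp [ss, lc, sum_add_distrib, mul_sum]

theorem err_num {E T L c Y : ℝ} {j : ℕ} (hE : 0 ≤ c) (hT : 0 < T) (hL : 0 ≤ L) (hY : 2 ≤ Y)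
    (hc : c ≤ Real.exp Y) (hLT : L ≤ T * Real.exp Y)
    (h : E * T ≤ 4 * c * Real.exp (-Y ^ 4) * L ^ (j + 1)) :
    E ≤ Real.exp (-Y ^ 3) * L ^ (j * 1) := by
  rw [mul_one]
  refine le_of_mul_le_mul_right (h.trans ?_) hT
  have h4 : (4 : ℝ) ≤ Real.exp 2 := by
    have := two_pow_le_exp 2; norm_num at this ⊢; exact this
  have h5 : Real.exp 2 * Real.exp Y * Real.exp (-Y ^ 4) * Real.exp Y ≤ Real.exp (-Y ^ 3) := by
    rw [← Real.exp_add, ← Real.exp_add, ← Real.exp_add]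
    refine Real.exp_le_exp.2 ?_
    have a1 : 4 * Y ≤ Y ^ 3 := by nlinarith [mul_nonneg (by linarith : 0 ≤ Y - 2) (sq_nonneg Y)]
    have a2 : 2 * Y ^ 3 ≤ Y ^ 4 := mul_pw_le (by linarith) hY 3
    linarith
  calc _ ≤ Real.exp 2 * Real.exp Y * Real.exp (-Y ^ 4) * (L ^ j * (T * Real.exp Y)) := by
        rw [pow_succ L]; gcongr
    _ = (Real.exp 2 * Real.exp Y * Real.exp (-Y ^ 4) * Real.exp Y) * (L ^ j * T) := by ring
    _ ≤ Real.exp (-Y ^ 3) * (L ^ j * T) := by gcongr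
    _ = _ := by ring

theorem gain_num {μ lam Y P : ℝ} (hμ : 16 ≤ μ) (hl : lam ≤ μ) (hl0 : 0 ≤ lam) (hY : μ ^ 2 ≤ Y)
    (hP : μ ^ 2 ≤ P) : 1 / P ≤ (1 - 2 * Real.exp (-Y)) * (lam + 1 / (8 * μ)) - lam := by
  have h0 : 0 < μ := by linarith
  have h1 : 1 / P ≤ 1 / (16 * μ) := one_div_le_one_div_of_le (by positivity) (by nlinarith)
  have h2 : Y ^ 2 / 2 ≤ Real.exp Y := by
    have := Real.quadratic_le_exp_of_nonneg (x := Y) (by nlinarith)
    nlinarith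
  have h3 : 64 * μ ^ 2 ≤ Real.exp Y := by
    have : (256 : ℝ) ≤ μ ^ 2 := by nlinarith
    nlinarith
  have h4 : Real.exp (-Y) ≤ 1 / (64 * μ ^ 2) := by
    rw [Real.exp_neg, ← one_div]; exact one_div_le_one_div_of_le (by positivity) h3
  have h5 : 1 / (8 * μ) ≤ μ := by rw [div_le_iff₀ (by positivity)]; nlinarith
  have h6 : Real.exp (-Y) * (lam + 1 / (8 * μ)) ≤ 1 / (64 * μ ^ 2) * (2 * μ) :=
    mul_le_mul h4 (by linarith) (by positivity) (by positivity)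
  have h7 : 1 / (64 * μ ^ 2) * (2 * μ) = 1 / (32 * μ) := by field_simp; norm_num
  have h8 : 1 / (8 * μ) = 2 * (1 / (16 * μ)) := by field_simp; norm_num
  have h9 : 1 / (16 * μ) = 2 * (1 / (32 * μ)) := by field_simp; norm_num
  nlinarith

theorem steph (hA : SMA) (hB : SMB) (hG : GFH) (hU : UNIF) (hD : DROPH) (hV : VEC)
    (hK : ∀ j, KH j 1) (hC : CSTH) : STEPH := by
  intro j
  obtain ⟨C1, hA⟩ := hA j
  obtain ⟨C2, hB⟩ := hB j
  obtain ⟨C3, hD⟩ := hD j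
  obtain ⟨C4, hV⟩ := hV j
  obtain ⟨C5, hK⟩ := hK j
  obtain ⟨C6, hC⟩ := hC j
  obtain ⟨a, ha⟩ : ∃ a, a = C1 + 1 := ⟨_, rfl⟩
  obtain ⟨a1, ha1⟩ : ∃ u, u = a * C2 := ⟨_, rfl⟩
  obtain ⟨a2, ha2⟩ : ∃ u, u = a1 + a + 2 := ⟨_, rfl⟩
  obtain ⟨a3, ha3⟩ : ∃ u, u = a2 * 4 := ⟨_, rfl⟩
  obtain ⟨u1, hu1⟩ : ∃ u, u = a2 * C3 := ⟨_, rfl⟩
  obtain ⟨u2, hu2⟩ : ∃ u, u = a3 * C3 := ⟨_, rfl⟩
  obtain ⟨u3, hu3⟩ : ∃ u, u = (u2 + a2) * C4 := ⟨_, rfl⟩
  obtain ⟨u4, hu4⟩ : ∃ u, u = (u3 + a2) * C5 := ⟨_, rfl⟩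
  obtain ⟨u5, hu5⟩ : ∃ u, u = (u4 + u2 + a2) * C6 := ⟨_, rfl⟩
  obtain ⟨C, hCe⟩ : ∃ C, C = C1 + C2 + C3 + C4 + C5 + C6 + u1 + u4 + u5 + a2 + 2 ^ j + 16 :=
    ⟨_, rfl⟩
  refine ⟨C, ?_⟩
  intro μ X lam L f hY' hX hN hf hl1 hlμ hlX hNo hM hSt
  have p0 : 1 ≤ 2 ^ j := Nat.one_le_two_pow
  have cc : ∀ {c : ℕ}, c ≤ C → (c : ℝ) ≤ μ := fun h => le_trans (by exact_mod_cast h) hY'
  have hμ : (16 : ℝ) ≤ μ := by exact_mod_cast cc (c := 16) (by omega)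
  have hY : 2 ≤ μ := by linarith
  have hY1 : 1 ≤ μ := by linarith
  have hY0 : 0 ≤ μ := by linarith
  have hN' : μ ^ C ≤ Real.log L := le_trans (le_mul_of_one_le_right (by positivity) (by linarith)) hN
  have hN1 : 1 ≤ L := one_le_of_log (by positivity) hN'
  have up : ∀ {x : ℝ} {n : ℕ}, 1 ≤ n → x ≤ μ → x ≤ μ ^ n := fun h hx => hx.trans (le_pw hY1 h)
  have hf0 : ∀ x, 0 ≤ f x := fun x => (hf x).1
  have hl0 : 0 ≤ lam := by linarith
  have ex1 : ∀ {x y : ℝ}, x ≤ y → x ≤ Real.exp y := fun {x y} h => by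
    linarith [Real.add_one_le_exp y]
  have h2μ : 2 * μ ≤ μ ^ 2 := by nlinarith
  obtain ⟨x0, Λ1, Λ2, i1, i2, Ω, B, Υ, F, hS⟩ := hSt
  obtain ⟨T, Q, r, hQ, ρ, Ω', ξ, γ, x, h0⟩ := hA μ lam L f x0 Λ1 Λ2 Ω B Υ F (cc (by omega))
    ((pw_le hY1 (by omega)).trans hN') hf0 hl1 hlμ
    (fun x => by
      have := hNo x 1 L le_rfl ⟨hN1, le_mul_of_one_le_left (Real.log_natCast_nonneg L)
        (one_le_pow₀ hY1)⟩
      simpa using this) hM hS
  have hLT : Lg L T (μ ^ C) := lg_of_le hN1 h0.hT (up (by omega) hY)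
    ((mul_pw_le hY0 hY C1).trans ((pw_le hY1 (by omega)).trans hN')) h0.hNT
  obtain ⟨z, l, Ω1, h1⟩ := hB (μ ^ a) μ lam L T Q r ρ f x0 Λ1 Λ2 Ω' B Υ F ξ γ x
    (up (by omega) (cc (by omega))) hY1 (up (by omega) le_rfl) hf0 hl0 (up (by omega) hlμ)
    (hS.c1.trans (Real.exp_le_exp.2 (up (by omega) le_rfl)))
    (fun x => by simpa using hNo x 1 T le_rfl hLT) (sm_mono h0 (pw_le hY1 (by omega)))
  rw [← pow_mul, ← ha1] at h1
  have h1' := h1.mono (pw_le hY1 (by omega : a1 ≤ a2))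
  obtain ⟨g, hg, hMo⟩ := hM (μ ^ a3) (up (by omega) le_rfl) (x0 + z)
  obtain ⟨G1, hF, hG1⟩ := hG j Λ2 g lam (Real.exp (μ ^ a3)) (x0 + z) (fun S s => Υ S (z + s)) (F l)
    (Real.one_le_exp (by positivity)) hg hl0 (ex1 (up (by omega) hlμ))
  have hc : (Fintype.card Λ2 : ℝ) ^ 2 ^ j ≤ Real.exp (μ ^ a2) := by
    refine (pow_le_pow_left₀ (by positivity) hS.c2 _).trans ?_
    rw [← Real.exp_nat_mul]
    refine Real.exp_le_exp.2 (le_trans ?_ (pw_le hY1 (by omega : 2 ≤ a2)))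
    rw [sq]; exact mul_le_mul_of_nonneg_right (cc (by omega)) hY0
  have h8 : 1 / (8 * μ) ≤ μ := by rw [div_le_iff₀ (by positivity)]; nlinarith
  have hθ0 : 0 ≤ lam + 1 / (8 * μ) := by positivity
  have hθ : lam + 1 / (8 * μ) ≤ μ ^ 2 := by linarith
  have hGb : ∀ W s, 0 ≤ GG f lam (x0 + z) (fun S s => Υ S (z + s)) (F l) W s ∧
      GG f lam (x0 + z) (fun S s => Υ S (z + s)) (F l) W s ≤ Real.exp X := fun W s => by
    unfold GG; split_ifs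
    · exact hf _
    · exact ⟨hl0, hlX⟩
  obtain ⟨t, K0, b, Ψ, Ω2, h2, hpr⟩ := hD (μ ^ a2) (μ ^ a3) 1 L T Q r ρ _ (Finset (Fin j) → Λ2) _ G1
    ξ γ Ω1 (up (by omega) (cc (by omega))) (pw_le hY1 (by omega))
    (up (by omega) (by simpa using hY1))
    (by rw [← pow_mul, ← hu1]; exact (pw_le hY1 (by omega)).trans hN') (fun W s => (hGb W s).1)
    (fun W => by
      have := gg_mean (x0 + z) (fun S s => Υ S (z + s)) (F l) W hf0 hl0 h0.hT 0 1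
        (hNo _ 1 T le_rfl hLT)
      simp only [Nat.cast_one, one_mul, zero_add] at this
      exact ex1 (this.trans (le_trans (by linarith) (pw_le hY1 (by omega : 2 ≤ a2)))))
    hθ0 (ex1 (hθ.trans (pw_le hY1 (by omega))))
    (by
      rw [Fintype.card_fun, Fintype.card_finset, Fintype.card_fin]; push_cast
      exact hc.trans (Real.exp_le_exp.2 (pw_le hY1 (by omega)))) hF
    (fun i U u ψ hU' hu => by
      have := hU j L T Q Λ2 f g lam _ (x0 + z) (fun S s => Υ S (z + s)) (F l) i U u ψ h0.hT h0.hTN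
        (fun _ _ => hS.tc _ _) hMo hU' hu
      simp only [hG1] at this
      rw [ha3, pow_mul] at this
      exact err_num (by positivity) (by exact_mod_cast h0.hT) (by positivity)
        (up (by omega) hY) hc h1'.hNT this) h1'
  rw [← pow_mul, ← hu2] at h2
  obtain ⟨E, hE, hED, hEM⟩ := hV (μ ^ (u2 + a2)) 1 L Q (Fin t) _ Ω2 (up (by omega) (cc (by omega)))
    le_rfl (up (by omega) (by simpa using hY1)) hN1 (h2.hd.mono (pw_le hY1 (by omega))) hpr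
  rw [← pow_mul, ← hu3] at hED
  have hNQ := h1.hNQ
  obtain ⟨W0, d, L1, Ω3, hd1, hdL, hL, hΩ3, hD', hk⟩ := hK (μ ^ (u3 + a2)) 1 L Q (Fin t) _ E
    (up (by omega) (cc (by omega))) le_rfl (up (by omega) (by simpa using hY1))
    (by
      rw [Fintype.card_fin]
      exact le_trans (by exact_mod_cast h2.ht) (h1'.hr.trans (pw_le hY1 (by omega))))
    (by rw [← pow_mul, ← hu4]; exact (pw_le hY1 (by omega)).trans hN') (by omega)
    (hED.mono (pw_le hY1 (by omega))) hEM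
  rw [← pow_mul, ← hu4] at hL hD'
  have hlg : ∀ {L' : ℕ}, Lg L1 L' 2 → Lg L L' (μ ^ C) := fun h =>
    (hL.trans h (by positivity)).mono (by
      rw [mul_comm]; exact (mul_pw_le hY0 hY u4).trans (pw_le hY1 (by omega)))
  have he : Real.exp (-μ ^ a2) ≤ 1 / 2 := by
    rw [Real.exp_neg, ← one_div]
    exact one_div_le_one_div_of_le two_pos (ex1 (up (by omega) hY))
  have he0 := Real.exp_pos (-μ ^ a2)
  obtain ⟨o, W1, d', L', Ω5, hd', hL', hD5, h5⟩ := hC (μ ^ (u4 + u2 + a2)) X 1 L T Q r t K0 d L1 ρ _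
    _ ξ γ b Ψ Ω2 Ω3 W0 (up (by omega) (cc (by omega))) hX (up (by omega) (by simpa using hY1))
    (h1'.hr.trans (pw_le hY1 (by omega)))
    (by
      rw [← pow_mul, ← hu5]
      refine le_of_mul_le_mul_left (le_trans ?_ (hN.trans hL.2)) (by positivity)
      rw [← mul_assoc, ← pow_add]
      exact mul_le_mul_of_nonneg_right (pw_le hY1 (by omega)) (by linarith))
    ((Real.exp_le_exp.2 (neg_le_neg (pw_le hY1 (by omega)))).trans h1'.hρ) h1.hT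
    (h1'.hNT.trans (by gcongr; omega)) hGb
    (fun W o D L' hD1 hL' => ex1 ((gg_mean (x0 + z) (fun S s => Υ S (z + s)) (F l) W hf0 hl0 hL'.1 o D
      (hNo _ D L' hD1 (hlg hL'))).trans (le_trans (by linarith) (pw_le hY1 (by omega : 2 ≤ _)))))
    (mul_nonneg (by linarith) hθ0)
    (ex1 (le_trans (by nlinarith) (hθ.trans (pw_le hY1 (by omega)))))
    (h2.mono (pw_le hY1 (by omega))) hd1 hdL
    (fun w hw => mem_pre.2 ⟨(mem_pre.1 (hΩ3 hw)).1, hE (mem_pre.1 (hΩ3 hw)).2⟩)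
    (hD'.mono (pw_le hY1 (by omega))) (fun w hw a => by simpa using hk w hw a)
  rw [← pow_mul, ← hu5] at hD5
  refine ⟨x0 + z + ss univ W1 + o, d', L', hd', hlg hL', 0, Λ2, i2, Ω5,
    fun S s => Υ S (z + (ss S W1 + o + d' * s)), F l,
    hS.c2.trans (Real.exp_le_exp.2 (up (by omega) le_rfl)), fun _ _ => hS.tc _ _,
    hD5.mono (pw_le hY1 (by omega)), fun w hw => ?_⟩
  refine (gain_num hμ hlμ hl0 (pw_le hY1 (by omega : 2 ≤ a2)) (pw_le hY1 (by omega))).trans ?_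
  refine (sub_le_sub_right (h5 w hw) lam).trans (le_of_eq ?_)
  rw [← expect_const (rg_ne hL'.1) lam, ← expect_sub_distrib, expect_const (rg_ne hL'.1) lam]
  refine expect_congr rfl fun v _ => ?_
  have e : lb (fun S s => Υ S (z + s)) (lc W1 d' w) (o + d' * v) =
      lb (fun S s => Υ S (z + (ss S W1 + o + d' * s))) w v := by
    funext S; simp only [lb, ss_lc]; congr 1; ring
  unfold GG
  rw [e]
  split_ifs
  · simp only [pf, ss_lc]; congr 2; ring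
  · simp

end Vale.Agent.P057H.H66
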