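import Vale.Agent.P057H.Defs

/-! Telescoping the count of progressions. -/

set_option linter.all false

open Finset
open scoped BigOperators Classical

namespace Vale.Agent.P057H

open Vale.Agent.P057Z Vale.Agent.P057L

namespace Tel

theorem nc_div {j M : ℕ} [NeZero M] {h : ZMod M → ℝ} {ε B : ℝ} (hB : 1 ≤ B) (H : Nc j M h ε) :
    Nc j M (fun x => h x / B) ε := by
  intro a b K ha hb hK
  have B0 : 0 < B := by linarith
  have h1 := H (fun W y => a W y / B) b K (fun W y => by
    rw [abs_div, abs_of_pos B0, div_le_one B0]
    exact (ha W y).trans hB) hb hK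
  refine le_of_eq_of_le ?_ h1
  refine congrArg _ (expect_congr rfl fun ω _ => ?_)
  ring

theorem apc_div {k M : ℕ} [NeZero M] (h : Fin k → ZMod M → ℝ) {B : ℝ} (hB : B ≠ 0) :
    apc k M h = B ^ k * apc k M (fun l x => h l x / B) := by
  unfold apc
  rw [mul_expect]
  refine expect_congr rfl fun x _ => ?_
  rw [mul_expect]
  refine expect_congr rfl fun d _ => ?_
  rw [prod_div_distrib, prod_const, card_univ, Fintype.card_fin,
    mul_div_cancel₀ _ (pow_ne_zero _ hB)]

theorem one (hG : GVN) {j M : ℕ} [Fact M.Prime] (h : Fin (j + 3) → ZMod M → ℝ) (i : Fin (j + 3))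
    {B ε τ : ℝ} (hM : j + 3 ≤ M) (hB : 1 ≤ B) (hτ : 0 ≤ τ) (hh : ∀ l x, |h l x| ≤ B)
    (hN : Nc j M (h i) ε) (hε : ε ≤ τ ^ 2 ^ j) : |apc (j + 3) M h| ≤ B ^ (j + 3) * τ := by
  have B0 : 0 < B := by linarith
  have h1 := hG j M (fun l x => h l x / B) i ε hM (fun l x => by
    rw [abs_div, abs_of_pos B0, div_le_one B0]
    exact hh l x) (nc_div hB hN)
  rw [apc_div h B0.ne', abs_mul, abs_of_pos (pow_pos B0 _)]
  refine mul_le_mul_of_nonneg_left ?_ (pow_pos B0 _).le
  exact le_of_pow_le_pow_left₀ (pow_ne_zero j two_ne_zero) hτ (h1.trans hε)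

theorem prod_upd {k M : ℕ} (h : Fin k → ZMod M → ℝ) (i : Fin k) (u : ZMod M → ℝ)
    (p : Fin k → ZMod M) :
    ∏ l, Function.update h i u l (p l) = u (p i) * ∏ l ∈ univ.erase i, h l (p l) := by
  rw [← mul_prod_erase univ _ (mem_univ i), Function.update_self]
  refine congrArg _ (prod_congr rfl fun l hl => ?_)
  rw [Function.update_of_ne (ne_of_mem_erase hl)]

theorem apc_upd {k M : ℕ} [NeZero M] (h : Fin k → ZMod M → ℝ) (i : Fin k) (u u' : ZMod M → ℝ) :
    apc k M (Function.update h i u) - apc k M (Function.update h i u') =
      apc k M (Function.update h i fun x => u x - u' x) := by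
  unfold apc
  rw [← expect_sub_distrib]
  refine expect_congr rfl fun x _ => ?_
  rw [← expect_sub_distrib]
  refine expect_congr rfl fun d _ => ?_
  rw [prod_upd h i u fun l => x + ((l : ℕ) : ZMod M) * d,
    prod_upd h i u' fun l => x + ((l : ℕ) : ZMod M) * d,
    prod_upd h i _ fun l => x + ((l : ℕ) : ZMod M) * d, sub_mul]

end Tel

theorem tel (hG : GVN) : TEL := by
  intro j M _ g g' B ε τ hM hB hτ hg hg' hN hε
  have key : ∀ S : Finset (Fin (j + 3)),
      |apc (j + 3) M (fun l => if l ∈ S then g' else g) - apc (j + 3) M (fun _ => g)| ≤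
        S.card * (B ^ (j + 3) * τ) := by
    intro S
    induction S using Finset.induction_on with
    | empty => simp
    | insert i S hi ih =>
      have e1 : (fun l => if l ∈ insert i S then g' else g) =
          Function.update (fun l => if l ∈ S then g' else g) i g' := by
        funext l
        by_cases hl : l = i
        · subst hl
          rw [Function.update_self, if_pos (mem_insert_self _ _)]
        · rw [Function.update_of_ne hl]
          simp only [mem_insert, hl, false_or]
      have e2 : (fun l => if l ∈ S then g' else g) =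
          Function.update (fun l => if l ∈ S then g' else g) i g := by
        funext l
        by_cases hl : l = i
        · subst hl
          rw [Function.update_self, if_neg hi]
        · rw [Function.update_of_ne hl]
      have h1 := Tel.one hG (Function.update (fun l => if l ∈ S then g' else g) i
        fun x => g' x - g x) i hM hB hτ (fun l x => by
          have a1 := hg x
          have a2 := hg' x
          by_cases hl : l = i
          · subst hl
            rw [Function.update_self, abs_le]
            constructor <;> linarith [a1.1, a1.2, a2.1, a2.2]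
          · rw [Function.update_of_ne hl]
            split_ifs
            · rw [abs_of_nonneg a2.1]; exact a2.2
            · rw [abs_of_nonneg a1.1]; exact a1.2) (by rw [Function.update_self]; exact hN) hε
      rw [← Tel.apc_upd, ← e1, ← e2] at h1
      rw [card_insert_of_notMem hi]
      push_cast
      have h2 := abs_sub_le (apc (j + 3) M fun l => if l ∈ insert i S then g' else g)
        (apc (j + 3) M fun l => if l ∈ S then g' else g) (apc (j + 3) M fun _ => g)
      linarith
  have h := key univ
  simp only [mem_univ, if_true, card_univ, Fintype.card_fin] at h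
  push_cast at h
  rw [mul_assoc]
  exact h

end Vale.Agent.P057H
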