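import Vale.Agent.P057H.Defs
import Vale.Agent.P057L.Bas

/-! From the cyclic group to a box. -/

set_option linter.all false

open Finset
open scoped BigOperators Classical

namespace Vale.Agent.P057H.H18

open Vale.Agent.P057Z Vale.Agent.P057L

/-- the reduction of a point -/
def cw {j : ℕ} (M : ℕ) (p : Pt j 1 × ℤ) (v : ℤ) : Oc j M :=
  (fun i => ((p.1 i 0 : ℤ) : ZMod M), (p.2 : ZMod M), (v : ZMod M))

theorem sc_add {j M : ℕ} (S : Finset (Fin j)) (ω : Oc j M) (p : Pt j 1 × ℤ) (v : ℤ) :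
    sc S (ω + cw M p v) = sc S ω + ((ss S p.1 + (p.2 + v) : ℤ) : ZMod M) := by
  simp only [sc, cw, ss, Prod.fst_add, Prod.snd_add, Pi.add_apply, sum_add_distrib]
  push_cast
  ring

theorem lift (M M0 K : ℕ) [NeZero M] (f : ℤ → ℝ) (x0 : ℤ) (hf : ∀ x, 0 ≤ f x) (h : M0 + K ≤ M)
    (s : ZMod M) : ∃ x1 : ℤ, ∀ t : ℤ, 0 ≤ t → t < K → per f x0 M0 M (s + t) ≤ f (x1 + t) := by
  have hs := ZMod.val_lt s
  have key : ∀ t : ℤ, (((s + t).val : ℕ) : ℤ) = (s.val + t) % M := by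
    intro t
    have : s + t = ((s.val + t : ℤ) : ZMod M) := by push_cast; simp
    rw [this, ZMod.val_intCast]
  by_cases h0 : s.val < M0
  · refine ⟨x0 + s.val, fun t h1 h2 => ?_⟩
    have e := key t
    rw [Int.emod_eq_of_lt (by omega) (by omega)] at e
    unfold per
    split_ifs
    · rw [e, add_assoc]
    · exact hf _
  · refine ⟨x0 + s.val - M, fun t h1 h2 => ?_⟩
    have e := key t
    unfold per
    split_ifs with h3
    · by_cases h4 : (s.val : ℤ) + t < M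
      · rw [Int.emod_eq_of_lt (by omega) h4] at e
        omega
      · rw [← Int.sub_emod_right, Int.emod_eq_of_lt (by omega) (by omega)] at e
        rw [e]
        exact le_of_eq (congrArg f (by ring))
    · exact hf _

theorem rng {j L : ℕ} {p : Pt j 1 × ℤ} (hp : p ∈ bp j 1 L ×ˢ rg L) {v : ℤ} (hv : v ∈ rg L) :
    0 ≤ ss univ p.1 + (p.2 + v) ∧ ss univ p.1 + (p.2 + v) < (((j + 2) * L : ℕ) : ℤ) := by
  obtain ⟨h1, h2⟩ := mem_product.1 hp
  simp only [bp, bz, rg, Fintype.mem_piFinset, mem_Ico] at h1 h2 hv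
  have a1 : 0 ≤ ss univ p.1 := sum_nonneg fun i _ => (h1 i 0).1
  have a2 : ss univ p.1 ≤ j * L := by
    have := sum_le_card_nsmul (univ : Finset (Fin j)) (fun i => p.1 i 0) (L : ℤ)
      fun i _ => (h1 i 0).2.le
    simpa [ss] using this
  push_cast
  constructor <;> nlinarith [h2.1, h2.2, hv.1, hv.2]

theorem pop {α β : Type} [Fintype β] [Nonempty β] (X : Finset α) (hX : X.Nonempty) (e : α → ℝ)
    (l : α → β) {a δ B : ℝ} (ha : 0 < a) (hB : 0 < B) (h2 : 2 * a ≤ δ) (he : ∀ p ∈ X, e p ≤ B)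
    (h : δ ≤ 𝔼 p ∈ X, e p) :
    ∃ b, a * X.card ≤ B * Fintype.card β * (X.filter fun p => a ≤ e p ∧ l p = b).card := by
  have hc : (0 : ℝ) < X.card := by exact_mod_cast hX.card_pos
  rw [expect_eq_sum_div_card, le_div_iff₀ hc] at h
  have h1 : ∑ p ∈ X, e p ≤ ∑ p ∈ X, (a + if a ≤ e p then B else 0) := by
    refine sum_le_sum fun p hp => ?_
    split_ifs with h3
    · linarith [he p hp]
    · linarith
  rw [sum_add_distrib, sum_const, ← sum_filter, sum_const, nsmul_eq_mul, nsmul_eq_mul] at h1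
  have h4 : (X.filter fun p => a ≤ e p).card =
      ∑ b : β, (X.filter fun p => a ≤ e p ∧ l p = b).card := by
    rw [card_eq_sum_card_fiberwise (f := l) (t := univ) (fun _ _ => by simp)]
    simp only [filter_filter]
  by_contra hn
  push Not at hn
  have h5 : ∑ b : β, B * Fintype.card β * ((X.filter fun p => a ≤ e p ∧ l p = b).card : ℝ) <
      ∑ b : β, a * X.card := sum_lt_sum_of_nonempty univ_nonempty fun b _ => hn b
  rw [← mul_sum, sum_const, card_univ, nsmul_eq_mul, ← Nat.cast_sum, ← h4] at h5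
  have hb : (0 : ℝ) < Fintype.card β := by exact_mod_cast Fintype.card_pos
  have h6 : a * X.card ≤ B * (X.filter fun p => a ≤ e p).card := by nlinarith
  nlinarith [mul_le_mul_of_nonneg_left h6 hb.le]

theorem pop' {α β : Type} [Fintype β] [Nonempty β] (X : Finset α) (hX : X.Nonempty) (e : α → ℝ)
    (l : α → β) {a δ B : ℝ} (ha : 0 < a) (hB : 0 < B) (h2 : 2 * a ≤ δ) (he : ∀ p ∈ X, e p ≤ B)
    (h : δ ≤ 𝔼 p ∈ X, e p) :
    ∃ b, ∃ Z ⊆ X, (∀ p ∈ Z, a ≤ e p ∧ l p = b) ∧ a * X.card ≤ B * Fintype.card β * Z.card := by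
  obtain ⟨b, hb⟩ := pop X hX e l ha hB h2 he h
  exact ⟨b, _, filter_subset _ _, fun p hp => (mem_filter.1 hp).2, hb⟩

theorem wnd : WND := by
  intro j M M0 L n _ f x0 lam lam' δ m hL hM hf hl hl' hm hP hδ hn ⟨A, B, Υ, F, hT, hV⟩
  have hr : (rg L).Nonempty := ⟨0, by simp [rg]; omega⟩
  have hcard : ((bp j 1 L ×ˢ rg L).card : ℝ) = (L : ℝ) ^ (j + 1) := by
    rw [card_product, bas.2.1]
    simp [rg, pow_succ]
  have hX : (bp j 1 L ×ˢ rg L).Nonempty := by
    rw [← card_pos]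
    have : (0 : ℝ) < ((bp j 1 L ×ˢ rg L).card : ℝ) := by rw [hcard]; positivity
    exact_mod_cast this
  set Φ : Oc j M → ℝ := fun ω => if F (A ω.1 ω.2.1) (B ω.1 ω.2.2) (fun S => Υ S (sc S ω)) then
    per f x0 M0 M (sc univ ω) - lam else 0 with hΦ
  have e1 : 𝔼 ω, Φ ω = 𝔼 ω, 𝔼 p ∈ bp j 1 L ×ˢ rg L, 𝔼 v ∈ rg L, Φ (ω + cw M p v) := by
    rw [expect_comm]
    have : ∀ p : Pt j 1 × ℤ, 𝔼 ω, 𝔼 v ∈ rg L, Φ (ω + cw M p v) = 𝔼 ω, Φ ω := by
      intro p
      rw [expect_comm]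
      have : ∀ v : ℤ, 𝔼 ω, Φ (ω + cw M p v) = 𝔼 ω, Φ ω := fun v =>
        Fintype.expect_equiv (Equiv.addRight (cw M p v)) _ _ (fun _ => rfl)
      simp only [this]
      exact expect_const hr _
    simp only [this]
    exact (expect_const hX _).symm
  obtain ⟨ω, -, hω⟩ := exists_le_of_le_expect univ_nonempty (hV.trans e1.le)
  obtain ⟨x1, hx1⟩ := lift M M0 ((j + 2) * L) f x0 hf hM (sc univ ω)
  set e : Pt j 1 × ℤ → ℝ := fun p => 𝔼 v ∈ rg L,
    if F (A (ω.1 + (cw M p 0).1) (ω.2.1 + p.2)) (B (ω.1 + (cw M p 0).1) (ω.2.2 + v))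
      (fun S => Υ S (sc S ω + ((ss S p.1 + (p.2 + v) : ℤ) : ZMod M))) then
      f (x1 + ss univ p.1 + p.2 + v) - lam else 0 with he
  have h1 : δ ≤ 𝔼 p ∈ bp j 1 L ×ˢ rg L, e p := by
    refine hω.trans (expect_le_expect fun p hp => expect_le_expect fun v hv => ?_)
    have a1 := hx1 _ (rng hp hv).1 (rng hp hv).2
    have a2 : x1 + (ss univ p.1 + (p.2 + v)) = x1 + ss univ p.1 + p.2 + v := by ring
    rw [a2] at a1
    simp only [hΦ, sc_add]
    by_cases hF : F (A (ω.1 + (cw M p 0).1) (ω.2.1 + p.2)) (B (ω.1 + (cw M p 0).1) (ω.2.2 + v))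
      (fun S => Υ S (sc S ω + ((ss S p.1 + (p.2 + v) : ℤ) : ZMod M)))
    · rw [if_pos hF, if_pos (by exact hF)]
      linarith
    · rw [if_neg hF, if_neg (by exact hF)]
  have h2 : ∀ p ∈ bp j 1 L ×ˢ rg L, e p ≤ lam' := by
    intro p _
    refine le_trans (expect_le_expect fun v _ => ?_) (hP (x1 + ss univ p.1 + p.2))
    split_ifs
    · linarith
    · exact hf _
  have hm0 : 0 < m := by linarith
  have h3 : 2 * (1 / m) ≤ δ := by
    rw [mul_one_div, div_le_iff₀ hm0]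
    exact hδ
  obtain ⟨a0, Z, hZ, hZ', ha0⟩ := pop' _ hX e (fun p => A (ω.1 + (cw M p 0).1) (ω.2.1 + p.2))
    (one_div_pos.2 hm0) (by linarith : (0 : ℝ) < lam') h3 h2 h1
  have hc : (Fintype.card (Fin n → Bool) : ℝ) = 2 ^ n := by simp
  have hc' : (Fintype.card (Fin n → Bool) : ℝ) ≤ Real.exp m := by
    rw [hc]
    refine le_trans ?_ hn
    have : (1 : ℝ) ≤ m * lam' := one_le_mul_of_one_le_of_one_le hm hl'
    have h5 : (0 : ℝ) < 2 ^ n := by positivity
    nlinarith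
  refine ⟨x1, Fin n → Bool, Fin n → Bool, inferInstance, inferInstance,
    Z,
    fun W v => B (ω.1 + (cw M (W, 0) 0).1) (ω.2.2 + v), fun S s => Υ S (sc S ω + (s : ZMod M)),
    F a0, hc', hc', fun x x' => hT _ _, hZ, ?_, fun p hp => ?_⟩
  · rw [hcard, hc] at ha0
    set c : ℝ := (Z.card : ℝ) with hcc
    have c0 : 0 ≤ c := Nat.cast_nonneg _
    rw [Real.exp_neg, inv_mul_le_iff₀ (Real.exp_pos m)]
    have ha1 : (L : ℝ) ^ (j + 1) ≤ m * (lam' * 2 ^ n * c) := by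
      rw [← inv_mul_le_iff₀ hm0, ← one_div]
      exact ha0
    nlinarith [mul_le_mul_of_nonneg_right hn c0]
  · obtain ⟨b1, b2⟩ := hZ' p hp
    refine b1.trans (le_of_eq (expect_congr rfl fun v _ => ?_))
    rw [show A (ω.1 + (cw M p 0).1) (ω.2.1 + p.2) = a0 from b2]
    rfl

end Vale.Agent.P057H.H18
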