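import Vale.Agent.P057H.Fin
import Vale.Agent.P057H.Ms
import Vale.Agent.P057H.Wap
import Vale.Agent.P057H.Smb
import Vale.Agent.P057H.Gfh
import Vale.Agent.P057H.Unif
import Vale.Agent.P057H.DrophH56
import Vale.Agent.P057H.Csth
import Vale.Agent.P057H.StephH66
import Vale.Agent.P057H.Downh
import Vale.Agent.P057H.Zh
import Vale.Agent.P057H.WndH18
import Vale.Agent.P057H.Moi
import Vale.Agent.P057H.Bcs
import Vale.Agent.P057H.Gvn
import Vale.Agent.P057H.Tel
import Vale.Agent.P057H.Base
import Vale.Agent.P057H.Triv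
import Vale.Agent.P057H.CntH82
import Vale.Agent.P057H.InchH98
import Vale.Agent.P057L.All0
import Vale.Agent.P057H.SmaH28

/-! Assembly of the blocks. -/

namespace Vale.Agent.P057H.H30
open Vale.Agent.P057L Vale.Agent.P057L.All

theorem all0 (hA : SMA) : P057H.RESULT :=
  result_of (H98.inch (H82.cnt zh H18.wnd (tel (gvn bcs)) base P057H.triv)
    (downh ms (H66.steph hA smb gfh unif (H56.droph (drp1 box3) (cov (ch exg)))
      (vec (ven (hyb_of prune)) seq0) (fun j => kh j 1 le_rfl) (csth bas win)))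
    (Moi.moi zh H18.wnd) ms)

theorem all1 : P057H.RESULT := all0 (H28.sma wap)
end Vale.Agent.P057H.H30
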