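import Vale.Agent.P057H.AmH30b

/-! The row AM. -/

namespace Vale.Agent.P057H

theorem am : AM := H30.amC

end Vale.Agent.P057H
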