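import Vale.Agent.P057.MathlibUsed
import Mathlib.Algebra.BigOperators.Expect
import Mathlib.Algebra.Order.BigOperators.Expect

/-! The abstract model: energy increment with a potential which is cut linearly. -/

set_option linter.all false

open Finset
open scoped BigOperators Classical

namespace Vale.Agent.P057H.AmG

variable {X β : Type} [Fintype X]

/-- the mean of `f` on the fibre of `p` over `b` -/
noncomputable def ce (p : X → β) (f : X → ℝ) (b : β) : ℝ :=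
  (∑ y ∈ univ.filter fun y => p y = b, f y) / (univ.filter fun y => p y = b).card

theorem ce_nonneg (p : X → β) {f : X → ℝ} (hf : ∀ x, 0 ≤ f x) (b : β) : 0 ≤ ce p f b :=
  div_nonneg (sum_nonneg fun _ _ => hf _) (Nat.cast_nonneg _)

theorem tower (p : X → β) (f : X → ℝ) (h : β → ℝ) :
    𝔼 x, ce p f (p x) * h (p x) = 𝔼 x, f x * h (p x) := by
  rw [expect_eq_sum_div_card, expect_eq_sum_div_card]
  refine congrArg (· / _) ?_
  have m : ∀ x ∈ (univ : Finset X), p x ∈ univ.image p := fun x hx => mem_image_of_mem p hx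
  rw [← sum_fiberwise_of_maps_to m, ← sum_fiberwise_of_maps_to m fun x => f x * h (p x)]
  refine sum_congr rfl fun b hb => ?_
  obtain ⟨x, -, rfl⟩ := mem_image.1 hb
  have c : ((univ.filter fun y => p y = p x).card : ℝ) ≠ 0 :=
    Nat.cast_ne_zero.2 (card_ne_zero.2 ⟨x, mem_filter.2 ⟨mem_univ _, rfl⟩⟩)
  have e1 : ∑ y ∈ univ.filter (fun y => p y = p x), ce p f (p y) * h (p y) =
      ∑ y ∈ univ.filter (fun y => p y = p x), ce p f (p x) * h (p x) :=
    sum_congr rfl fun y hy => by rw [(mem_filter.1 hy).2]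
  have e2 : ∑ y ∈ univ.filter (fun y => p y = p x), f y * h (p y) =
      ∑ y ∈ univ.filter (fun y => p y = p x), f y * h (p x) :=
    sum_congr rfl fun y hy => by rw [(mem_filter.1 hy).2]
  rw [e1, e2, sum_const, nsmul_eq_mul, ← sum_mul, ce, ← mul_assoc, mul_div_cancel₀ _ c]

/-- the potential -/
noncomputable def pot (p : X → β) (f : X → ℝ) (Λ : ℝ) : ℝ :=
  𝔼 x, (f x * (2 * min (ce p f (p x)) Λ) - min (ce p f (p x)) Λ ^ 2)

theorem pot_eq {γ : Type} (p : X → β) (q : X → γ) (r : γ → β) (e : ∀ x, p x = r (q x))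
    (f : X → ℝ) (Λ : ℝ) : pot p f Λ =
      𝔼 x, (ce q f (q x) * (2 * min (ce p f (p x)) Λ) - min (ce p f (p x)) Λ ^ 2) := by
  rw [pot, expect_sub_distrib, expect_sub_distrib]
  simp only [e]
  rw [tower q f fun c => 2 * min (ce p f (r c)) Λ]

theorem pot_nonneg (p : X → β) {f : X → ℝ} (hf : ∀ x, 0 ≤ f x) {Λ : ℝ} (h : 0 ≤ Λ) :
    0 ≤ pot p f Λ := by
  rw [pot_eq p p id fun _ => rfl]
  refine expect_nonneg fun x _ => ?_
  have a := ce_nonneg p hf (p x)
  have b := min_le_left (ce p f (p x)) Λ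
  nlinarith [le_min a h]

theorem pot_le (p : X → β) {f : X → ℝ} (hf : ∀ x, 0 ≤ f x) (Λ : ℝ) :
    pot p f Λ ≤ 2 * Λ * 𝔼 x, f x := by
  rw [mul_expect]
  refine expect_le_expect fun x _ => ?_
  nlinarith [mul_le_mul_of_nonneg_left (min_le_right (ce p f (p x)) Λ) (hf x),
    sq_nonneg (min (ce p f (p x)) Λ)]

theorem breg (a b Λ : ℝ) : a * (2 * min b Λ) - min b Λ ^ 2 + (min a Λ - min b Λ) ^ 2 ≤
    a * (2 * min a Λ) - min a Λ ^ 2 := by
  have h := min_le_right b Λ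
  rcases le_total a Λ with k | k
  · rw [min_eq_left k]
    nlinarith
  · rw [min_eq_right k]
    nlinarith [mul_nonneg (sub_nonneg.2 h) (sub_nonneg.2 k)]

theorem gain [Nonempty X] {γ : Type} (p : X → β) (q : X → γ) (r : γ → β) (e : ∀ x, p x = r (q x))
    (f : X → ℝ) {Λ ε : ℝ} (hε : 0 ≤ ε) (τ : γ → ℝ) (hτ : ∀ c, |τ c| ≤ 1)
    (h1 : 𝔼 x, (if Λ < ce q f (q x) then f x - Λ else 0) ≤ ε)
    (h2 : 2 * ε ≤ |𝔼 x, (f x - min (ce p f (p x)) Λ) * τ (q x)|) :
    pot p f Λ + ε ^ 2 ≤ pot q f Λ := by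
  have a1 : 𝔼 x, (if Λ < ce q f (q x) then f x - Λ else 0) =
      𝔼 x, (ce q f (q x) - min (ce q f (q x)) Λ) := by
    have := tower q f fun c => if Λ < ce q f c then 1 else 0
    have k : ∀ g : X → ℝ, 𝔼 x, (if Λ < ce q f (q x) then g x - Λ else 0) =
        𝔼 x, g x * (if Λ < ce q f (q x) then 1 else 0) -
          𝔼 x, Λ * (if Λ < ce q f (q x) then 1 else 0) := fun g => by
      rw [← expect_sub_distrib]
      exact expect_congr rfl fun x _ => by split_ifs <;> ring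
    rw [k f, ← this, ← k fun x => ce q f (q x)]
    refine expect_congr rfl fun x _ => ?_
    split_ifs with h
    · rw [min_eq_right h.le]
    · rw [min_eq_left (not_lt.1 h), sub_self]
  have a2 : 𝔼 x, (f x - min (ce p f (p x)) Λ) * τ (q x) =
      𝔼 x, (min (ce q f (q x)) Λ - min (ce p f (p x)) Λ) * τ (q x) +
        𝔼 x, (ce q f (q x) - min (ce q f (q x)) Λ) * τ (q x) := by
    simp only [sub_mul, expect_sub_distrib]
    rw [tower q f τ]
    ring
  have a3 : |𝔼 x, (ce q f (q x) - min (ce q f (q x)) Λ) * τ (q x)| ≤ ε := by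
    rw [a1] at h1
    refine (abs_expect_le _ _).trans ((expect_le_expect fun x _ => ?_).trans h1)
    have := sub_nonneg.2 (min_le_left (ce q f (q x)) Λ)
    rw [abs_mul, abs_of_nonneg this]
    exact mul_le_of_le_one_right this (hτ _)
  have a4 : ε ≤ |𝔼 x, (min (ce q f (q x)) Λ - min (ce p f (p x)) Λ) * τ (q x)| := by
    rw [a2] at h2
    linarith [h2.trans (abs_add_le _ _)]
  have a5 : 𝔼 x, τ (q x) ^ 2 ≤ 1 := expect_le univ_nonempty fun x _ => by
    rw [← sq_abs]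
    exact pow_le_one₀ (abs_nonneg _) (hτ _)
  have a6 : ε ^ 2 ≤ 𝔼 x, (min (ce q f (q x)) Λ - min (ce p f (p x)) Λ) ^ 2 := by
    refine (pow_le_pow_left₀ hε a4 2).trans ?_
    rw [sq_abs]
    exact (expect_mul_sq_le_sq_mul_sq _ _ _).trans
      (mul_le_of_le_one_right (expect_nonneg fun _ _ => sq_nonneg _) a5)
  rw [pot_eq p q r e, pot_eq q q id fun _ => rfl]
  refine (add_le_add_right a6 _).trans ?_
  rw [← expect_add_distrib]
  exact expect_le_expect fun x _ => breg _ _ _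

/-- **the abstract model** -/
theorem am [Nonempty X] {κ : Type} {f : X → ℝ} (hf : ∀ x, 0 ≤ f x) {B Λ ε : ℝ}
    (hB : 𝔼 x, f x ≤ B) (C : Set (X → κ)) (hΛ : 0 ≤ Λ) (hε : 0 ≤ ε) (N : ℕ)
    (hN : 2 * Λ * B < N * ε ^ 2)
    (h : ∀ n ≤ N, ∀ ls : Fin n → X → κ, (∀ t, ls t ∈ C) → ∀ F : (Fin n → κ) → Prop,
      𝔼 x, (if F (fun t => ls t x) then f x - Λ else 0) ≤ ε) :
    ∃ g : X → ℝ, (∀ x, 0 ≤ g x ∧ g x ≤ Λ) ∧ 𝔼 x, g x ≤ 𝔼 x, f x ∧
      ∀ l ∈ C, ∀ τ : κ → ℝ, (∀ c, |τ c| ≤ 1) → |𝔼 x, (f x - g x) * τ (l x)| ≤ 2 * ε := by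
  by_contra hg
  have key : ∀ n ≤ N, ∃ ls : Fin n → X → κ, (∀ t, ls t ∈ C) ∧
      n * ε ^ 2 ≤ pot (fun x t => ls t x) f Λ := by
    intro n
    induction n with
    | zero => exact fun _ => ⟨Fin.elim0, fun t => t.elim0, by simpa using pot_nonneg _ hf hΛ⟩
    | succ n ih =>
      intro hn
      obtain ⟨ls, c, k⟩ := ih (Nat.le_of_succ_le hn)
      obtain ⟨l, hl, τ, hτ, b⟩ : ∃ l ∈ C, ∃ τ : κ → ℝ, (∀ c, |τ c| ≤ 1) ∧ 2 * ε <
          |𝔼 x, (f x - min (ce (fun x t => ls t x) f fun t => ls t x) Λ) * τ (l x)| := by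
        by_contra q
        refine hg ⟨fun x => min (ce (fun x t => ls t x) f fun t => ls t x) Λ,
          fun x => ⟨le_min (ce_nonneg _ hf _) hΛ, min_le_right _ _⟩, ?_,
          fun l hl τ hτ => not_lt.1 fun b => q ⟨l, hl, τ, hτ, b⟩⟩
        have := tower (fun x t => ls t x) f fun _ => 1
        simp only [mul_one] at this
        exact (expect_le_expect fun x _ => min_le_left _ _).trans this.le
      have c' : ∀ t, (Fin.cons l ls : Fin (n + 1) → X → κ) t ∈ C := Fin.cases hl c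
      refine ⟨Fin.cons l ls, c', ?_⟩
      have := gain (fun x t => ls t x) (fun x t => (Fin.cons l ls : Fin (n + 1) → X → κ) t x)
        (fun c t => c t.succ) (fun _ => rfl) f hε (fun c => τ (c 0)) (fun c => hτ _)
        (h _ hn _ c' fun c => Λ < ce (fun x t => (Fin.cons l ls : Fin (n + 1) → X → κ) t x) f c)
        b.le
      push_cast
      linarith
  obtain ⟨ls, -, k⟩ := key N le_rfl
  linarith [pot_le (fun x t => ls t x) hf Λ, mul_le_mul_of_nonneg_left hB (by linarith : 0 ≤ 2 * Λ)]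

end Vale.Agent.P057H.AmG
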