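import Mathlib

/-! The abstract model lemma: energy increment with a truncated potential. -/

set_option linter.all false

open Finset
open scoped BigOperators Classical

namespace Vale.Agent.P057H.H30

variable {X : Type} (s : Finset X) (f : X → ℝ)

/-- the mean of `f` over the cell with the label `c` -/
noncomputable def cm {γ : Type} (L : X → γ) (c : γ) : ℝ := 𝔼 y ∈ s.filter fun y => L y = c, f y

theorem key {γ : Type} (L : X → γ) (h : γ → ℝ) :
    ∑ x ∈ s, h (L x) * cm s f L (L x) = ∑ x ∈ s, h (L x) * f x := by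
  rw [← sum_fiberwise_of_maps_to (s := s) (t := s.image L) (g := L)
      fun x hx => mem_image_of_mem L hx,
    ← sum_fiberwise_of_maps_to (s := s) (t := s.image L) (g := L) (f := fun x => h (L x) * f x)
      fun x hx => mem_image_of_mem L hx]
  refine sum_congr rfl fun c _ => ?_
  rw [sum_congr rfl (g := fun _ => h c * cm s f L c) fun x hx => by rw [(mem_filter.1 hx).2],
    sum_congr rfl (f := fun x => h (L x) * f x) (g := fun x => h c * f x) fun x hx => by
      rw [(mem_filter.1 hx).2], sum_const, nsmul_eq_mul, ← mul_sum, mul_left_comm, cm,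
    card_mul_expect]

variable {f}

theorem cm_nonneg (hf : ∀ x, 0 ≤ f x) {γ : Type} (L : X → γ) (c : γ) : 0 ≤ cm s f L c :=
  expect_nonneg fun y _ => hf y

variable (f) in
/-- the potential -/
noncomputable def pot (l : ℝ) {γ : Type} (L : X → γ) : ℝ :=
  ∑ x ∈ s, (2 * min (cm s f L (L x)) l * f x - min (cm s f L (L x)) l ^ 2)

theorem pot_le (hf : ∀ x, 0 ≤ f x) {l : ℝ} {γ : Type} (L : X → γ) :
    pot s f l L ≤ 2 * l * ∑ x ∈ s, f x := by
  rw [mul_sum]
  refine sum_le_sum fun x _ => ?_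
  nlinarith [mul_le_mul_of_nonneg_right (min_le_right (cm s f L (L x)) l) (hf x),
    sq_nonneg (min (cm s f L (L x)) l)]

theorem pot_nonneg (hf : ∀ x, 0 ≤ f x) {l : ℝ} (hl : 0 ≤ l) {γ : Type} (L : X → γ) :
    0 ≤ pot s f l L := by
  rw [pot, sum_sub_distrib, ← key s f L fun c => 2 * min (cm s f L c) l, ← sum_sub_distrib]
  refine sum_nonneg fun x _ => ?_
  have a := le_min (cm_nonneg s hf L (L x)) hl
  nlinarith [mul_le_mul_of_nonneg_left (min_le_left (cm s f L (L x)) l) a]

theorem pot_step (l : ℝ) {γ γ' : Type} (L' : X → γ') (p : γ' → γ) :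
    pot s f l (fun x => p (L' x)) + ∑ x ∈ s, (min (cm s f L' (L' x)) l -
      min (cm s f (fun x => p (L' x)) (p (L' x))) l) ^ 2 ≤ pot s f l L' := by
  have k1 := key s f L' fun c => 2 * min (cm s f L' c) l
  have k2 := key s f L' fun c => 2 * min (cm s f (fun x => p (L' x)) (p c)) l
  rw [pot, pot, sum_sub_distrib, sum_sub_distrib, ← k1, ← k2, ← sum_sub_distrib,
    ← sum_sub_distrib, ← sum_add_distrib]
  refine sum_le_sum fun x _ => ?_
  have a := min_le_right (cm s f (fun x => p (L' x)) (p (L' x))) l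
  generalize min (cm s f (fun x => p (L' x)) (p (L' x))) l = A at a ⊢
  generalize cm s f L' (L' x) = u
  rcases le_total u l with h | h
  · rw [min_eq_left h]; nlinarith
  · rw [min_eq_right h]; nlinarith [mul_nonneg (sub_nonneg.2 a) (sub_nonneg.2 h)]

theorem test (l : ℝ) {γ' : Type} (L' : X → γ') (a w : γ' → ℝ) (hw : ∀ c, |w c| ≤ 1) :
    |∑ x ∈ s, (f x - a (L' x)) * w (L' x)| ≤
      ∑ x ∈ s, (if l < cm s f L' (L' x) then f x - l else 0) +
        ∑ x ∈ s, |min (cm s f L' (L' x)) l - a (L' x)| := by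
  have k1 := key s f L' w
  have k2 := key s f L' fun c => if l < cm s f L' c then 1 else 0
  have e1 : ∑ x ∈ s, (f x - a (L' x)) * w (L' x) =
      ∑ x ∈ s, (cm s f L' (L' x) - a (L' x)) * w (L' x) := by
    simp only [mul_comm _ (w _), mul_sub, sum_sub_distrib, k1]
  have e2 : ∑ x ∈ s, (if l < cm s f L' (L' x) then f x - l else 0) =
      ∑ x ∈ s, (if l < cm s f L' (L' x) then cm s f L' (L' x) - l else 0) := by
    have e : ∀ u : X → ℝ, ∑ x ∈ s, (if l < cm s f L' (L' x) then u x - l else 0) =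
        ∑ x ∈ s, (if l < cm s f L' (L' x) then 1 else 0) * u x -
          ∑ x ∈ s, (if l < cm s f L' (L' x) then l else 0) := fun u => by
      rw [← sum_sub_distrib]
      exact sum_congr rfl fun x _ => by split_ifs <;> simp
    rw [e, e, k2]
  rw [e1, e2, ← sum_add_distrib]
  refine (abs_sum_le_sum_abs _ _).trans (sum_le_sum fun x _ => ?_)
  rw [abs_mul]
  refine (mul_le_of_le_one_right (abs_nonneg _) (hw _)).trans ?_
  generalize cm s f L' (L' x) = u
  split_ifs with h
  · rw [min_eq_right h.le]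
    refine abs_le.2 ⟨?_, ?_⟩ <;> linarith [le_abs_self (l - a (L' x)), neg_abs_le (l - a (L' x))]
  · rw [min_eq_left (not_lt.1 h), zero_add]

/-- **the model lemma** -/
theorem am {τ β : Type} (hs : s.Nonempty) (hf : ∀ x, 0 ≤ f x) (T : τ → X → β) {l ε δ : ℝ}
    (hl : 0 ≤ l) (hδ : δ ≤ ε) (n : ℕ) (hn : 2 * l * 𝔼 x ∈ s, f x < n * (ε - δ) ^ 2) :
    (∃ m ≤ n, ∃ (t : Fin m → τ) (F : (Fin m → β) → Prop),
      δ < 𝔼 x ∈ s, if F (fun i => T (t i) x) then f x - l else 0) ∨
    ∃ g : X → ℝ, (∀ x, 0 ≤ g x ∧ g x ≤ l) ∧ 𝔼 x ∈ s, g x ≤ 𝔼 x ∈ s, f x ∧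
      ∀ (t : τ) (w : β → ℝ), (∀ b, |w b| ≤ 1) → |𝔼 x ∈ s, (f x - g x) * w (T t x)| ≤ ε := by
  have c0 : (0 : ℝ) < s.card := by exact_mod_cast hs.card_pos
  by_contra hc
  rw [not_or] at hc
  obtain ⟨h1, h2⟩ := hc
  have main : ∀ m ≤ n, ∃ t : Fin m → τ,
      m * (ε - δ) ^ 2 * s.card ≤ pot s f l fun x i => T (t i) x := by
    intro m
    induction m with
    | zero => exact fun _ => ⟨Fin.elim0, by simpa using pot_nonneg s hf hl _⟩
    | succ m ih =>
      intro hm
      obtain ⟨t, ht⟩ := ih (by omega)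
      set L : X → Fin m → β := fun x i => T (t i) x with hL
      have : ¬ ∀ (t : τ) (w : β → ℝ), (∀ b, |w b| ≤ 1) →
          |𝔼 x ∈ s, (f x - min (cm s f L (L x)) l) * w (T t x)| ≤ ε := fun k =>
        h2 ⟨fun x => min (cm s f L (L x)) l,
          fun x => ⟨le_min (cm_nonneg s hf L _) hl, min_le_right _ _⟩, by
            rw [expect_eq_sum_div_card, expect_eq_sum_div_card]
            refine div_le_div_of_nonneg_right ?_ c0.le
            have := key s f L fun _ => 1
            simp only [one_mul] at this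
            exact this ▸ sum_le_sum fun x _ => min_le_left _ _, k⟩
      push Not at this
      obtain ⟨t0, w, hw, hb⟩ := this
      refine ⟨Fin.cons t0 t, ?_⟩
      set L' : X → Fin (m + 1) → β := fun x i => T ((Fin.cons t0 t : Fin (m + 1) → τ) i) x with hL'
      have p1 := pot_step s (f := f) l L' Fin.tail
      have p2 := test s (f := f) l L' (fun c => min (cm s f L (Fin.tail c)) l) (fun c => w (c 0))
        fun c => hw _
      have p3 : 𝔼 x ∈ s, (if l < cm s f L' (L' x) then f x - l else 0) ≤ δ :=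
        not_lt.1 fun k => h1 ⟨m + 1, hm, Fin.cons t0 t, fun c => l < cm s f L' c, k⟩
      rw [expect_eq_sum_div_card, div_le_iff₀ c0] at p3
      rw [expect_eq_sum_div_card, abs_div, abs_of_pos c0, lt_div_iff₀ c0] at hb
      have p4 := sq_sum_le_card_mul_sum_sq (s := s)
        (f := fun x => |min (cm s f L' (L' x)) l - min (cm s f L (L x)) l|)
      simp only [sq_abs] at p4
      have p5 : (ε - δ) * s.card ≤
          ∑ x ∈ s, |min (cm s f L' (L' x)) l - min (cm s f L (L x)) l| := by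
        have : ε * s.card < ∑ x ∈ s, (if l < cm s f L' (L' x) then f x - l else 0) +
          ∑ x ∈ s, |min (cm s f L' (L' x)) l - min (cm s f L (L x)) l| := hb.trans_le p2
        linarith
      have p6 := (pow_le_pow_left₀ (mul_nonneg (sub_nonneg.2 hδ) c0.le) p5 2).trans p4
      have p7 : (ε - δ) ^ 2 * s.card ≤
          ∑ x ∈ s, (min (cm s f L' (L' x)) l - min (cm s f L (L x)) l) ^ 2 :=
        le_of_mul_le_mul_left (by linarith) c0
      have p8 : pot s f l L + ∑ x ∈ s, (min (cm s f L' (L' x)) l - min (cm s f L (L x)) l) ^ 2 ≤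
        pot s f l L' := p1
      push_cast
      linarith
  obtain ⟨t, ht⟩ := main n le_rfl
  have := ht.trans (pot_le s hf _)
  rw [expect_eq_sum_div_card, ← mul_div_assoc, div_lt_iff₀ c0] at hn
  linarith

/-- a linear functional on the cube is extremal at a vertex -/
theorem vtx {Y : Type} (A : Finset Y) (c a : Y → ℝ) (ha : ∀ y, |a y| ≤ 1) :
    ∃ b : Y → Bool, |∑ y ∈ A, c y * a y| ≤ ∑ y ∈ A, c y * if b y then 1 else -1 := by
  refine ⟨fun y => decide (0 ≤ c y), (abs_sum_le_sum_abs _ _).trans (sum_le_sum fun y _ => ?_)⟩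
  rw [abs_mul]
  refine (mul_le_of_le_one_right (abs_nonneg _) (ha y)).trans (le_of_eq ?_)
  by_cases h : 0 ≤ c y
  · simp [h, abs_of_nonneg h]
  · simp [h, abs_of_neg (not_le.1 h)]

/-- one face may be replaced by a sign -/
theorem face {Y : Type} (h : X → ℝ) (π : X → Y) (a : Y → ℝ) (ha : ∀ y, |a y| ≤ 1) :
    ∃ b : Y → Bool, |∑ x ∈ s, h x * a (π x)| ≤ |∑ x ∈ s, h x * if b (π x) then 1 else -1| := by
  have e : ∀ a : Y → ℝ, ∑ x ∈ s, h x * a (π x) =
      ∑ y ∈ s.image π, (∑ x ∈ s.filter fun x => π x = y, h x) * a y := fun a => by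
    rw [← sum_fiberwise_of_maps_to (s := s) (t := s.image π) (g := π)
      fun x hx => mem_image_of_mem π hx]
    refine sum_congr rfl fun y _ => ?_
    rw [sum_mul]
    exact sum_congr rfl fun x hx => by rw [(mem_filter.1 hx).2]
  obtain ⟨b, hb⟩ := vtx (s.image π) (fun y => ∑ x ∈ s.filter fun x => π x = y, h x) a ha
  refine ⟨b, ?_⟩
  rw [e, e fun y => if b y then 1 else -1]
  exact hb.trans (le_abs_self _)

/-- all faces may be replaced by signs -/
theorem ext {Φ : Type} {Y : Φ → Type} (P : Finset Φ) (π : ∀ φ, X → Y φ) (h : X → ℝ)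
    (a : ∀ φ, Y φ → ℝ) (ha : ∀ φ y, |a φ y| ≤ 1) : ∃ b : ∀ φ, Y φ → Bool,
      |∑ x ∈ s, h x * ∏ φ ∈ P, a φ (π φ x)| ≤
        |∑ x ∈ s, h x * ∏ φ ∈ P, if b φ (π φ x) then 1 else -1| := by
  induction P using Finset.induction_on generalizing h with
  | empty => exact ⟨fun _ _ => true, by simp⟩
  | insert φ P hφ ih =>
    obtain ⟨b, hb⟩ := ih fun x => h x * a φ (π φ x)
    obtain ⟨b0, hb0⟩ := face s (fun x => h x * ∏ φ ∈ P, if b φ (π φ x) then (1 : ℝ) else -1) (π φ)
      (a φ) (ha φ)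
    refine ⟨Function.update b φ b0, ?_⟩
    simp only [prod_insert hφ, Function.update_self]
    have e : ∀ x, ∏ ψ ∈ P, (if Function.update b φ b0 ψ (π ψ x) then (1 : ℝ) else -1) =
        ∏ ψ ∈ P, if b ψ (π ψ x) then 1 else -1 := fun x => prod_congr rfl fun ψ hψ => by
      rw [Function.update_of_ne (ne_of_mem_of_not_mem hψ hφ)]
    simp only [e]
    calc _ = |∑ x ∈ s, h x * a φ (π φ x) * ∏ φ ∈ P, a φ (π φ x)| := by simp only [mul_assoc]
      _ ≤ _ := hb
      _ = |∑ x ∈ s, (h x * ∏ φ ∈ P, if b φ (π φ x) then (1 : ℝ) else -1) * a φ (π φ x)| := by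
        simp only [mul_right_comm]
      _ ≤ _ := hb0
      _ = _ := by simp only [mul_assoc, mul_comm (if b0 _ then (1 : ℝ) else -1)]

end Vale.Agent.P057H.H30
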