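import Vale.Agent.P057H.Defs
import Vale.Agent.P057H.AmH30

/-! The row AM. -/

set_option linter.all false

open Finset
open scoped BigOperators Classical

namespace Vale.Agent.P057H.H30

theorem amC : AM := by
  intro Ω ι X _ _ _ π f lam η ε δ E n hf hE hl e0 e1 hε hn hδ h
  have d1 : 4 * δ ≤ ε := hδ.trans (mul_le_of_le_one_right hε.le e1)
  have n0 : (0 : ℝ) ≤ n := Nat.cast_nonneg n
  rcases am (univ : Finset Ω) univ_nonempty hf
    (fun (t : ι → X → Bool) ω i => t i (π i ω)) (l := lam) (ε := ε) (δ := δ) hl.le (by linarith) n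
    (by
      have a : 9 / 16 * ε ^ 2 ≤ (ε - δ) ^ 2 := by nlinarith
      nlinarith [mul_le_mul_of_nonneg_left hE hl.le, mul_le_mul_of_nonneg_left a n0,
        mul_nonneg n0 (sq_nonneg ε)]) with ⟨m, hm, t, F, hF⟩ | ⟨g, g1, -, g3⟩
  · refine absurd (h (fun i x k => if c : (k : ℕ) < m then t ⟨k, c⟩ i x else false)
      fun c => F fun a i => c i (Fin.castLE hm a)) (not_le.2 (hF.trans_eq ?_))
    refine expect_congr rfl fun ω _ => if_congr (iff_of_eq (congrArg F ?_)) rfl rfl
    funext a i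
    simp
  · refine ⟨g, fun ω => ⟨(g1 ω).1, (g1 ω).2.trans (by nlinarith)⟩, fun u hu => ?_⟩
    obtain ⟨b, hb⟩ := ext (univ : Finset Ω) (Y := fun _ : ι => X) univ π (fun ω => f ω - g ω) u hu
    refine le_trans ?_ (g3 b (fun c => ∏ i, if c i then 1 else -1) fun c => ?_)
    · rw [expect_eq_sum_div_card, expect_eq_sum_div_card, abs_div, abs_div]
      exact div_le_div_of_nonneg_right hb (abs_nonneg _)
    · rw [abs_prod]
      exact prod_le_one (fun _ _ => abs_nonneg _) fun i _ => by split_ifs <;> simp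

end Vale.Agent.P057H.H30
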