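import Vale.Agent.P057L.Num

/-! The abstract energy increment with a cut potential. -/

set_option linter.all false

open Finset
open scoped BigOperators Classical

namespace Vale.Agent.P057H.H56

noncomputable section

variable {X L : Type}

/-- mean over the fibre -/
def ce (S : Finset X) (π : X → L) (f : X → ℝ) (l : L) : ℝ := 𝔼 y ∈ S.filter fun y => π y = l, f y

theorem ce_sum (S : Finset X) (π : X → L) (f : X → ℝ) (Φ : L → ℝ) :
    ∑ x ∈ S, Φ (π x) * ce S π f (π x) = ∑ x ∈ S, Φ (π x) * f x := by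
  rw [← sum_fiberwise_of_maps_to (s := S) (t := S.image π) (g := π) (fun x hx => mem_image_of_mem _ hx),
    ← sum_fiberwise_of_maps_to (s := S) (t := S.image π) (g := π) (fun x hx => mem_image_of_mem _ hx)
      (fun x => Φ (π x) * f x)]
  refine sum_congr rfl fun l _ => ?_
  have a : ∑ x ∈ S.filter (fun y => π y = l), Φ (π x) * ce S π f (π x) =
      ∑ x ∈ S.filter (fun y => π y = l), Φ l * ce S π f l :=
    sum_congr rfl fun x hx => by rw [(mem_filter.1 hx).2]
  have b : ∑ x ∈ S.filter (fun y => π y = l), Φ (π x) * f x =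
      ∑ x ∈ S.filter (fun y => π y = l), Φ l * f x :=
    sum_congr rfl fun x hx => by rw [(mem_filter.1 hx).2]
  rw [a, b, sum_const, ← mul_sum, nsmul_eq_mul, ce, mul_left_comm, card_mul_expect]

theorem ce_exp (S : Finset X) (π : X → L) (f : X → ℝ) (Φ : L → ℝ) :
    𝔼 x ∈ S, Φ (π x) * ce S π f (π x) = 𝔼 x ∈ S, Φ (π x) * f x := by
  rw [expect_eq_sum_div_card, expect_eq_sum_div_card, ce_sum]

theorem ce_nonneg (S : Finset X) (π : X → L) {f : X → ℝ} (h : ∀ x, 0 ≤ f x) (l : L) :
    0 ≤ ce S π f l := expect_nonneg fun x _ => h x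

/-- the square cut linearly at c -/
def pot (c u : ℝ) : ℝ := min u c * (2 * u - min u c)

theorem pot_le {c u : ℝ} (hu : 0 ≤ u) (hc : 0 ≤ c) : 0 ≤ pot c u ∧ pot c u ≤ 2 * c * u := by
  unfold pot
  rcases le_total u c with h | h
  · rw [min_eq_left h]; constructor <;> nlinarith
  · rw [min_eq_right h]; constructor <;> nlinarith

theorem pot_breg (c a b : ℝ) :
    pot c b + 2 * min b c * (a - b) + (min a c - min b c) ^ 2 ≤ pot c a := by
  unfold pot
  rcases le_total a c with h | h <;> rcases le_total b c with h' | h' <;>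
    simp only [min_eq_left, min_eq_right, h, h'] <;> nlinarith

/-- the increment of the potential under refinement -/
theorem incr {L' : Type} (S : Finset X) (π : X → L) (π' : X → L') (r : L' → L)
    (hr : ∀ x, r (π' x) = π x) (f : X → ℝ) (c : ℝ) :
    (𝔼 x ∈ S, pot c (ce S π f (π x))) +
      (𝔼 x ∈ S, |min (ce S π' f (π' x)) c - min (ce S π f (π x)) c|) ^ 2 ≤
      𝔼 x ∈ S, pot c (ce S π' f (π' x)) := by
  have h1 : 𝔼 x ∈ S, 2 * min (ce S π f (π x)) c * (ce S π' f (π' x) - ce S π f (π x)) = 0 := by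
    simp only [mul_sub]
    rw [expect_sub_distrib, ce_exp S π f (fun l => 2 * min (ce S π f l) c)]
    have := ce_exp S π' f (fun l => 2 * min (ce S π f (r l)) c)
    simp only [hr] at this
    rw [this, sub_self]
  have h2 : (𝔼 x ∈ S, |min (ce S π' f (π' x)) c - min (ce S π f (π x)) c|) ^ 2 ≤
      𝔼 x ∈ S, (min (ce S π' f (π' x)) c - min (ce S π f (π x)) c) ^ 2 := by
    have := expect_mul_sq_le_sq_mul_sq S
      (fun x => |min (ce S π' f (π' x)) c - min (ce S π f (π x)) c|) (fun _ => (1 : ℝ))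
    simp only [mul_one, sq_abs, one_pow] at this
    rcases S.eq_empty_or_nonempty with rfl | hS
    · simp
    · rwa [expect_const hS, mul_one] at this
  have h3 := expect_le_expect (s := S) fun x _ =>
    pot_breg c (ce S π' f (π' x)) (ce S π f (π x))
  rw [expect_add_distrib, expect_add_distrib, h1] at h3
  linarith

/-- the joint label of a family of tests -/
def jl {τ β : Type} (lab : τ → X → β) {n : ℕ} (t : Fin n → τ) (x : X) : Fin n → β :=
  fun i => lab (t i) x

theorem am0 {τ β : Type} (S : Finset X) (lab : τ → X → β) (Φ : τ → β → ℝ) (f : X → ℝ) (c ε E : ℝ)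
    (N : ℕ) (hf : ∀ x, 0 ≤ f x) (hc : 0 ≤ c) (hε : 0 < ε) (hΦ : ∀ t b, |Φ t b| ≤ 1)
    (hE : 𝔼 x ∈ S, f x ≤ E) (hN : 2 * c * E < N * ε ^ 2)
    (hs : ∀ n ≤ N, ∀ t : Fin n → τ,
      𝔼 x ∈ S, (ce S (jl lab t) f (jl lab t x) - min (ce S (jl lab t) f (jl lab t x)) c) ≤ ε) :
    ∃ n < N, ∃ t : Fin n → τ, ∀ t', |𝔼 x ∈ S, Φ t' (lab t' x) *
      (f x - min (ce S (jl lab t) f (jl lab t x)) c)| ≤ 2 * ε := by
  by_contra hcon
  push Not at hcon
  have key : ∀ n ≤ N, ∃ t : Fin n → τ,
      n * ε ^ 2 ≤ 𝔼 x ∈ S, pot c (ce S (jl lab t) f (jl lab t x)) := by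
    intro n
    induction n with
    | zero =>
      intro _
      refine ⟨fun i => i.elim0, ?_⟩
      rw [Nat.cast_zero, zero_mul]
      exact expect_nonneg fun x _ => (pot_le (ce_nonneg _ _ hf _) hc).1
    | succ n ih =>
      intro hn
      obtain ⟨t, ht⟩ := ih (by omega)
      obtain ⟨t', ht'⟩ := hcon n (by omega) t
      refine ⟨Fin.cons t' t, ?_⟩
      have h1 := incr S (jl lab t) (jl lab (Fin.cons t' t : Fin (n + 1) → τ))
        (fun l i => l i.succ) (fun x => rfl) f c
      have h2 := hs (n + 1) hn (Fin.cons t' t)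
      set π := jl lab t
      set π' := jl lab (Fin.cons t' t : Fin (n + 1) → τ)
      have h3 : 𝔼 x ∈ S, Φ t' (lab t' x) * (f x - min (ce S π f (π x)) c) =
          𝔼 x ∈ S, Φ t' (lab t' x) * (ce S π' f (π' x) - min (ce S π f (π x)) c) := by
        simp only [mul_sub]
        rw [expect_sub_distrib, expect_sub_distrib]
        congr 1
        exact (ce_exp S π' f fun l => Φ t' (l 0)).symm
      have h4 : |𝔼 x ∈ S, Φ t' (lab t' x) * (ce S π' f (π' x) - min (ce S π f (π x)) c)| ≤
          𝔼 x ∈ S, ((ce S π' f (π' x) - min (ce S π' f (π' x)) c) +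
            |min (ce S π' f (π' x)) c - min (ce S π f (π x)) c|) := by
        refine (abs_expect_le _ _).trans (expect_le_expect fun x _ => ?_)
        rw [abs_mul]
        refine (mul_le_of_le_one_left (abs_nonneg _) (hΦ _ _)).trans ?_
        have := min_le_left (ce S π' f (π' x)) c
        refine (abs_sub_le _ (min (ce S π' f (π' x)) c) _).trans ?_
        rw [abs_of_nonneg (sub_nonneg.2 this)]
      rw [expect_add_distrib] at h4
      rw [h3] at ht'
      have h5 : ε ≤ 𝔼 x ∈ S, |min (ce S π' f (π' x)) c - min (ce S π f (π x)) c| := by linarith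
      have h6 := pow_le_pow_left₀ hε.le h5 2
      push_cast
      linarith
  obtain ⟨t, ht⟩ := key N le_rfl
  have h1 : 𝔼 x ∈ S, pot c (ce S (jl lab t) f (jl lab t x)) ≤
      𝔼 x ∈ S, 2 * c * ce S (jl lab t) f (jl lab t x) :=
    expect_le_expect fun x _ => (pot_le (ce_nonneg _ _ hf _) hc).2
  rw [ce_exp S (jl lab t) f (fun _ => 2 * c), ← mul_expect] at h1
  have := mul_le_mul_of_nonneg_left hE (by linarith : 0 ≤ 2 * c)
  linarith

end

end Vale.Agent.P057H.H56
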