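import Vale.Agent.P057Z.Km.Cs
import Vale.Agent.P057Z.Km.Apa
import Vale.Agent.P057Z.Km.Bb
import Vale.Agent.P057Z.Km.Apb

/-! Almost periodicity for a family of sets read along a labelling. -/

set_option linter.all false

open Finset
open scoped BigOperators Classical

namespace Vale.Agent.P057H.H97

open Vale.Agent.P057Z Vale.Agent.P057Z.Km

variable {Q : ℕ} [Fact Q.Prime]

/-- the proportion of y in A with s - y in S -/
noncomputable def Kf (A S : Finset (ZMod Q)) (s : ZMod Q) : ℝ :=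
  (#{y ∈ A | s - y ∈ S} : ℝ) / #A

theorem Kf_bd (A S : Finset (ZMod Q)) (s : ZMod Q) : 0 ≤ Kf A S s ∧ Kf A S s ≤ 1 :=
  ⟨by unfold Kf; positivity, div_le_one_of_le₀ (by exact_mod_cast card_filter_le _ _)
    (Nat.cast_nonneg _)⟩

/-- three sets in a product group -/
theorem ap3 {H : Type} [AddCommGroup H] [Fintype H] {ε X : ℝ} (hε : 0 < ε) (hε1 : ε ≤ 1)
    (hX1 : 12288 ≤ ε ^ 2 * X) (A1 A2 S : Finset (ZMod Q × H)) (h1 : A1.Nonempty)
    (h2 : A2.Nonempty) (hU : (Fintype.card (ZMod Q × H) : ℝ) ≤ Real.exp X * #A1)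
    (hU2 : (Fintype.card (ZMod Q × H) : ℝ) ≤ Real.exp X * #A2) :
    ∃ ξ : Fin ⌊X ^ 6⌋₊ → ZMod Q, ∀ t, (∀ i, nm (ξ i * t) ≤ Real.exp (-(3 * X))) →
      |psi A1 A2 S (t, 0) - psi A1 A2 S 0| ≤ ε := by
  have hXp : 0 < X := by nlinarith [sq_nonneg ε]
  have hX2 : 12288 ≤ ε * X := by nlinarith [mul_pos hε hXp]
  have hX : 12288 ≤ X := by nlinarith
  have hk := Nat.le_ceil X
  have hk' : (⌈X⌉₊ : ℝ) ≤ 2 * X := (Nat.ceil_lt_add_one hXp.le).le.trans (by linarith)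
  have hk1 : 1 ≤ ⌈X⌉₊ := Nat.ceil_pos.2 hXp
  have hk2 : (1 : ℝ) ≤ ⌈X⌉₊ := by exact_mod_cast hk1
  have hj : (⌊X ^ 6⌋₊ : ℝ) ≤ X ^ 6 := Nat.floor_le (by positivity)
  set D : Finset (ZMod Q × H) := univ.filter fun p => p.2 = 0 with hD
  have mD : ∀ p, p ∈ D ↔ p.2 = 0 := fun p => by simp [hD]
  have D0 : (0 : ZMod Q × H) ∈ D := (mD _).2 rfl
  obtain ⟨Λ, hΛ, h⟩ := apa_of cs (ZMod Q × H) A1 A2 S D D D D univ univ (ε / (16 * ⌈X⌉₊))
    (7 * Real.exp (-(3 * X))) (Real.exp X) ⌈X⌉₊ ⌈X ^ 4⌉₊ ⌊X ^ 6⌋₊ h1 h2 ⟨0, D0⟩ ⟨0, D0⟩ D0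
    (fun _ _ _ _ => mem_univ _) (fun _ _ _ _ _ _ _ _ _ => mem_univ _) hU hU2
    (fun x hx e he => (mD _).2 (by
      rw [Prod.snd_sub, Prod.snd_sum, (mD _).1 hx, sum_eq_zero fun i _ => (mD _).1 (he i),
        sub_zero]))
    (by linarith [(Nat.cast_nonneg _ : (0 : ℝ) ≤ #D)])
    (fun x hx => by
      rw [filter_false_of_mem fun e he => not_not.2 ((mD _).2 (by
        rw [Prod.snd_add, (mD _).1 he, (mD _).1 hx, add_zero])), card_empty, Nat.cast_zero]
      positivity)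
    (by positivity) (by positivity) ((div_le_self hε.le (by linarith)).trans hε1)
    (Apb.num1 hε hε1 hX1 hX hk1 hk' (Nat.le_ceil _))
    (Apb.num2 hX (Nat.ceil_lt_add_one (by positivity)).le (Nat.lt_floor_add_one _))
  let ι : V Q 1 →+ ZMod Q × H :=
    { toFun := fun x => (x 0, 0), map_zero' := rfl, map_add' := fun x y => by simp }
  choose ξ hξ using fun lam : AddChar (ZMod Q × H) ℂ => char Q 1 (lam.compAddMonoidHom ι)
  refine ⟨fun i => if hi : (i : ℕ) < #Λ then ξ (Λ.equivFin.symm ⟨i, hi⟩) 0 else 0,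
    fun t ht => (h (t, 0) ((mD _).2 rfl) fun lam hl => ?_).trans ?_⟩
  · have a := hξ lam fun _ => t
    have b := ht ⟨Λ.equivFin ⟨lam, hl⟩, (Λ.equivFin ⟨lam, hl⟩).2.trans_le hΛ⟩
    simp only [dif_pos (Λ.equivFin ⟨lam, hl⟩).2, Fin.eta, Equiv.symm_apply_apply] at b
    rw [dotProduct, Fin.sum_univ_one] at a
    exact a.trans (by linarith)
  · have h3 := Apb.num3 hX2 hε hX hk hj
    have h4 : 8 * (⌈X⌉₊ : ℝ) * (ε / (16 * ⌈X⌉₊)) = ε / 2 := by
      field_simp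
      norm_num
    linarith

theorem psi_eq {H : Type} [AddCommGroup H] [Fintype H] (A : Finset (ZMod Q))
    (φ : ZMod Q → Finset H) (S' : H → Finset (ZMod Q)) (S : ZMod Q → Finset (ZMod Q))
    (hS : ∀ s, ∀ h ∈ φ s, S' h = S s) (t : ZMod Q) :
    psi (A.image fun y => ((-y, 0) : ZMod Q × H)) (univ.filter fun p => p.2 ∈ φ p.1)
      (univ.filter fun p => p.1 ∈ S' p.2) (t, 0) =
      (∑ s, (#(φ s) : ℝ) * Kf A (S s) (s + t)) / ∑ s, (#(φ s) : ℝ) := by
  have inj : Function.Injective fun y : ZMod Q => ((-y, 0) : ZMod Q × H) :=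
    fun a b h => neg_injective (congrArg Prod.fst h)
  have c2 : (#(univ.filter fun p : ZMod Q × H => p.2 ∈ φ p.1) : ℝ) = ∑ s, (#(φ s) : ℝ) := by
    rw [card_filter, ← univ_product_univ, sum_product]
    push_cast
    refine sum_congr rfl fun s _ => ?_
    simp
  rw [psi, card_image_of_injective _ inj, c2, card_filter, sum_product, sum_image inj.injOn,
    sum_comm, sum_filter, ← univ_product_univ, sum_product]
  simp only [Kf, mul_div_assoc', ← sum_div, div_div]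
  congr 1
  push_cast
  refine sum_congr rfl fun s _ => ?_
  rw [← sum_filter, filter_univ_mem, ← nsmul_eq_mul, ← sum_const]
  refine sum_congr rfl fun h hh => ?_
  rw [card_filter]
  push_cast
  refine sum_congr rfl fun y _ => ?_
  simp only [mem_filter, mem_product, mem_univ, true_and, Prod.mk_add_mk, zero_add, add_zero,
    hS s h hh]
  rw [show -y + s + t = s + t - y by ring]

theorem ap4 {H : Type} [AddCommGroup H] [Fintype H] {ε X : ℝ} (hε : 0 < ε) (hε1 : ε ≤ 1)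
    (hX1 : 12288 ≤ ε ^ 2 * X) (A : Finset (ZMod Q))
    (φ : ZMod Q → Finset H) (S' : H → Finset (ZMod Q)) (S : ZMod Q → Finset (ZMod Q))
    (hS : ∀ s, ∀ h ∈ φ s, S' h = S s) (A0 : (0 : ℝ) < #A) (s0 : (0 : ℝ) < ∑ s, (#(φ s) : ℝ))
    (hU : (Fintype.card (ZMod Q × H) : ℝ) ≤ Real.exp X * #A)
    (hU2 : (Fintype.card (ZMod Q × H) : ℝ) ≤ Real.exp X * ∑ s, (#(φ s) : ℝ)) :
    ∃ ξ : Fin ⌊X ^ 6⌋₊ → ZMod Q, ∀ t, (∀ i, nm (ξ i * t) ≤ Real.exp (-(3 * X))) →
      |∑ s, (#(φ s) : ℝ) * (Kf A (S s) (s + t) - Kf A (S s) s)| ≤ ε * ∑ s, (#(φ s) : ℝ) := by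
  have inj : Function.Injective fun y : ZMod Q => ((-y, 0) : ZMod Q × H) :=
    fun a b h => neg_injective (congrArg Prod.fst h)
  have c4 : (#(univ.filter fun p : ZMod Q × H => p.2 ∈ φ p.1) : ℝ) = ∑ s, (#(φ s) : ℝ) := by
    rw [card_filter, ← univ_product_univ, sum_product]
    push_cast
    refine sum_congr rfl fun s _ => ?_
    simp
  obtain ⟨ξ, hξ⟩ := ap3 hε hε1 hX1 (A.image fun y => ((-y, 0) : ZMod Q × H))
    (univ.filter fun p => p.2 ∈ φ p.1) (univ.filter fun p => p.1 ∈ S' p.2)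
    ((card_pos.1 (by exact_mod_cast A0)).image _)
    (card_pos.1 (by exact_mod_cast (c4 ▸ s0 : (0 : ℝ) < _)))
    (by rwa [card_image_of_injective _ inj]) (by rwa [c4])
  refine ⟨ξ, fun t ht => ?_⟩
  have h := hξ t ht
  have e1 := psi_eq A φ S' S hS t
  have e0 := psi_eq A φ S' S hS 0
  simp only [add_zero] at e0
  rw [e1, show (0 : ZMod Q × H) = (0, 0) from rfl, e0, ← sub_div, abs_div,
    abs_of_pos s0, div_le_iff₀ s0, ← sum_sub_distrib] at h
  simpa only [mul_sub] using h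

/-- **almost periodicity along a labelling, with a bounded weight** -/
theorem csm {U : Type} [Fintype U] {ε X Y : ℝ} (hε : 0 < ε) (hε1 : ε ≤ 1)
    (hX1 : 12288 ≤ ε ^ 2 * X) (hY1 : 1 ≤ Y) (hY : 5 * Y ≤ X) (A : Finset (ZMod Q))
    (hA : Real.exp (-Y) * Q ≤ #A) (hU : (Fintype.card U : ℝ) ≤ Real.exp Y)
    (S : U → Finset (ZMod Q)) (ups : ZMod Q → U) (w : ZMod Q → ℝ)
    (hw : ∀ s, 0 ≤ w s ∧ w s ≤ Real.exp Y) :
    ∃ ξ : Fin ⌊X ^ 6⌋₊ → ZMod Q, ∀ t, (∀ i, nm (ξ i * t) ≤ Real.exp (-(3 * X))) →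
      |∑ s, w s * (Kf A (S (ups s)) (s + t) - Kf A (S (ups s)) s)| ≤
        ε * ∑ s, w s + 2 * Real.exp (-Y) * Q := by
  have Q0 : (0 : ℝ) < Q := by exact_mod_cast (Fact.out : Q.Prime).pos
  have E0 := Real.exp_pos Y
  have κ0 := Real.exp_pos (-Y)
  have κE : Real.exp (-Y) * Real.exp Y = 1 := by rw [← Real.exp_add]; simp
  have E2 : 2 ≤ Real.exp Y := by linarith [Real.add_one_le_exp Y]
  obtain ⟨B, hB⟩ : ∃ B : ℕ, B = ⌈Real.exp Y ^ 2⌉₊ := ⟨_, rfl⟩
  have B1 : Real.exp Y ^ 2 ≤ B := hB ▸ Nat.le_ceil _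
  have B2 : (B : ℝ) ≤ Real.exp Y ^ 3 :=
    hB ▸ (Nat.ceil_lt_add_one (by positivity)).le.trans (by nlinarith)
  have B0 : (0 : ℝ) < B := lt_of_lt_of_le (by positivity) B1
  haveI : NeZero B := ⟨by exact_mod_cast B0.ne'⟩
  haveI : NeZero (Fintype.card U) := ⟨(Fintype.card_pos_iff.2 ⟨ups 0⟩).ne'⟩
  letI : AddCommGroup U := (Fintype.equivFin U).addCommGroup
  set a := Real.exp Y / B with ha
  have a0 : 0 < a := by positivity
  have a1 : a ≤ Real.exp (-Y) := by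
    rw [ha, div_le_iff₀ B0]
    nlinarith
  set c : ZMod Q → ℕ := fun s => ⌊w s / a⌋₊ with hc
  have c1 : ∀ s, a * c s ≤ w s := fun s => by
    rw [← le_div_iff₀' a0]
    exact Nat.floor_le (div_nonneg (hw s).1 a0.le)
  have c2 : ∀ s, w s ≤ a * c s + a := fun s => by
    have := (Nat.lt_floor_add_one (w s / a)).le
    rw [div_le_iff₀ a0] at this
    linarith
  have c3 : ∀ s, c s ≤ B := fun s => by
    have h := (c1 s).trans (hw s).2
    rw [ha, div_mul_eq_mul_div, div_le_iff₀ B0] at h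
    exact_mod_cast le_of_mul_le_mul_left h E0
  let φ : ZMod Q → Finset (U × Fin B) := fun s => {ups s} ×ˢ univ.filter fun h : Fin B => (h : ℕ) < c s
  have cφ : ∀ s, #(φ s) = c s := fun s => by
    rw [card_product, card_singleton, one_mul, Fin.card_filter_val_lt, min_eq_right (c3 s)]
  have dK : ∀ t s, |Kf A (S (ups s)) (s + t) - Kf A (S (ups s)) s| ≤ 1 := fun t s =>
    abs_le.2 ⟨by linarith [Kf_bd A (S (ups s)) (s + t), Kf_bd A (S (ups s)) s],
      by linarith [Kf_bd A (S (ups s)) (s + t), Kf_bd A (S (ups s)) s]⟩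
  have sQ : ∑ _s : ZMod Q, a = a * Q := by
    rw [sum_const, card_univ, ZMod.card, nsmul_eq_mul, mul_comm]
  have key : ∀ t, |∑ s, (c s : ℝ) * (Kf A (S (ups s)) (s + t) - Kf A (S (ups s)) s)| ≤
      ε * ∑ s, (c s : ℝ) + Q → |∑ s, w s * (Kf A (S (ups s)) (s + t) - Kf A (S (ups s)) s)| ≤
        ε * ∑ s, w s + 2 * Real.exp (-Y) * Q := fun t h => by
    have e : ∑ s, w s * (Kf A (S (ups s)) (s + t) - Kf A (S (ups s)) s) =
        a * ∑ s, (c s : ℝ) * (Kf A (S (ups s)) (s + t) - Kf A (S (ups s)) s) +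
          ∑ s, (w s - a * c s) * (Kf A (S (ups s)) (s + t) - Kf A (S (ups s)) s) := by
      rw [mul_sum, ← sum_add_distrib]
      exact sum_congr rfl fun s _ => by ring
    have b1 : |∑ s, (w s - a * c s) * (Kf A (S (ups s)) (s + t) - Kf A (S (ups s)) s)| ≤ a * Q := by
      rw [← sQ]
      refine (abs_sum_le_sum_abs _ _).trans (sum_le_sum fun s _ => ?_)
      rw [abs_mul, abs_of_nonneg (sub_nonneg.2 (c1 s))]
      exact (mul_le_of_le_one_right (sub_nonneg.2 (c1 s)) (dK t s)).trans (by linarith [c2 s])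
    have b2 : a * ∑ s, (c s : ℝ) ≤ ∑ s, w s := by
      rw [mul_sum]
      exact sum_le_sum fun s _ => c1 s
    rw [e]
    refine (abs_add_le _ _).trans ?_
    rw [abs_mul, abs_of_pos a0]
    nlinarith [mul_le_mul_of_nonneg_left h a0.le, mul_le_mul_of_nonneg_left b2 hε.le,
      mul_le_mul_of_nonneg_right a1 Q0.le]
  have s0 : 0 ≤ ∑ s, (c s : ℝ) := sum_nonneg fun _ _ => Nat.cast_nonneg _
  by_cases hs : ∑ s, (c s : ℝ) < Q
  · refine ⟨0, fun t _ => key t ((abs_sum_le_sum_abs _ _).trans ?_)⟩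
    refine (sum_le_sum (g := fun s => (c s : ℝ)) fun s _ => ?_).trans
      (by linarith [mul_nonneg hε.le s0])
    rw [abs_mul, Nat.abs_cast]
    exact mul_le_of_le_one_right (Nat.cast_nonneg _) (dK t s)
  rw [not_lt] at hs
  have cG : (Fintype.card (ZMod Q × U × Fin B) : ℝ) ≤ Real.exp X * (Real.exp (-Y) * Q) := by
    rw [Fintype.card_prod, Fintype.card_prod, ZMod.card, Fintype.card_fin]
    push_cast
    calc _ ≤ Q * (Real.exp Y * Real.exp Y ^ 3) := by gcongr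
      _ = Real.exp Y ^ 5 * (Real.exp (-Y) * Q) := by
        linear_combination (-(Q : ℝ)) * Real.exp Y ^ 4 * κE
      _ ≤ _ := by
        gcongr
        rw [← Real.exp_nat_mul]
        exact Real.exp_le_exp.2 (by push_cast; linarith)
  have A0 : (0 : ℝ) < #A := lt_of_lt_of_le (by positivity) hA
  obtain ⟨ξ, hξ⟩ := ap4 hε hε1 hX1 A φ (fun h => S h.1) (fun s => S (ups s))
    (fun s h hh => by rw [mem_singleton.1 (mem_product.1 hh).1]) A0
    (by simp only [cφ]; exact Q0.trans_le hs) (cG.trans (by gcongr))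
    (by
      simp only [cφ]
      refine cG.trans (mul_le_mul_of_nonneg_left (le_trans ?_ hs) (Real.exp_pos _).le)
      exact mul_le_of_le_one_left Q0.le (by nlinarith))
  refine ⟨ξ, fun t ht => key t ?_⟩
  have h := hξ t ht
  simp only [cφ] at h
  linarith

end Vale.Agent.P057H.H97
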