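import Vale.Agent.P057H.Defs
import Vale.Agent.P057H.Varn
import Vale.Agent.P057L.All

/-! The first model has many progressions (Varnavides averaging). -/

namespace Vale.Agent.P057H.H13

open Finset Vale.Agent.P057H.Varn
open scoped BigOperators

noncomputable section

theorem fib (M : ℕ) [NeZero M] (s : ℕ) (hs : 0 < s) (F : ZMod M → ℝ) (hF : ∀ x, 0 ≤ F x) :
    ∑ d : ZMod M, F (s * d) ≤ s * ∑ d : ZMod M, F d := by
  classical
  rw [← Finset.sum_fiberwise univ (fun d : ZMod M => (s : ZMod M) * d), Finset.mul_sum]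
  refine Finset.sum_le_sum fun e _ => ?_
  rw [Finset.sum_congr rfl (g := fun _ => F e) fun d hd => by rw [(Finset.mem_filter.1 hd).2],
    Finset.sum_const, nsmul_eq_mul]
  refine mul_le_mul_of_nonneg_right ?_ (hF e)
  rcases (univ.filter fun d : ZMod M => (s : ZMod M) * d = e).eq_empty_or_nonempty with h | ⟨d0, h⟩
  · rw [h]
    simp
  · have h0 := (Finset.mem_filter.1 h).2
    have h1 : (univ.filter fun d : ZMod M => (s : ZMod M) * d = e).card ≤
        (univ.filter fun d : ZMod M => s • d = 0).card := by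
      refine Finset.card_le_card_of_injOn (fun d => d - d0) (fun d hd => ?_)
        fun a _ b _ hab => sub_left_injective hab
      have h2 := (Finset.mem_filter.1 (Finset.mem_coe.1 hd)).2
      refine Finset.mem_coe.2 (Finset.mem_filter.2 ⟨Finset.mem_univ _, ?_⟩)
      rw [nsmul_eq_mul, mul_sub, h2, h0, sub_self]
    exact_mod_cast h1.trans (IsAddCyclic.card_nsmul_eq_zero_le hs)

theorem bij (M : ℕ) [NeZero M] (a : ZMod M) (s : ℕ) (hs : 0 < s) (F : ZMod M → ZMod M → ℝ)
    (hF : ∀ x d, 0 ≤ F x d) :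
    ∑ x : ZMod M, ∑ d : ZMod M, F (x + a * d) (s * d) ≤ s * ∑ x : ZMod M, ∑ d : ZMod M, F x d := by
  rw [Finset.sum_comm]
  have h1 : ∀ d : ZMod M, ∑ x : ZMod M, F (x + a * d) (s * d) = ∑ x : ZMod M, F x (s * d) :=
    fun d => Equiv.sum_comp (Equiv.addRight (a * d)) (fun x => F x (s * d))
  simp_rw [h1]
  rw [Finset.sum_comm, Finset.mul_sum]
  exact Finset.sum_le_sum fun x _ => fib M s hs (F x) (hF x)

theorem core (k : ℕ) (hk : 2 ≤ k) (β : ℝ) (hβ : 0 < β) (h : Sz k (β / 2)) :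
    ∃ c : ℝ, 0 < c ∧ ∀ (M : ℕ) [NeZero M], ∀ B : Finset (ZMod M),
      β * M ≤ (B.card : ℝ) →
      c * (M : ℝ) ^ 2 ≤ ∑ x : ZMod M, ∑ d : ZMod M,
        ∏ i ∈ range k, (if x + (i : ZMod M) * d ∈ B then (1 : ℝ) else 0) := by
  classical
  obtain ⟨L, hL, hS⟩ := h
  have hLr : (0 : ℝ) < L := by exact_mod_cast hL
  refine ⟨β / 2 / (L : ℝ) ^ 3, by positivity, fun M _ B hB => ?_⟩
  have hMr : (0 : ℝ) < M := by exact_mod_cast Nat.pos_of_ne_zero (NeZero.ne M)
  set u : ZMod M → ℝ := fun x => if x ∈ B then 1 else 0 with hu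
  have hu0 : ∀ x, 0 ≤ u x := fun x => by simp only [hu]; split_ifs <;> norm_num
  set Λ : ZMod M → ZMod M → ℝ := fun x d => ∏ i ∈ range k, u (x + (i : ZMod M) * d) with hΛ
  have hΛ0 : ∀ x d, 0 ≤ Λ x d := fun x d => Finset.prod_nonneg fun i _ => hu0 _
  have hsu : ∑ x, u x = (B.card : ℝ) := by
    simp only [hu]
    rw [Finset.sum_boole]
    simp
  have key : ∀ x d : ZMod M, ∑ t ∈ range L, u (x + (t : ZMod M) * d) ≤
      β / 2 * L + L * ∑ a ∈ range L, ∑ s ∈ Ico 1 L, Λ (x + (a : ZMod M) * d) ((s : ZMod M) * d) := by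
    intro x d
    have hnn : 0 ≤ ∑ a ∈ range L, ∑ s ∈ Ico 1 L, Λ (x + (a : ZMod M) * d) ((s : ZMod M) * d) :=
      Finset.sum_nonneg fun a _ => Finset.sum_nonneg fun s _ => hΛ0 _ _
    have hc : ∑ t ∈ range L, u (x + (t : ZMod M) * d) =
        (((range L).filter fun t : ℕ => x + (t : ZMod M) * d ∈ B).card : ℝ) := by
      simp only [hu]
      rw [Finset.sum_boole]
    rw [hc]
    by_cases hI : β / 2 * L ≤ (((range L).filter fun t : ℕ => x + (t : ZMod M) * d ∈ B).card : ℝ)
    · obtain ⟨a, s, hs, has⟩ := hS _ (Finset.filter_subset _ _) hI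
      have h0 := Finset.mem_filter.1 (has 0 (by omega))
      have h1 := Finset.mem_filter.1 (has 1 (by omega))
      have ha : a ∈ range L := by simpa using h0.1
      have hsL : s ∈ Ico 1 L := by
        have := Finset.mem_range.1 h1.1
        rw [Finset.mem_Ico]
        omega
      have hone : Λ (x + (a : ZMod M) * d) ((s : ZMod M) * d) = 1 := by
        refine Finset.prod_eq_one fun i hi => ?_
        have h2 := (Finset.mem_filter.1 (has i (Finset.mem_range.1 hi))).2
        have h3 : x + (a : ZMod M) * d + (i : ZMod M) * ((s : ZMod M) * d) =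
            x + ((a + i * s : ℕ) : ZMod M) * d := by push_cast; ring
        simp only [hu]
        rw [h3, if_pos h2]
      have hge : (1 : ℝ) ≤ ∑ a ∈ range L, ∑ s ∈ Ico 1 L,
          Λ (x + (a : ZMod M) * d) ((s : ZMod M) * d) := by
        calc (1 : ℝ) = Λ (x + (a : ZMod M) * d) ((s : ZMod M) * d) := hone.symm
          _ ≤ ∑ s ∈ Ico 1 L, Λ (x + (a : ZMod M) * d) ((s : ZMod M) * d) :=
            Finset.single_le_sum (f := fun s : ℕ => Λ (x + (a : ZMod M) * d) ((s : ZMod M) * d))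
              (fun s _ => hΛ0 _ _) hsL
          _ ≤ _ := Finset.single_le_sum (f := fun a : ℕ => ∑ s ∈ Ico 1 L,
              Λ (x + (a : ZMod M) * d) ((s : ZMod M) * d))
              (fun a _ => Finset.sum_nonneg fun s _ => hΛ0 _ _) ha
      have hle : (((range L).filter fun t : ℕ => x + (t : ZMod M) * d ∈ B).card : ℝ) ≤ L := by
        have := Finset.card_filter_le (range L) fun t : ℕ => x + (t : ZMod M) * d ∈ B
        rw [Finset.card_range] at this
        exact_mod_cast this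
      have : 0 ≤ β / 2 * L := by positivity
      nlinarith
    · have : 0 ≤ (L : ℝ) * ∑ a ∈ range L, ∑ s ∈ Ico 1 L,
          Λ (x + (a : ZMod M) * d) ((s : ZMod M) * d) := by positivity
      linarith [not_le.1 hI]
  have hcard : (Fintype.card (ZMod M) : ℝ) = M := by rw [ZMod.card]
  have lhs : ∑ x : ZMod M, ∑ d : ZMod M, ∑ t ∈ range L, u (x + (t : ZMod M) * d) =
      (M : ℝ) * L * B.card := by
    rw [Finset.sum_comm]
    have : ∀ d : ZMod M, ∑ x : ZMod M, ∑ t ∈ range L, u (x + (t : ZMod M) * d) = L * B.card := by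
      intro d
      rw [Finset.sum_comm]
      have h4 : ∀ t ∈ range L, ∑ x : ZMod M, u (x + (t : ZMod M) * d) = B.card := fun t _ => by
        rw [← hsu]
        exact Equiv.sum_comp (Equiv.addRight ((t : ZMod M) * d)) u
      rw [Finset.sum_congr rfl h4]
      simp
    simp_rw [this]
    simp [mul_assoc]
  set S : ℝ := ∑ x : ZMod M, ∑ d : ZMod M, Λ x d with hSd
  have hS0 : 0 ≤ S := Finset.sum_nonneg fun x _ => Finset.sum_nonneg fun d _ => hΛ0 _ _
  have rhs : ∑ x : ZMod M, ∑ d : ZMod M, ∑ a ∈ range L, ∑ s ∈ Ico 1 L,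
      Λ (x + (a : ZMod M) * d) ((s : ZMod M) * d) ≤ (L : ℝ) ^ 3 * S := by
    have e1 : ∑ x : ZMod M, ∑ d : ZMod M, ∑ a ∈ range L, ∑ s ∈ Ico 1 L,
        Λ (x + (a : ZMod M) * d) ((s : ZMod M) * d) = ∑ a ∈ range L, ∑ s ∈ Ico 1 L,
        ∑ x : ZMod M, ∑ d : ZMod M, Λ (x + (a : ZMod M) * d) ((s : ZMod M) * d) := by
      simp_rw [Finset.sum_comm (s := (univ : Finset (ZMod M))) (t := range L),
        Finset.sum_comm (s := (univ : Finset (ZMod M))) (t := Ico 1 L)]
    rw [e1]
    have e2 : ∀ a ∈ range L, ∑ s ∈ Ico 1 L,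
        ∑ x : ZMod M, ∑ d : ZMod M, Λ (x + (a : ZMod M) * d) ((s : ZMod M) * d) ≤ L * (L * S) := by
      intro a _
      have e3 : ∀ s ∈ Ico 1 L, ∑ x : ZMod M, ∑ d : ZMod M,
          Λ (x + (a : ZMod M) * d) ((s : ZMod M) * d) ≤ L * S := by
        intro s hs
        rw [Finset.mem_Ico] at hs
        refine (bij M _ s (by omega) Λ hΛ0).trans (mul_le_mul_of_nonneg_right ?_ hS0)
        exact_mod_cast hs.2.le
      refine (Finset.sum_le_sum e3).trans ?_
      rw [Finset.sum_const, Nat.card_Ico, nsmul_eq_mul]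
      refine mul_le_mul_of_nonneg_right ?_ (by positivity)
      exact_mod_cast Nat.sub_le L 1
    calc _ ≤ ∑ _a ∈ range L, (L : ℝ) * (L * S) := Finset.sum_le_sum e2
      _ = _ := by rw [Finset.sum_const, Finset.card_range, nsmul_eq_mul]; ring
  have tot : (M : ℝ) * L * B.card ≤ (M : ℝ) ^ 2 * (β / 2 * L) + L * ((L : ℝ) ^ 3 * S) := by
    rw [← lhs]
    calc _ ≤ ∑ x : ZMod M, ∑ d : ZMod M, (β / 2 * L + L * ∑ a ∈ range L, ∑ s ∈ Ico 1 L,
            Λ (x + (a : ZMod M) * d) ((s : ZMod M) * d)) :=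
          Finset.sum_le_sum fun x _ => Finset.sum_le_sum fun d _ => key x d
      _ = (M : ℝ) ^ 2 * (β / 2 * L) + L * ∑ x : ZMod M, ∑ d : ZMod M, ∑ a ∈ range L,
            ∑ s ∈ Ico 1 L, Λ (x + (a : ZMod M) * d) ((s : ZMod M) * d) := by
          simp_rw [Finset.sum_add_distrib, ← Finset.mul_sum]
          simp only [Finset.sum_const, Finset.card_univ, nsmul_eq_mul, hcard]
          ring
      _ ≤ _ := by gcongr
  have h5 : (M : ℝ) * L * (β * M) ≤ (M : ℝ) * L * B.card := by gcongr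
  have h6 : β / 2 * (M : ℝ) ^ 2 ≤ (L : ℝ) ^ 3 * S := by
    have : (L : ℝ) * (β / 2 * (M : ℝ) ^ 2) ≤ L * ((L : ℝ) ^ 3 * S) := by nlinarith
    exact le_of_mul_le_mul_left this hLr
  show _ ≤ S
  rw [div_mul_eq_mul_div, div_le_iff₀ (by positivity)]
  linarith

/-- Weighted form: a bounded nonnegative function of positive mean has many progressions. -/
theorem wt (k : ℕ) (hk : 2 ≤ k) (δ C : ℝ) (hδ : 0 < δ) (hC : 0 < C) (h : ∀ β, 0 < β → Sz k β) :
    ∃ c : ℝ, 0 < c ∧ ∀ (M : ℕ) [NeZero M], ∀ g : ZMod M → ℝ,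
      (∀ x, 0 ≤ g x) → (∀ x, g x ≤ C) → δ * M ≤ ∑ x, g x →
      c * (M : ℝ) ^ 2 ≤ ∑ x : ZMod M, ∑ d : ZMod M, ∏ i ∈ range k, g (x + (i : ZMod M) * d) := by
  classical
  obtain ⟨c, hc, H⟩ := core k hk (δ / 2 / C) (by positivity) (h _ (by positivity))
  refine ⟨(δ / 2) ^ k * c, by positivity, fun M _ g h0 h1 hs => ?_⟩
  have hcard : (Fintype.card (ZMod M) : ℝ) = M := by rw [ZMod.card]
  set B : Finset (ZMod M) := univ.filter fun x => δ / 2 ≤ g x with hB
  have hBc : δ / 2 / C * M ≤ (B.card : ℝ) := by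
    have h2 : ∑ x, g x ≤ ∑ x : ZMod M, (δ / 2 + C * (if δ / 2 ≤ g x then (1 : ℝ) else 0)) := by
      refine Finset.sum_le_sum fun x _ => ?_
      split_ifs with hx
      · linarith [h1 x]
      · linarith [not_le.1 hx]
    rw [Finset.sum_add_distrib, ← Finset.mul_sum, Finset.sum_boole] at h2
    simp only [Finset.sum_const, Finset.card_univ, nsmul_eq_mul, hcard] at h2
    rw [div_mul_eq_mul_div, div_le_iff₀ hC]
    linarith
  have h3 := H M B hBc
  rw [mul_assoc]
  refine (mul_le_mul_of_nonneg_left h3 (by positivity)).trans ?_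
  rw [Finset.mul_sum]
  refine Finset.sum_le_sum fun x _ => ?_
  rw [Finset.mul_sum]
  refine Finset.sum_le_sum fun d _ => ?_
  have e : (δ / 2) ^ k = ∏ _i ∈ range k, δ / 2 := by rw [Finset.prod_const, Finset.card_range]
  rw [e, ← Finset.prod_mul_distrib]
  refine Finset.prod_le_prod (fun i _ => ?_) fun i _ => ?_
  · split_ifs
    · positivity
    · simp
  · split_ifs with hx
    · rw [mul_one]
      exact (Finset.mem_filter.1 hx).2
    · rw [mul_zero]
      exact h0 _

theorem base : BASE := by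
  intro j
  obtain ⟨c, hc, H⟩ := wt (j + 3) (by omega) (1 / 5) 2 (by norm_num) (by norm_num)
    fun β hβ => sz_of (j + 3) (P057L.All.final (j + 3) (by omega)) (by omega) β hβ
  refine ⟨1 / 10, c, by norm_num, le_rfl, hc, 0, fun M N _ f g _ _ h2 _ h4 h5 h6 => ?_⟩
  have hMr : (0 : ℝ) < M := by exact_mod_cast Nat.pos_of_ne_zero (NeZero.ne M)
  have h7 := h6 (fun _ _ => 1) (fun _ _ => 1) (fun _ _ => 1) (fun _ _ => by simp)
    (fun _ _ => by simp) fun _ _ => by simp
  have h8 : 𝔼 ω : Oc j M, (f (sc univ ω) - g (sc univ ω)) = 𝔼 x, (f x - g x) := by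
    rw [← univ_product_univ, expect_product]
    have : ∀ W : Fin j → ZMod M, 𝔼 p : ZMod M × ZMod M, (f (sc univ (W, p)) - g (sc univ (W, p))) =
        𝔼 x, (f x - g x) := fun W => by
      rw [← univ_product_univ, expect_product]
      have h9 : ∀ y : ZMod M, 𝔼 v, (f (sc univ (W, y, v)) - g (sc univ (W, y, v))) =
          𝔼 x, (f x - g x) := fun y =>
        Fintype.expect_equiv (Equiv.addLeft (∑ i, W i + y)) _ _ fun v => rfl
      simp only [h9]
      exact expect_const univ_nonempty _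
    simp only [this]
    exact expect_const univ_nonempty _
  simp only [prod_const_one, one_mul, mul_one] at h7
  rw [h8, Fintype.expect_eq_sum_div_card, ZMod.card, sum_sub_distrib, h4] at h7
  have h10 := (div_le_iff₀ hMr).1 (le_of_abs_le h7)
  have h11 : (M : ℝ) ≤ 4 * N := by exact_mod_cast h2
  have h12 := H M g (fun x => (h5 x).1) (fun x => (h5 x).2.trans (by norm_num)) (by linarith)
  unfold apc
  simp only [Fintype.expect_eq_sum_div_card, ZMod.card, ← sum_div]
  rw [div_div, le_div_iff₀ (by positivity), ← sq]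
  refine h12.trans_eq (sum_congr rfl fun x _ => sum_congr rfl fun d _ => ?_)
  exact (Fin.prod_univ_eq_prod_range (fun i : ℕ => g (x + (i : ZMod M) * d)) (j + 3)).symm

end

end Vale.Agent.P057H.H13
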