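import Mathlib.Algebra.Order.BigOperators.Expect
import Mathlib.Algebra.Order.Chebyshev
import Mathlib.Analysis.Normed.Field.Basic
import Mathlib.Algebra.BigOperators.Fin
import Mathlib.Tactic

/-! The Cauchy-Schwarz inequality for boxes, signed functions. -/

set_option linter.all false

open Finset
open scoped BigOperators

namespace Vale.Agent.P057H.BcsG

theorem ex_prod {α β : Type} [Fintype α] [Fintype β] (f : α × β → ℝ) :
    𝔼 p, f p = 𝔼 a, 𝔼 b, f (a, b) := by
  rw [← univ_product_univ, expect_product]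

theorem ex_cons {G : Type} [Fintype G] {j : ℕ} (f : (Fin (j + 1) → G) → ℝ) :
    𝔼 W, f W = 𝔼 x, 𝔼 W : Fin j → G, f (Fin.cons x W) := by
  rw [← ex_prod fun p : G × (Fin j → G) => f (Fin.cons p.1 p.2)]
  exact (Fintype.expect_equiv (Fin.consEquiv fun _ => G) _ _ fun _ => rfl).symm

theorem cs1 {α : Type} [Fintype α] [Nonempty α] (u g : α → ℝ) (hu : ∀ x, |u x| ≤ 1) :
    (𝔼 x, u x * g x) ^ 2 ≤ 𝔼 x, g x ^ 2 := by
  refine (expect_mul_sq_le_sq_mul_sq _ _ _).trans ?_
  have h1 : 𝔼 x, u x ^ 2 ≤ 1 := expect_le univ_nonempty fun x _ => by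
    rw [← sq_abs]; exact pow_le_one₀ (abs_nonneg _) (hu x)
  exact mul_le_of_le_one_left (expect_nonneg fun _ _ => sq_nonneg _) h1

/-- mixture of two points -/
def mx {G : Type} {j : ℕ} (ω : Fin j → Bool) (W W' : Fin j → G) : Fin j → G :=
  fun i => if ω i then W i else W' i

theorem mx_cons {G : Type} {j : ℕ} (c : Bool) (ω : Fin j → Bool) (x x' : G) (W W' : Fin j → G) :
    mx (Fin.cons c ω) (Fin.cons x W) (Fin.cons x' W') =
      Fin.cons (if c then x else x') (mx ω W W') := by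
  funext i
  refine Fin.cases ?_ (fun i => ?_) i <;> simp [mx]

theorem box0 {G : Type} [Fintype G] [Nonempty G] [DecidableEq G] (j : ℕ) :
    ∀ (P : Type) [Fintype P] [Nonempty P] (Φ : (Fin j → G) → P → ℝ)
      (F : Fin j → (Fin j → G) → P → ℝ), (∀ i W p, |F i W p| ≤ 1) →
      (∀ i W x p, F i (Function.update W i x) p = F i W p) →
      |𝔼 p, 𝔼 W, Φ W p * ∏ i, F i W p| ^ (2 ^ j) ≤
        |𝔼 p, 𝔼 W, 𝔼 W', ∏ ω : Fin j → Bool, Φ (mx ω W W') p| := by
  induction j with
  | zero =>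
    intro P _ _ Φ F _ _
    simp only [pow_zero, pow_one, univ_unique, expect_singleton, prod_singleton, univ_eq_empty,
      prod_empty, mul_one]
    refine le_of_eq (congrArg _ (expect_congr rfl fun p _ => ?_))
    exact congrArg (Φ · p) (Subsingleton.elim _ _)
  | succ j ih =>
    intro P _ _ Φ F hF hI
    obtain ⟨x0⟩ := ‹Nonempty G›
    have h0 : ∀ x W p, F 0 (Fin.cons x W) p = F 0 (Fin.cons x0 W) p := fun x W p => by
      rw [← hI 0 (Fin.cons x W) x0, Fin.update_cons_zero]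
    have h1 : 𝔼 p, 𝔼 W, Φ W p * ∏ i, F i W p = 𝔼 q : P × (Fin j → G),
        F 0 (Fin.cons x0 q.2) q.1 *
          𝔼 x, Φ (Fin.cons x q.2) q.1 * ∏ i : Fin j, F i.succ (Fin.cons x q.2) q.1 := by
      rw [ex_prod]
      refine expect_congr rfl fun p _ => ?_
      rw [ex_cons, expect_comm]
      refine expect_congr rfl fun W _ => ?_
      rw [mul_expect]
      refine expect_congr rfl fun x _ => ?_
      rw [Fin.prod_univ_succ, h0]
      ring
    have h2 := cs1 (fun q : P × (Fin j → G) => F 0 (Fin.cons x0 q.2) q.1) (fun q =>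
      𝔼 x, Φ (Fin.cons x q.2) q.1 * ∏ i : Fin j, F i.succ (Fin.cons x q.2) q.1) fun q => hF _ _ _
    rw [← h1] at h2
    have h3 := ih (P × G × G) (fun W q => Φ (Fin.cons q.2.1 W) q.1 * Φ (Fin.cons q.2.2 W) q.1)
      (fun i W q => F i.succ (Fin.cons q.2.1 W) q.1 * F i.succ (Fin.cons q.2.2 W) q.1)
      (fun i W q => by
        rw [abs_mul]; exact mul_le_one₀ (hF _ _ _) (abs_nonneg _) (hF _ _ _))
      (fun i W x q => by simp only [Fin.cons_update, hI])
    have h4 : 𝔼 q : P × (Fin j → G), (𝔼 x, Φ (Fin.cons x q.2) q.1 *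
        ∏ i : Fin j, F i.succ (Fin.cons x q.2) q.1) ^ 2 = 𝔼 q : P × G × G, 𝔼 W : Fin j → G,
        Φ (Fin.cons q.2.1 W) q.1 * Φ (Fin.cons q.2.2 W) q.1 *
          ∏ i : Fin j, F i.succ (Fin.cons q.2.1 W) q.1 * F i.succ (Fin.cons q.2.2 W) q.1 := by
      rw [ex_prod, ex_prod]
      refine expect_congr rfl fun p _ => ?_
      rw [expect_comm]
      refine expect_congr rfl fun W _ => ?_
      rw [sq, expect_mul_expect, ex_prod]
      refine expect_congr rfl fun x _ => expect_congr rfl fun x' _ => ?_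
      rw [prod_mul_distrib]
      ring
    have h5 : 𝔼 q : P × G × G, 𝔼 W : Fin j → G, 𝔼 W' : Fin j → G, ∏ ω : Fin j → Bool,
        Φ (Fin.cons q.2.1 (mx ω W W')) q.1 * Φ (Fin.cons q.2.2 (mx ω W W')) q.1 =
        𝔼 p, 𝔼 W, 𝔼 W', ∏ ω : Fin (j + 1) → Bool, Φ (mx ω W W') p := by
      rw [ex_prod]
      refine expect_congr rfl fun p _ => ?_
      rw [ex_prod, ex_cons]
      refine expect_congr rfl fun x _ => ?_
      rw [expect_comm]
      refine expect_congr rfl fun W _ => ?_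
      rw [ex_cons]
      refine expect_congr rfl fun x' _ => expect_congr rfl fun W' _ => ?_
      rw [← Fintype.prod_equiv (Fin.consEquiv fun _ => Bool)
        (fun c => Φ (mx (Fin.cons c.1 c.2) (Fin.cons x W) (Fin.cons x' W')) p) _ fun _ => rfl,
        Fintype.prod_prod_type_right]
      refine prod_congr rfl fun ω _ => ?_
      simp [mx_cons]
    rw [h5, ← h4] at h3
    rw [pow_succ', pow_mul, sq_abs]
    exact (pow_le_pow_left₀ (sq_nonneg _) (h2.trans (le_abs_self _)) _).trans h3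

/-- the same with subsets as indices -/
theorem box {G : Type} [Fintype G] [Nonempty G] [DecidableEq G] (j : ℕ)
    (P : Type) [Fintype P] [Nonempty P] (Φ : (Fin j → G) → P → ℝ)
    (F : Fin j → (Fin j → G) → P → ℝ) (hF : ∀ i W p, |F i W p| ≤ 1)
    (hI : ∀ i W x p, F i (Function.update W i x) p = F i W p) :
    |𝔼 p, 𝔼 W, Φ W p * ∏ i, F i W p| ^ (2 ^ j) ≤
      |𝔼 p, 𝔼 W, 𝔼 W', ∏ S : Finset (Fin j), Φ (S.piecewise W W') p| := by
  refine (box0 j P Φ F hF hI).trans_eq (congrArg _ (expect_congr rfl fun p _ =>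
    expect_congr rfl fun W _ => expect_congr rfl fun W' _ => ?_))
  refine prod_bij' (fun ω _ => univ.filter fun i => ω i = true) (fun S _ i => decide (i ∈ S))
    (fun _ _ => mem_univ _) (fun _ _ => mem_univ _) (fun ω _ => by funext i; simp)
    (fun S _ => by ext i; simp) fun ω _ => ?_
  congr 1
  funext i
  simp [mx, piecewise]

/-- general faces are controlled by the tests whose faces are functions of partial sums -/
theorem tj {G : Type} [AddCommGroup G] [Fintype G] [DecidableEq G] (j : ℕ) (h : G → ℝ) (ε : ℝ)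
    (hh : ∀ x, |h x| ≤ 1)
    (hT : ∀ (a b : (Fin j → G) → G → ℝ) (H : Finset (Fin j) → G → ℝ), (∀ W y, |a W y| ≤ 1) →
      (∀ W v, |b W v| ≤ 1) → (∀ S x, |H S x| ≤ 1) →
      |𝔼 W : Fin j → G, 𝔼 y, 𝔼 v, h (∑ i, W i + y + v) * (a W y * b W v *
        ∏ S ∈ (univ : Finset (Finset (Fin j))).erase univ, H S (∑ i ∈ S, W i + y + v))| ≤ ε)
    (a b : (Fin j → G) → G → ℝ) (F : Fin j → (Fin j → G) → G → G → ℝ)
    (ha : ∀ W y, |a W y| ≤ 1) (hb : ∀ W v, |b W v| ≤ 1) (hF : ∀ i W y v, |F i W y v| ≤ 1)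
    (hI : ∀ i W x y v, F i (Function.update W i x) y v = F i W y v) :
    |𝔼 W : Fin j → G, 𝔼 y, 𝔼 v, h (∑ i, W i + y + v) * (a W y * b W v * ∏ i, F i W y v)| ^ (2 ^ j)
      ≤ ε := by
  have h1 := box j (G × G) (fun W p => h (∑ i, W i + p.1 + p.2) * (a W p.1 * b W p.2))
    (fun i W p => F i W p.1 p.2) (fun i W p => hF _ _ _ _) fun i W x p => hI _ _ _ _ _
  have h2 : 𝔼 W : Fin j → G, 𝔼 y, 𝔼 v, h (∑ i, W i + y + v) * (a W y * b W v * ∏ i, F i W y v) =
      𝔼 p : G × G, 𝔼 W : Fin j → G,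
        h (∑ i, W i + p.1 + p.2) * (a W p.1 * b W p.2) * ∏ i, F i W p.1 p.2 := by
    rw [expect_comm (univ : Finset (G × G))]
    refine expect_congr rfl fun W _ => ?_
    rw [ex_prod]
    exact expect_congr rfl fun y _ => expect_congr rfl fun v _ => by ring
  rw [h2]
  refine h1.trans ?_
  have h3 : ∀ W' : Fin j → G, |𝔼 p : G × G, 𝔼 W : Fin j → G, ∏ S : Finset (Fin j),
      h (∑ i, S.piecewise W W' i + p.1 + p.2) *
        (a (S.piecewise W W') p.1 * b (S.piecewise W W') p.2)| ≤ ε := fun W' => by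
    have pb : ∀ (s : Finset (Finset (Fin j))) (u : Finset (Fin j) → ℝ), (∀ S, |u S| ≤ 1) →
        |∏ S ∈ s, u S| ≤ 1 := fun s u hu => by
      rw [abs_prod]; exact prod_le_one (fun _ _ => abs_nonneg _) fun S _ => hu S
    refine le_of_eq_of_le (congrArg _ ?_) (hT (fun W y => ∏ S : Finset (Fin j), a (S.piecewise W W') y)
      (fun W v => ∏ S : Finset (Fin j), b (S.piecewise W W') v)
      (fun S x => h (x + ∑ i ∈ Sᶜ, W' i)) (fun W y => pb _ _ fun _ => ha _ _)
      (fun W v => pb _ _ fun _ => hb _ _) fun S x => hh _)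
    rw [expect_comm]
    refine expect_congr rfl fun W _ => ?_
    rw [ex_prod]
    refine expect_congr rfl fun y _ => expect_congr rfl fun v _ => ?_
    rw [prod_mul_distrib, prod_mul_distrib, ← mul_prod_erase univ _ (mem_univ univ), piecewise_univ,
      prod_congr rfl (g := fun S => h (∑ i ∈ S, W i + y + v + ∑ i ∈ Sᶜ, W' i)) fun S _ => by
        rw [← sum_add_sum_compl S, sum_congr rfl fun i hi => piecewise_eq_of_mem S W W' hi,
          sum_congr rfl fun i hi => piecewise_eq_of_notMem S W W' (mem_compl.1 hi)]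
        congr 1
        abel]
    ring
  have h4 : ∀ T : G × G → (Fin j → G) → (Fin j → G) → ℝ,
      𝔼 p, 𝔼 W, 𝔼 W', T p W W' = 𝔼 W', 𝔼 p, 𝔼 W, T p W W' := fun T => by
    rw [expect_comm (univ : Finset (Fin j → G))]
    exact expect_congr rfl fun p _ => expect_comm _ _ _
  rw [h4]
  exact (abs_expect_le _ _).trans (expect_le univ_nonempty fun W' _ => h3 W')

end Vale.Agent.P057H.BcsG
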