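import Mathlib

/-! The box Cauchy-Schwarz inequality in a finite abelian group. -/

set_option linter.all false

open Finset
open scoped BigOperators

namespace Vale.Agent.P057H.BcsH18

theorem sq_le {ι : Type} [Fintype ι] [Nonempty ι] (f : ι → ℝ) :
    (𝔼 i, f i) ^ 2 ≤ 𝔼 i, f i ^ 2 := by
  have h := expect_mul_sq_le_sq_mul_sq (univ : Finset ι) f (fun _ => (1 : ℝ))
  simpa [expect_const univ_nonempty] using h

theorem jen {ι : Type} [Fintype ι] [Nonempty ι] (n : ℕ) (f : ι → ℝ) :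
    |𝔼 i, f i| ^ (2 ^ n) ≤ 𝔼 i, |f i| ^ (2 ^ n) := by
  induction n with
  | zero => simpa using abs_expect_le (univ : Finset ι) f
  | succ n ih =>
    rw [pow_succ, pow_mul]
    calc (|𝔼 i, f i| ^ (2 ^ n)) ^ 2 ≤ (𝔼 i, |f i| ^ (2 ^ n)) ^ 2 :=
          pow_le_pow_left₀ (by positivity) ih 2
      _ ≤ 𝔼 i, (|f i| ^ (2 ^ n)) ^ 2 := sq_le _
      _ = _ := by simp only [← pow_mul]

theorem exp_cons {G : Type} [Fintype G] {j : ℕ} (F : (Fin (j + 1) → G) → ℝ) :
    𝔼 W, F W = 𝔼 x : G, 𝔼 W : Fin j → G, F (Fin.cons x W) := by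
  rw [← expect_product' (univ : Finset G) (univ : Finset (Fin j → G))
    (fun x W => F (Fin.cons x W)), univ_product_univ]
  symm
  exact Fintype.expect_equiv (Fin.consEquiv fun _ => G) _ _ (fun p => rfl)

theorem shift {G : Type} [AddCommGroup G] [Fintype G] (x : G) (F : G → ℝ) :
    𝔼 y, F (x + y) = 𝔼 y, F y :=
  Fintype.expect_equiv (Equiv.addLeft x) _ _ (fun _ => rfl)

theorem prod_sets {j : ℕ} (F : Finset (Fin (j + 1)) → ℝ) :
    ∏ S, F S = ∏ S : Finset (Fin j),
      F (S.image Fin.succ) * F (insert 0 (S.image Fin.succ)) := by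
  have h0 : (0 : Fin (j + 1)) ∉ (univ : Finset (Fin j)).image Fin.succ := by
    simp [Fin.succ_ne_zero]
  have hu : (univ : Finset (Fin (j + 1))) = insert 0 ((univ : Finset (Fin j)).image Fin.succ) := by
    ext i
    refine Fin.cases ?_ (fun i => ?_) i <;> simp
  have hi : Set.InjOn (fun S : Finset (Fin j) => S.image Fin.succ)
      ((univ : Finset (Fin j)).powerset : Set (Finset (Fin j))) :=
    fun S _ T _ h => image_injective (Fin.succ_injective j) h
  rw [← powerset_univ, hu, prod_powerset_insert h0, powerset_image, prod_image hi, prod_image hi,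
    powerset_univ, prod_mul_distrib]

theorem sum_im {G : Type} [AddCommGroup G] {j : ℕ} (t : G) (W : Fin j → G) (S : Finset (Fin j)) :
    ∑ i ∈ S.image Fin.succ, (Fin.cons t W : Fin (j + 1) → G) i = ∑ i ∈ S, W i := by
  rw [sum_image (fun a _ b _ h => Fin.succ_injective j h)]
  simp

theorem sum_ins {G : Type} [AddCommGroup G] {j : ℕ} (t : G) (W : Fin j → G) (S : Finset (Fin j)) :
    ∑ i ∈ insert 0 (S.image Fin.succ), (Fin.cons t W : Fin (j + 1) → G) i = t + ∑ i ∈ S, W i := by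
  rw [sum_insert (by simp [Fin.succ_ne_zero]), sum_im]
  simp

theorem abs_mul_le {x y : ℝ} (hx : |x| ≤ 1) (hy : |y| ≤ 1) : |x * y| ≤ 1 := by
  rw [abs_mul]
  exact mul_le_one₀ hx (abs_nonneg _) hy

/-- the form with general faces -/
noncomputable def fm {G : Type} [AddCommGroup G] [Fintype G] {j : ℕ} (h : G → ℝ)
    (a b : (Fin j → G) → G → ℝ) (c : Fin j → (Fin j → G) → G → G → ℝ) : ℝ :=
  𝔼 W, 𝔼 y, 𝔼 v, h (∑ i, W i + y + v) * a W y * b W v * ∏ i, c i W y v

theorem step {G : Type} [AddCommGroup G] [Fintype G] {j : ℕ} (h : G → ℝ)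
    (a b : (Fin (j + 1) → G) → G → ℝ) (c : Fin (j + 1) → (Fin (j + 1) → G) → G → G → ℝ)
    (hc : ∀ i W y v, |c i W y v| ≤ 1)
    (hi : ∀ i W x y v, c i (Function.update W i x) y v = c i W y v) :
    fm h a b c ^ 2 ≤ 𝔼 x : G, 𝔼 t : G, fm (fun s => h (x + s) * h (x + t + s))
      (fun W y => a (Fin.cons x W) y * a (Fin.cons (x + t) W) y)
      (fun W v => b (Fin.cons x W) v * b (Fin.cons (x + t) W) v)
      (fun i W y v => c i.succ (Fin.cons x W) y v * c i.succ (Fin.cons (x + t) W) y v) := by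
  set φ : G → (Fin j → G) → G → G → ℝ := fun x W y v =>
    h (x + (∑ i, W i + y + v)) * a (Fin.cons x W) y * b (Fin.cons x W) v *
      ∏ i : Fin j, c i.succ (Fin.cons x W) y v with hφ
  have e1 : fm h a b c = 𝔼 W : Fin j → G, 𝔼 y, 𝔼 v,
      c 0 (Fin.cons 0 W) y v * 𝔼 x, φ x W y v := by
    unfold fm
    rw [exp_cons, expect_comm]
    refine expect_congr rfl fun W _ => ?_
    rw [expect_comm]
    refine expect_congr rfl fun y _ => ?_
    rw [expect_comm]
    refine expect_congr rfl fun v _ => ?_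
    rw [mul_expect]
    refine expect_congr rfl fun x _ => ?_
    have h0 : c 0 (Fin.cons x W) y v = c 0 (Fin.cons 0 W) y v := by
      rw [← hi 0 (Fin.cons 0 W) x y v, Fin.update_cons_zero]
    rw [Fin.prod_univ_succ, Fin.sum_univ_succ, h0]
    simp only [hφ, Fin.cons_zero, Fin.cons_succ, add_assoc]
    ring
  have e2 : ∀ (W : Fin j → G) y v, (c 0 (Fin.cons 0 W) y v * 𝔼 x, φ x W y v) ^ 2 ≤
      𝔼 x, 𝔼 t, φ x W y v * φ (x + t) W y v := by
    intro W y v
    have h1 : c 0 (Fin.cons 0 W) y v ^ 2 ≤ 1 := by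
      rw [← sq_abs]
      exact pow_le_one₀ (abs_nonneg _) (hc _ _ _ _)
    have h2 : (𝔼 x, φ x W y v) ^ 2 = 𝔼 x, 𝔼 t, φ x W y v * φ (x + t) W y v := by
      rw [sq, expect_mul]
      refine expect_congr rfl fun x _ => ?_
      rw [← mul_expect, shift x (fun t => φ t W y v)]
    rw [mul_pow, ← h2]
    exact mul_le_of_le_one_left (sq_nonneg _) h1
  rw [e1]
  calc _ ≤ 𝔼 W : Fin j → G, 𝔼 y, 𝔼 v, 𝔼 x, 𝔼 t, φ x W y v * φ (x + t) W y v := by
        refine (sq_le _).trans (expect_le_expect fun W _ => ?_)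
        refine (sq_le _).trans (expect_le_expect fun y _ => ?_)
        exact (sq_le _).trans (expect_le_expect fun v _ => e2 W y v)
    _ = 𝔼 x, 𝔼 t, 𝔼 W : Fin j → G, 𝔼 y, 𝔼 v, φ x W y v * φ (x + t) W y v := by
        have s1 : ∀ (W : Fin j → G) y, (𝔼 v, 𝔼 x, 𝔼 t, φ x W y v * φ (x + t) W y v) =
            𝔼 x, 𝔼 t, 𝔼 v, φ x W y v * φ (x + t) W y v := by
          intro W y
          rw [expect_comm]
          exact expect_congr rfl fun x _ => expect_comm _ _ _
        have s2 : ∀ (W : Fin j → G), (𝔼 y, 𝔼 x, 𝔼 t, 𝔼 v, φ x W y v * φ (x + t) W y v) =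
            𝔼 x, 𝔼 t, 𝔼 y, 𝔼 v, φ x W y v * φ (x + t) W y v := by
          intro W
          rw [expect_comm]
          exact expect_congr rfl fun x _ => expect_comm _ _ _
        simp only [s1, s2]
        rw [expect_comm]
        exact expect_congr rfl fun x _ => expect_comm _ _ _
    _ = _ := by
        refine expect_congr rfl fun x _ => expect_congr rfl fun t _ => ?_
        unfold fm
        refine expect_congr rfl fun W _ => expect_congr rfl fun y _ => expect_congr rfl fun v _ => ?_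
        simp only [hφ, prod_mul_distrib]
        ring

theorem bcs {G : Type} [AddCommGroup G] [Fintype G] (j : ℕ) (h : G → ℝ)
    (a b : (Fin j → G) → G → ℝ) (c : Fin j → (Fin j → G) → G → G → ℝ)
    (ha : ∀ W y, |a W y| ≤ 1) (hb : ∀ W v, |b W v| ≤ 1) (hc : ∀ i W y v, |c i W y v| ≤ 1)
    (hi : ∀ i W x y v, c i (Function.update W i x) y v = c i W y v) :
    ∃ a' b' : (Fin j → G) → G → ℝ, (∀ W y, |a' W y| ≤ 1) ∧ (∀ W v, |b' W v| ≤ 1) ∧
      |𝔼 W, 𝔼 y, 𝔼 v, h (∑ i, W i + y + v) * a W y * b W v * ∏ i, c i W y v| ^ (2 ^ j) ≤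
        𝔼 W, 𝔼 y, 𝔼 v, a' W y * b' W v * ∏ S : Finset (Fin j), h (∑ i ∈ S, W i + y + v) := by
  induction j generalizing h with
  | zero =>
    have e : ∀ a : (Fin 0 → G) → G → ℝ,
        (𝔼 W, 𝔼 y, 𝔼 v, a W y * b W v * ∏ S : Finset (Fin 0), h (∑ i ∈ S, W i + y + v)) =
        𝔼 W, 𝔼 y, 𝔼 v, h (∑ i, W i + y + v) * a W y * b W v * ∏ i, c i W y v := by
      intro a
      refine expect_congr rfl fun W _ => expect_congr rfl fun y _ => expect_congr rfl fun v _ => ?_
      rw [Fintype.prod_unique, Subsingleton.elim (default : Finset (Fin 0)) ∅]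
      simp
      ring
    rcases abs_cases (𝔼 W, 𝔼 y, 𝔼 v, h (∑ i, W i + y + v) * a W y * b W v * ∏ i, c i W y v) with
      h1 | h1
    · refine ⟨a, b, ha, hb, ?_⟩
      rw [e, pow_zero, pow_one, h1.1]
    · refine ⟨fun W y => -a W y, b, fun W y => by simpa using ha W y, hb, ?_⟩
      rw [e, pow_zero, pow_one, h1.1]
      simp only [mul_neg, neg_mul, expect_neg_distrib]
      exact le_rfl
  | succ j ih =>
    have H := fun x t : G => ih (fun s => h (x + s) * h (x + t + s))
      (fun W y => a (Fin.cons x W) y * a (Fin.cons (x + t) W) y)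
      (fun W v => b (Fin.cons x W) v * b (Fin.cons (x + t) W) v)
      (fun i W y v => c i.succ (Fin.cons x W) y v * c i.succ (Fin.cons (x + t) W) y v)
      (fun W y => abs_mul_le (ha _ _) (ha _ _)) (fun W y => abs_mul_le (hb _ _) (hb _ _))
      (fun i W y v => abs_mul_le (hc _ _ _ _) (hc _ _ _ _))
      (fun i W z y v => by simp only [Fin.cons_update, hi])
    choose A B hA hB hAB using H
    have s := step h a b c hc hi
    have s2 : |fm h a b c| ^ (2 ^ (j + 1)) ≤ 𝔼 x : G, 𝔼 t : G, 𝔼 W : Fin j → G, 𝔼 y, 𝔼 v,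
        A x t W y * B x t W v * ∏ S : Finset (Fin j),
          h (x + (∑ i ∈ S, W i + y + v)) * h (x + t + (∑ i ∈ S, W i + y + v)) := by
      rw [pow_succ', pow_mul, sq_abs]
      refine (pow_le_pow_left₀ (sq_nonneg _) (s.trans (le_abs_self _)) _).trans ?_
      refine (jen j _).trans (expect_le_expect fun x _ => ?_)
      exact (jen j _).trans (expect_le_expect fun t _ => hAB x t)
    obtain ⟨x, -, hx⟩ := exists_le_of_le_expect univ_nonempty s2
    refine ⟨fun W y => A x (W 0) (Fin.tail W) (y - x), fun W v => B x (W 0) (Fin.tail W) v,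
      fun W y => hA _ _ _ _, fun W v => hB _ _ _ _, hx.trans (le_of_eq ?_)⟩
    rw [exp_cons]
    refine expect_congr rfl fun t _ => expect_congr rfl fun W _ => ?_
    rw [← shift x (fun y => 𝔼 v, A x ((Fin.cons t W : Fin (j + 1) → G) 0) (Fin.tail (Fin.cons t W : Fin (j + 1) → G)) (y - x) *
      B x ((Fin.cons t W : Fin (j + 1) → G) 0) (Fin.tail (Fin.cons t W : Fin (j + 1) → G)) v *
      ∏ S : Finset (Fin (j + 1)), h (∑ i ∈ S, (Fin.cons t W : Fin (j + 1) → G) i + y + v))]
    refine expect_congr rfl fun y _ => expect_congr rfl fun v _ => ?_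
    rw [prod_sets]
    simp only [Fin.cons_zero, Fin.tail_cons, sum_im, sum_ins, add_sub_cancel_left]
    congr 1
    refine prod_congr rfl fun S _ => ?_
    congr 2 <;> abel

end Vale.Agent.P057H.BcsH18
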