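import Mathlib

/-! The Cauchy-Schwarz inequality for boxes. -/

set_option linter.all false

open Finset
open scoped BigOperators

namespace Vale.Agent.P057H.BoxG

variable {G : Type} [Fintype G] [Nonempty G]

theorem exp_cons {j : ℕ} (f : (Fin (j + 1) → G) → ℝ) :
    𝔼 W, f W = 𝔼 W : Fin j → G, 𝔼 a : G, f (Fin.cons a W) := by
  classical
  rw [expect_comm, ← expect_product', univ_product_univ]
  exact (Fintype.expect_equiv (Fin.consEquiv fun _ => G) _ _ fun _ => rfl).symm

theorem sq_le {Z : Type} [Fintype Z] (f c : Z → ℝ) (hc : ∀ z, |c z| ≤ 1) :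
    (𝔼 z, f z * c z) ^ 2 ≤ 𝔼 z, f z ^ 2 := by
  refine (expect_mul_sq_le_sq_mul_sq univ f c).trans (mul_le_of_le_one_right
    (expect_nonneg fun _ _ => sq_nonneg _) ?_)
  rcases isEmpty_or_nonempty Z with h | h
  · simp
  · exact expect_le univ_nonempty fun z _ => (sq_le_one_iff_abs_le_one _).2 (hc z)

/-- the mixed point -/
def mix {j : ℕ} (e : Fin j → Bool) (W W' : Fin j → G) : Fin j → G := fun i => if e i then W i else W' i

theorem box0 (j : ℕ) : ∀ (Z : Type) [Fintype Z] (F : (Fin j → G) → Z → ℝ)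
    (c : Fin j → (Fin j → G) → Z → ℝ), (∀ l W z, |c l W z| ≤ 1) →
    (∀ l W a z, c l (Function.update W l a) z = c l W z) →
    (𝔼 z, 𝔼 W, F W z * ∏ l, c l W z) ^ (2 ^ j) ≤
      𝔼 z, 𝔼 W', 𝔼 W, ∏ e : Fin j → Bool, F (mix e W W') z := by
  classical
  induction j with
  | zero =>
    intro Z _ F c _ _
    have e : ∀ (e : Fin 0 → Bool) (W W' : Fin 0 → G), mix e W W' = W := fun _ _ _ =>
      Subsingleton.elim _ _
    simp [e]
  | succ j ih =>
    intro Z _ F c h1 h2
    obtain ⟨a0⟩ := ‹Nonempty G›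
    have c0 : ∀ (a : G) (W : Fin j → G) z, c 0 (Fin.cons a W) z = c 0 (Fin.cons a0 W) z := by
      intro a W z
      rw [← h2 0 (Fin.cons a W) a0 z, Fin.update_cons_zero]
    let P : Z × (Fin j → G) → ℝ := fun p =>
      𝔼 a : G, F (Fin.cons a p.2) p.1 * ∏ l : Fin j, c l.succ (Fin.cons a p.2) p.1
    have e1 : 𝔼 z, 𝔼 W, F W z * ∏ l, c l W z = 𝔼 p : Z × (Fin j → G),
        P p * c 0 (Fin.cons a0 p.2) p.1 := by
      rw [← univ_product_univ, expect_product]
      refine expect_congr rfl fun z _ => ?_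
      rw [exp_cons]
      refine expect_congr rfl fun W _ => ?_
      rw [expect_mul]
      refine expect_congr rfl fun a _ => ?_
      rw [Fin.prod_univ_succ, c0]
      ring
    have e2 : 𝔼 p : Z × (Fin j → G), P p ^ 2 = 𝔼 z : Z × G × G, 𝔼 W : Fin j → G,
        (F (Fin.cons z.2.1 W) z.1 * F (Fin.cons z.2.2 W) z.1) *
          ∏ l : Fin j, (c l.succ (Fin.cons z.2.1 W) z.1 * c l.succ (Fin.cons z.2.2 W) z.1) := by
      rw [← univ_product_univ, ← univ_product_univ (β := G × G), expect_product, expect_product]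
      refine expect_congr rfl fun z _ => ?_
      rw [expect_comm]
      refine expect_congr rfl fun W _ => ?_
      rw [sq, expect_mul_expect, ← univ_product_univ, expect_product]
      refine expect_congr rfl fun a _ => expect_congr rfl fun b _ => ?_
      rw [prod_mul_distrib]
      ring
    have k := ih (Z × G × G) (fun W z => F (Fin.cons z.2.1 W) z.1 * F (Fin.cons z.2.2 W) z.1)
      (fun l W z => c l.succ (Fin.cons z.2.1 W) z.1 * c l.succ (Fin.cons z.2.2 W) z.1)
      (fun l W z => by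
        rw [abs_mul]
        exact mul_le_one₀ (h1 _ _ _) (abs_nonneg _) (h1 _ _ _))
      (fun l W a z => by simp only [Fin.cons_update, h2])
    rw [e1, pow_succ', pow_mul]
    refine (pow_le_pow_left₀ (sq_nonneg _) (sq_le P _ fun p => h1 _ _ _) _).trans ?_
    rw [e2]
    refine k.trans (le_of_eq ?_)
    rw [← univ_product_univ (β := G × G), expect_product]
    refine expect_congr rfl fun z _ => ?_
    rw [exp_cons, expect_comm]
    refine expect_congr rfl fun W' _ => ?_
    rw [← univ_product_univ, expect_product, expect_comm]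
    refine expect_congr rfl fun b _ => ?_
    rw [exp_cons, expect_comm]
    refine expect_congr rfl fun W _ => expect_congr rfl fun a _ => ?_
    rw [← (Fin.consEquiv fun _ : Fin (j + 1) => Bool).prod_comp, Fintype.prod_prod_type,
      Fintype.prod_bool, prod_mul_distrib]
    have m1 : ∀ e : Fin j → Bool, mix (Fin.consEquiv (fun _ => Bool) (true, e)) (Fin.cons a W)
        (Fin.cons b W') = Fin.cons a (mix e W W') := fun e => by
      funext i
      refine Fin.cases rfl (fun i => rfl) i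
    have m2 : ∀ e : Fin j → Bool, mix (Fin.consEquiv (fun _ => Bool) (false, e)) (Fin.cons a W)
        (Fin.cons b W') = Fin.cons b (mix e W W') := fun e => by
      funext i
      refine Fin.cases rfl (fun i => rfl) i
    simp only [m1, m2]

/-- **the box inequality** -/
theorem box (j : ℕ) (Z : Type) [Fintype Z] (F : (Fin j → G) → Z → ℝ)
    (c : Fin j → (Fin j → G) → Z → ℝ) (h1 : ∀ l W z, |c l W z| ≤ 1)
    (h2 : ∀ l W a z, c l (Function.update W l a) z = c l W z) :
    (𝔼 z, 𝔼 W, F W z * ∏ l, c l W z) ^ (2 ^ j) ≤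
      𝔼 z, 𝔼 W', 𝔼 W, ∏ S : Finset (Fin j), F (S.piecewise W W') z := by
  classical
  refine (box0 j Z F c h1 h2).trans (le_of_eq ?_)
  refine expect_congr rfl fun z _ => expect_congr rfl fun W' _ => expect_congr rfl fun W _ => ?_
  refine prod_nbij' (fun e => univ.filter fun i => e i = true) (fun S i => decide (i ∈ S))
    (by simp) (by simp) (fun e _ => by funext i; simp) (fun S _ => by ext i; simp) fun e _ => ?_
  congr 1
  funext i
  simp [mix, piecewise]

/-- general faces are controlled by arithmetic faces -/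
theorem bcs {G : Type} [AddCommGroup G] [Fintype G] (j : ℕ) (h : G → ℝ) {B δ : ℝ} (hB : 0 < B)
    (hh : ∀ x, |h x| ≤ B)
    (hT : ∀ (a b : (Fin j → G) → G → ℝ) (H : Finset (Fin j) → G → ℝ), (∀ W y, |a W y| ≤ 1) →
      (∀ W v, |b W v| ≤ 1) → (∀ S x, |H S x| ≤ 1) →
      𝔼 W, 𝔼 y, 𝔼 v, h (∑ i, W i + y + v) * (a W y * b W v *
        ∏ S ∈ univ.erase univ, H S (∑ i ∈ S, W i + y + v)) ≤ δ)
    (a b : (Fin j → G) → G → ℝ) (c : Fin j → (Fin j → G) → G → G → ℝ) (ha : ∀ W y, |a W y| ≤ 1)
    (hb : ∀ W v, |b W v| ≤ 1) (hc : ∀ l W y v, |c l W y v| ≤ 1)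
    (hi : ∀ l W t y v, c l (Function.update W l t) y v = c l W y v) :
    (𝔼 W, 𝔼 y, 𝔼 v, h (∑ i, W i + y + v) * (a W y * b W v * ∏ l, c l W y v)) ^ (2 ^ j) ≤
      B ^ (2 ^ j - 1) * δ := by
  classical
  have k := box j (G × G) (fun W z => h (∑ i, W i + z.1 + z.2) * (a W z.1 * b W z.2))
    (fun l W z => c l W z.1 z.2) (fun _ _ _ => hc _ _ _ _) fun _ _ _ _ => hi _ _ _ _ _
  have e1 : 𝔼 W, 𝔼 y, 𝔼 v, h (∑ i, W i + y + v) * (a W y * b W v * ∏ l, c l W y v) =
      𝔼 z : G × G, 𝔼 W, h (∑ i, W i + z.1 + z.2) * (a W z.1 * b W z.2) * ∏ l, c l W z.1 z.2 := by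
    rw [expect_comm univ (univ : Finset (Fin j → G))]
    refine expect_congr rfl fun W _ => ?_
    rw [← univ_product_univ, expect_product]
    simp only [mul_assoc]
  have pr : ∀ {ι : Type} (s : Finset ι) (f : ι → ℝ), (∀ i, |f i| ≤ 1) → |∏ i ∈ s, f i| ≤ 1 :=
    fun s f hf => by
      rw [abs_prod]
      exact prod_le_one (fun _ _ => abs_nonneg _) fun i _ => hf i
  rw [e1]
  refine k.trans ?_
  rw [expect_comm]
  refine expect_le univ_nonempty fun W' _ => ?_
  refine le_trans (le_of_eq ?_) (mul_le_mul_of_nonneg_left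
    (hT (fun W y => ∏ S : Finset (Fin j), a (S.piecewise W W') y)
      (fun W v => ∏ S : Finset (Fin j), b (S.piecewise W W') v)
      (fun S x => h (x + ∑ i ∈ Sᶜ, W' i) / B) (fun _ _ => pr _ _ fun _ => ha _ _)
      (fun _ _ => pr _ _ fun _ => hb _ _) fun S x => by
        rw [abs_div, abs_of_pos hB, div_le_one hB]
        exact hh _) (pow_pos hB _).le)
  rw [expect_comm, mul_expect]
  refine expect_congr rfl fun W _ => ?_
  rw [← univ_product_univ, expect_product, mul_expect]
  refine expect_congr rfl fun y _ => ?_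
  rw [mul_expect]
  refine expect_congr rfl fun v _ => ?_
  have e2 : ∀ S : Finset (Fin j), ∑ i, S.piecewise W W' i + y + v =
      ∑ i ∈ S, W i + y + v + ∑ i ∈ Sᶜ, W' i := fun S => by
    rw [sum_piecewise, univ_inter, ← compl_eq_univ_sdiff]
    abel
  rw [prod_mul_distrib, prod_mul_distrib, ← mul_prod_erase univ _ (mem_univ univ), piecewise_univ,
    prod_div_distrib, prod_const, card_erase_of_mem (mem_univ _), card_univ, Fintype.card_finset,
    Fintype.card_fin]
  simp only [e2]
  field_simp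

end Vale.Agent.P057H.BoxG
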