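import Vale.Agent.P057Z.Km.Cs
import Vale.Agent.P057Z.Km.Apa

/-! Almost periods for many sets at once, off a small exceptional set. -/

set_option linter.all false

open Finset
open scoped BigOperators

namespace Vale.Agent.P057H.CsG

open Vale.Agent.P057Z.Km Vale.Agent.P057Z.Km.Cs
open Vale.Agent.P015.R2.H74 (avg)

variable {G : Type} [AddCommGroup G] [Fintype G] [DecidableEq G] {ι : Type}

open Classical in
theorem good {A : Finset G} (U : Finset ι) (S : ι → Finset G) (hA : A.Nonempty) {ε δ : ℝ}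
    (hε : 0 < ε) (hε1 : ε ≤ 1) (hδ : 0 < δ) (n : ℕ)
    (hn : 4 * Real.exp (-(ε ^ 2 * n / 4)) * #U ≤ δ) :
    (1 / 2 : ℝ) * (#A : ℝ) ^ n ≤ #{v ∈ Fintype.piFinset fun _ : Fin n => A |
      (#{y : G | ∃ u ∈ U, Bad A (S u) ε v y} : ℝ) ≤ δ * Fintype.card G} := by
  set P := Fintype.piFinset fun _ : Fin n => A with hP
  set c := δ * Fintype.card G with hc
  have hG : (0 : ℝ) < Fintype.card G := by exact_mod_cast Fintype.card_pos
  have hc0 : 0 < c := mul_pos hδ hG
  have h1 : (#P : ℝ) = (#A : ℝ) ^ n := by simp [hP]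
  have hp : (0 : ℝ) ≤ (#A : ℝ) ^ n := by positivity
  have h2 : ∑ v ∈ P, (#{y : G | ∃ u ∈ U, Bad A (S u) ε v y} : ℝ) ≤ c / 2 * (#A : ℝ) ^ n := by
    rw [card_swap]
    refine (sum_le_card_nsmul _ _ (δ / 2 * (#A : ℝ) ^ n) fun y _ => ?_).trans ?_
    · have k1 : ({v ∈ P | ∃ u ∈ U, Bad A (S u) ε v y} : Finset _) ⊆
          U.biUnion fun u => {v ∈ P | Bad A (S u) ε v y} := fun v hv => by
        obtain ⟨h, u, hu, hb⟩ := mem_filter.1 hv
        exact mem_biUnion.2 ⟨u, hu, mem_filter.2 ⟨h, hb⟩⟩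
      have k2 : (#{v ∈ P | ∃ u ∈ U, Bad A (S u) ε v y} : ℝ) ≤
          ∑ u ∈ U, (#{v ∈ P | Bad A (S u) ε v y} : ℝ) := by
        exact_mod_cast (card_le_card k1).trans card_biUnion_le
      refine k2.trans ((sum_le_card_nsmul _ _
        (2 * Real.exp (-(ε ^ 2 * n / 4)) * (#A : ℝ) ^ n) fun u _ => ?_).trans ?_)
      · refine le_of_eq_of_le ?_ (tuple_tail A hA (fun a => ind (S u) (y + a))
          (fun a _ => ind_bd _ _) n ε hε hε1)
        exact congrArg _ (congrArg _ (filter_congr_decidable ..))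
      · rw [nsmul_eq_mul]
        nlinarith
    · rw [nsmul_eq_mul, card_univ, hc]
      exact le_of_eq (by ring)
  have h3 : (#{v ∈ P | (#{y : G | ∃ u ∈ U, Bad A (S u) ε v y} : ℝ) ≤ c} : ℝ) +
      #{v ∈ P | ¬(#{y : G | ∃ u ∈ U, Bad A (S u) ε v y} : ℝ) ≤ c} = #P := by
    exact_mod_cast card_filter_add_card_filter_not (s := P) _
  have h4 : #{v ∈ P | ¬(#{y : G | ∃ u ∈ U, Bad A (S u) ε v y} : ℝ) ≤ c} • c ≤
      c / 2 * (#A : ℝ) ^ n :=
    ((card_nsmul_le_sum _ _ _ fun v hv => (not_le.1 (mem_filter.1 hv).2).le).trans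
      (sum_le_sum_of_subset_of_nonneg (filter_subset _ _) fun _ _ _ => Nat.cast_nonneg _)).trans h2
  rw [nsmul_eq_mul] at h4
  nlinarith

theorem near (T : Finset G) (b : G → G → G → ℝ) (e β : ℝ) (hb : ∀ t t' x, 0 ≤ b t t' x)
    (hβ : ∀ t ∈ T, ∀ t' ∈ T, ∑ x, b t t' x ≤ β) (k : ℕ) :
    ∃ η : G → ℝ, (∀ x, 0 ≤ η x) ∧ ∑ x, η x ≤ k * β * ((#T : ℝ) ^ 2) ^ k ∧
      ∀ f : G → ℝ, (∀ t ∈ T, ∀ t' ∈ T, ∀ x, |f (x + (t - t')) - f x| ≤ e + b t t' x) →
        ∀ x, |((avg T)^[k] f) x - ((#T : ℝ) ^ 2) ^ k * f x| ≤ k * e * ((#T : ℝ) ^ 2) ^ k + η x := by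
  induction k with
  | zero => exact ⟨0, fun _ => le_rfl, by simp, fun f _ x => by simp⟩
  | succ k ih =>
    obtain ⟨η, h0, h1, h2⟩ := ih
    have a3 : (0 : ℝ) ≤ ((#T : ℝ) ^ 2) ^ k := by positivity
    refine ⟨fun x => ∑ t ∈ T, ∑ t' ∈ T, (η (x + (t - t')) + ((#T : ℝ) ^ 2) ^ k * b t t' x),
      fun x => sum_nonneg fun t _ => sum_nonneg fun t' _ =>
        add_nonneg (h0 _) (mul_nonneg a3 (hb _ _ _)), ?_, fun f hf x => ?_⟩
    · rw [sum_comm]
      refine (sum_le_sum (g := fun _ => ∑ t' ∈ T, (k + 1) * β * ((#T : ℝ) ^ 2) ^ k)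
        fun t ht => ?_).trans_eq ?_
      · rw [sum_comm]
        refine sum_le_sum fun t' ht' => ?_
        rw [sum_add_distrib, ← mul_sum,
          show ∑ x, η (x + (t - t')) = ∑ x, η x from Equiv.sum_comp (Equiv.addRight (t - t')) η]
        have := mul_le_mul_of_nonneg_left (hβ t ht t' ht') a3
        linarith
      · simp only [sum_const, nsmul_eq_mul]
        push_cast
        ring
    · rw [Function.iterate_succ_apply']
      have h3 := h2 f hf
      generalize (avg T)^[k] f = g at h3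
      have h4 : avg T g x - ((#T : ℝ) ^ 2) ^ (k + 1) * f x =
          ∑ t ∈ T, ∑ t' ∈ T, (g (x + (t - t')) - ((#T : ℝ) ^ 2) ^ k * f x) := by
        simp only [avg, sum_sub_distrib, sum_const, nsmul_eq_mul]
        ring
      rw [h4]
      refine (abs_sum_le_sum_abs _ _).trans ((sum_le_sum fun t ht =>
        (abs_sum_le_sum_abs _ _).trans (sum_le_sum (g := fun t' =>
          (k + 1) * e * ((#T : ℝ) ^ 2) ^ k + (η (x + (t - t')) + ((#T : ℝ) ^ 2) ^ k * b t t' x))
          fun t' ht' => ?_)).trans_eq ?_)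
      · have a1 := abs_le.1 (h3 (x + (t - t')))
        have a2 := abs_le.1 (hf t ht t' ht' x)
        have a4 := mul_le_mul_of_nonneg_left a2.1 a3
        have a5 := mul_le_mul_of_nonneg_left a2.2 a3
        exact abs_le.2 ⟨by linarith [a1.1], by linarith [a1.2]⟩
      · simp only [sum_add_distrib, sum_const, nsmul_eq_mul]
        push_cast
        ring

theorem shift (T : Finset G) (f : G → ℝ) (s : G) (k : ℕ) (x : G) :
    ((avg T)^[k] fun u => f (s + u)) x = ((avg T)^[k] f) (s + x) := by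
  induction k generalizing x with
  | zero => rfl
  | succ k ih =>
    rw [Function.iterate_succ_apply', Function.iterate_succ_apply']
    simp only [avg, ih, add_assoc]

theorem F_psi (A S : Finset G) (y : G) : F A S y = psi A {0} S y := by
  simp only [psi, F, ind, card_filter, sum_product, sum_singleton, add_zero, card_singleton,
    Nat.cast_one, mul_one, add_comm y]
  push_cast
  rfl

open Classical in
theorem csm (A : Finset G) (U : Finset ι) (S : ι → Finset G) (ε δ κ K : ℝ) (k n j : ℕ)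
    (hA : A.Nonempty) (hK : (Fintype.card G : ℝ) ≤ K * #A) (ε0 : 0 < ε) (ε1 : ε ≤ 1) (δ0 : 0 < δ)
    (κ0 : 0 ≤ κ) (n1 : 1 ≤ n) (hn : 4 * Real.exp (-(ε ^ 2 * n / 4)) * #U ≤ δ)
    (hj : 16 * Real.log (8 * K ^ n) < j) :
    ∃ (Λ : Finset (AddChar G ℂ)) (Z : Finset G), #Λ ≤ j ∧ ε * #Z ≤ 2 * k * δ * Fintype.card G ∧
      ∀ u ∈ U, ∀ s t, s ∉ Z → s + t ∉ Z → (∀ lam ∈ Λ, ‖lam t - 1‖ ≤ κ) →
        |F A (S u) (s + t) - F A (S u) s| ≤ (4 * k + 2) * ε + √K * (j * κ + 2 / 4 ^ k) := by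
  have a1 : (0 : ℝ) < #A := by exact_mod_cast hA.card_pos
  have hG : (0 : ℝ) < Fintype.card G := by exact_mod_cast Fintype.card_pos
  have K0 : 0 < K := (mul_pos_iff_of_pos_right a1).1 (hG.trans_le hK)
  have hn0 : (0 : ℝ) < n := by exact_mod_cast n1
  obtain ⟨z, hz⟩ := pigeon (D := univ) (U := univ) hA univ_nonempty (fun _ _ _ _ => mem_univ _) _
    (filter_subset _ _) (good U S hA ε0 ε1 δ0 n hn)
  generalize hT : ({t ∈ (univ : Finset G) | (fun i => z i - t) ∈
    ({v ∈ Fintype.piFinset fun _ : Fin n => A |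
      (#{y : G | ∃ u ∈ U, Bad A (S u) ε v y} : ℝ) ≤ δ * Fintype.card G} : Finset _)} : Finset G) = T
    at hz
  have hTg : ∀ t ∈ T, (#{y : G | ∃ u ∈ U, Bad A (S u) ε (fun i => z i - t) y} : ℝ) ≤
      δ * Fintype.card G := fun t ht => by
    rw [← hT] at ht
    exact (mem_filter.1 (mem_filter.1 ht).2).2
  rw [card_univ] at hz
  have hTn : T.Nonempty := card_pos.1 (Nat.cast_pos.1 (lt_of_lt_of_le (by positivity) hz))
  obtain ⟨Λ, hΛ, hΛ'⟩ := P057.local_chang T univ univ univ j (subset_univ _) hTn univ_nonempty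
    (fun _ _ _ _ => mem_univ _) (by rw [card_univ]; linarith) (1 / 2 * (1 / K) ^ n)
    (by positivity) (le_trans (by
      have k1 : 1 / K ≤ (#A : ℝ) / Fintype.card G := by
        rw [div_le_div_iff₀ K0 hG]
        linarith
      rw [card_univ]
      gcongr) hz) (by
      rwa [show 4 / (1 / 2 * (1 / K) ^ n) = 8 * K ^ n by
        rw [one_div_pow]
        field_simp
        norm_num])
  obtain ⟨w, hw⟩ : ∃ w : G → G → ℝ, ∀ t y, w t y =
      if ∃ u ∈ U, Bad A (S u) ε (fun i => z i - t) y then (1 : ℝ) else 0 := ⟨_, fun _ _ => rfl⟩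
  have w0 : ∀ t y, 0 ≤ w t y := fun t y => by rw [hw]; split_ifs <;> norm_num
  have w1 : ∀ t ∈ T, ∑ y, w t y ≤ δ * Fintype.card G := fun t ht => by
    simp only [hw]
    rw [sum_boole]
    exact hTg t ht
  obtain ⟨η, η0, η1, η2⟩ := near T (fun t t' x => w t (x + (t - t')) + w t' x) (2 * ε)
    (2 * (δ * Fintype.card G)) (fun t t' x => add_nonneg (w0 _ _) (w0 _ _)) (fun t ht t' ht' => by
      rw [sum_add_distrib, show ∑ x, w t (x + (t - t')) = ∑ x, w t x from
        Equiv.sum_comp (Equiv.addRight (t - t')) (w t)]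
      linarith [w1 t ht, w1 t' ht']) k
  have a4 : (0 : ℝ) < ((#T : ℝ) ^ 2) ^ k := by
    have : (0 : ℝ) < #T := by exact_mod_cast hTn.card_pos
    positivity
  refine ⟨Λ, univ.filter fun x => ε * ((#T : ℝ) ^ 2) ^ k < η x, hΛ, ?_, fun u hu s t hs hst ht => ?_⟩
  · have k1 : #({x | ε * ((#T : ℝ) ^ 2) ^ k < η x} : Finset G) • (ε * ((#T : ℝ) ^ 2) ^ k) ≤
        ∑ x, η x := (card_nsmul_le_sum _ _ _ fun v hv => (mem_filter.1 hv).2.le).trans
      (sum_le_sum_of_subset_of_nonneg (filter_subset _ _) fun _ _ _ => η0 _)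
    rw [nsmul_eq_mul] at k1
    exact le_of_mul_le_mul_right (by linarith) a4
  have hper := η2 (F A (S u)) fun t ht t' ht' x => by
    have b1 := F_bd hA (S u) (x + (t - t'))
    have b2 := F_bd hA (S u) x
    rw [abs_le, hw, hw]
    split_ifs with p q q
    · constructor <;> linarith
    · constructor <;> linarith
    · constructor <;> linarith
    · have p' := fun h => p ⟨u, hu, h⟩
      have q' := fun h => q ⟨u, hu, h⟩
      simp only [Bad, imp_false, not_lt, abs_le] at p' q'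
      rw [sum_congr rfl fun i _ => congrArg (ind (S u))
        (show x + (t - t') + (z i - t) = x + (z i - t') by abel)] at p'
      constructor <;> nlinarith
  have hc := (Apa.compare T (fun y => F A (S u) (s + y))
    (fun γ => Apa.cf A {0} (S u) γ * γ s) (fun y => by
      rw [F_psi, Apa.psi_fourier]
      exact sum_congr rfl fun γ _ => by rw [AddChar.map_add_eq_mul, mul_assoc]) k t
    (η := j * κ) (by positivity) fun γ hγ => by
      obtain ⟨χ, k1, k2⟩ := hΛ' γ hγ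
      have k3 := Apa.char_le univ_nonempty k1 (x := t) (κ := 0) (by simp)
      have k4 := sum_le_card_nsmul Λ _ κ ht
      have k5 : (#Λ : ℝ) * κ ≤ j * κ := by gcongr
      rw [nsmul_eq_mul] at k4
      linarith [k2 t])
  have hcf : ∑ γ : AddChar G ℂ, ‖Apa.cf A {0} (S u) γ * γ s‖ ≤ √K := by
    simp only [norm_mul, AddChar.norm_apply, mul_one]
    exact Apa.cf_le hA (singleton_nonempty _)
      (le_trans (by exact_mod_cast card_le_univ _) hK)
  replace hc := hc.trans (mul_le_mul_of_nonneg_right hcf (by positivity))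
  rw [shift, shift, add_zero] at hc
  have b0 : η s ≤ ε * ((#T : ℝ) ^ 2) ^ k := not_lt.1 fun h => hs (mem_filter.2 ⟨mem_univ _, h⟩)
  have b0' : η (s + t) ≤ ε * ((#T : ℝ) ^ 2) ^ k :=
    not_lt.1 fun h => hst (mem_filter.2 ⟨mem_univ _, h⟩)
  have b1 := abs_le.1 (hper (s + t))
  have b2 := abs_le.1 (hper s)
  have b3 := abs_le.1 hc
  exact abs_le.2 ⟨le_of_mul_le_mul_left (by linarith [b1.2, b2.1, b3.1]) a4,
    le_of_mul_le_mul_left (by linarith [b1.1, b2.2, b3.2]) a4⟩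

end Vale.Agent.P057H.CsG
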