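import Vale.Agent.P057Z.Km.Cs
import Vale.Agent.P057Z.Km.Apa

/-! Almost periods for many sets at once, outside a small set. -/

set_option linter.all false

open Finset
open scoped BigOperators

namespace Vale.Agent.P057H.CsmH64

open Vale.Agent.P057Z.Km Vale.Agent.P057Z.Km.Cs Vale.Agent.P057Z.Km.Apa
open Vale.Agent.P015.R2.H74 (avg)

variable {G : Type} [AddCommGroup G] [Fintype G] [DecidableEq G] {ι : Type}

open Classical in
theorem good (A : Finset G) (I : Finset ι) (S : ι → Finset G) (hA : A.Nonempty) {ε c : ℝ}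
    (hε : 0 < ε) (hε1 : ε ≤ 1) (hc : 0 < c) (n : ℕ)
    (hn : 4 * Real.exp (-(ε ^ 2 * n / 4)) * (#I * Fintype.card G) ≤ c) :
    (1 / 2 : ℝ) * (#A : ℝ) ^ n ≤ #{v ∈ Fintype.piFinset fun _ : Fin n => A |
      (#{y ∈ (univ : Finset G) | ∃ u ∈ I, Bad A (S u) ε v y} : ℝ) ≤ c} := by
  set P := Fintype.piFinset fun _ : Fin n => A with hP
  have h1 : (#P : ℝ) = (#A : ℝ) ^ n := by simp [hP]
  have h2 : ∑ v ∈ P, (#{y ∈ (univ : Finset G) | ∃ u ∈ I, Bad A (S u) ε v y} : ℝ) ≤
      c / 2 * (#A : ℝ) ^ n := by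
    rw [card_swap]
    refine (sum_le_card_nsmul _ _ (#I * (2 * Real.exp (-(ε ^ 2 * n / 4)) * (#A : ℝ) ^ n))
      fun y _ => ?_).trans ?_
    · have h3 : {v ∈ P | ∃ u ∈ I, Bad A (S u) ε v y} ⊆
          I.biUnion fun u => {v ∈ P | Bad A (S u) ε v y} := fun v hv => by
        obtain ⟨h4, u, hu, h5⟩ := mem_filter.1 hv
        exact mem_biUnion.2 ⟨u, hu, mem_filter.2 ⟨h4, h5⟩⟩
      have h4 : (#{v ∈ P | ∃ u ∈ I, Bad A (S u) ε v y} : ℝ) ≤
          ∑ u ∈ I, (#{v ∈ P | Bad A (S u) ε v y} : ℝ) := by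
        exact_mod_cast (card_le_card h3).trans card_biUnion_le
      refine h4.trans ((sum_le_card_nsmul _ _ _ fun u _ => ?_).trans_eq (nsmul_eq_mul _ _))
      refine le_of_eq_of_le ?_ (tuple_tail A hA (fun a => ind (S u) (y + a))
        (fun a _ => ind_bd _ _) n ε hε hε1)
      exact congrArg _ (congrArg _ (filter_congr_decidable ..))
    · rw [nsmul_eq_mul, card_univ]
      have : (0 : ℝ) ≤ (#A : ℝ) ^ n := by positivity
      nlinarith
  have h3 : (#{v ∈ P | (#{y ∈ (univ : Finset G) | ∃ u ∈ I, Bad A (S u) ε v y} : ℝ) ≤ c} : ℝ) +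
      #{v ∈ P | ¬(#{y ∈ (univ : Finset G) | ∃ u ∈ I, Bad A (S u) ε v y} : ℝ) ≤ c} = #P := by
    exact_mod_cast card_filter_add_card_filter_not (s := P) _
  have h4 : #{v ∈ P | ¬(#{y ∈ (univ : Finset G) | ∃ u ∈ I, Bad A (S u) ε v y} : ℝ) ≤ c} • c ≤
      c / 2 * (#A : ℝ) ^ n :=
    ((card_nsmul_le_sum _ _ _ fun v hv => (not_le.1 (mem_filter.1 hv).2).le).trans
      (sum_le_sum_of_subset_of_nonneg (filter_subset _ _) fun _ _ _ => Nat.cast_nonneg _)).trans h2
  rw [nsmul_eq_mul] at h4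
  nlinarith

theorem sum_avg (T : Finset G) (E : G → ℝ) : ∑ y, avg T E y = (#T : ℝ) ^ 2 * ∑ y, E y := by
  unfold avg
  rw [sum_comm]
  have h : ∀ t ∈ T, ∑ y, ∑ t' ∈ T, E (y + (t - t')) = #T * ∑ y, E y := fun t _ => by
    rw [sum_comm, sum_congr rfl fun t' _ => show ∑ y, E (y + (t - t')) = ∑ y, E y from
      Equiv.sum_comp (Equiv.addRight (t - t')) E, sum_const, nsmul_eq_mul]
  rw [sum_congr rfl h, sum_const, nsmul_eq_mul]
  ring

theorem iter (T : Finset G) (hT : T.Nonempty) (I : Finset ι) (f : ι → G → ℝ) (e : G → ℝ) (δ c : ℝ)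
    (he : ∀ y, 0 ≤ e y) (hs : ∑ y, e y ≤ c)
    (h : ∀ u ∈ I, ∀ y, |avg T (f u) y - (#T : ℝ) ^ 2 * f u y| ≤ (#T : ℝ) ^ 2 * (δ + e y)) (k : ℕ) :
    ∃ E : G → ℝ, (∀ y, 0 ≤ E y) ∧ ∑ y, E y ≤ k * c ∧ ∀ u ∈ I, ∀ y,
      |((avg T)^[k] (f u)) y - ((#T : ℝ) ^ 2) ^ k * f u y| ≤ ((#T : ℝ) ^ 2) ^ k * (k * δ + E y) := by
  have a1 : (0 : ℝ) < (#T : ℝ) ^ 2 := by
    have : (0 : ℝ) < #T := by exact_mod_cast hT.card_pos
    positivity
  induction k with
  | zero => exact ⟨fun _ => 0, fun _ => le_rfl, by simp, fun u _ y => by simp⟩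
  | succ k ih =>
    obtain ⟨E, h0, h1, h2⟩ := ih
    refine ⟨fun y => avg T E y / (#T : ℝ) ^ 2 + e y, fun y => add_nonneg (div_nonneg
      (sum_nonneg fun _ _ => sum_nonneg fun _ _ => h0 _) a1.le) (he y), ?_, fun u hu y => ?_⟩
    · rw [sum_add_distrib, ← sum_div, sum_avg, mul_div_cancel_left₀ _ a1.ne']
      push_cast
      linarith
    · rw [Function.iterate_succ_apply']
      have h3 := h2 u hu
      generalize (avg T)^[k] (f u) = g at h3
      obtain ⟨τ, hτ⟩ : ∃ τ, τ = ((#T : ℝ) ^ 2) ^ k := ⟨_, rfl⟩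
      have a2 : 0 < τ := by rw [hτ]; positivity
      rw [pow_succ ((#T : ℝ) ^ 2) k, ← hτ]
      rw [← hτ] at h3
      have h4 : avg T g y - τ * avg T (f u) y =
          ∑ t ∈ T, ∑ t' ∈ T, (g (y + (t - t')) - τ * f u (y + (t - t'))) := by
        simp only [avg, sum_sub_distrib, mul_sum]
      have h5 : |avg T g y - τ * avg T (f u) y| ≤ τ * ((#T : ℝ) ^ 2 * (k * δ) + avg T E y) := by
        rw [h4]
        refine (abs_sum_le_sum_abs _ _).trans ((sum_le_sum fun t _ =>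
          (abs_sum_le_sum_abs _ _).trans (sum_le_sum fun t' _ => h3 _)).trans_eq ?_)
        simp only [avg, mul_add, sum_add_distrib, sum_const, nsmul_eq_mul, mul_sum]
        ring
      have h6 := mul_le_mul_of_nonneg_left (h u hu y) a2.le
      rw [← abs_of_pos a2, ← abs_mul, abs_of_pos a2] at h6
      have h7 : τ * (#T : ℝ) ^ 2 * (((k + 1 : ℕ) : ℝ) * δ + (avg T E y / (#T : ℝ) ^ 2 + e y)) =
          τ * ((#T : ℝ) ^ 2 * (k * δ) + avg T E y) + τ * ((#T : ℝ) ^ 2 * (δ + e y)) := by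
        push_cast
        field_simp
        ring
      rw [h7]
      refine le_trans (le_of_eq ?_) ((abs_add_le _ _).trans (add_le_add h5 h6))
      congr 1
      ring

theorem iter_shift (T : Finset G) (f : G → ℝ) (s : G) (k : ℕ) (x : G) :
    ((avg T)^[k] fun u => f (s + u)) x = ((avg T)^[k] f) (s + x) := by
  induction k generalizing x with
  | zero => rfl
  | succ k ih =>
    rw [Function.iterate_succ_apply', Function.iterate_succ_apply']
    simp only [avg, ih, add_assoc]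

theorem psi_one (A S : Finset G) (s x : G) : psi A {s} S x = F A S (s + x) := by
  simp only [psi, F, ind, card_filter, sum_product, sum_singleton, card_singleton]
  push_cast
  rw [mul_one]
  refine congrArg (· / _) (sum_congr rfl fun a _ => ?_)
  rw [show a + s + x = s + x + a by abel]

open Classical in
/-- a smoothed copy which is almost periodic everywhere -/
theorem core (A : Finset G) (hA : A.Nonempty) (I : Finset ι) (S : ι → Finset G) (K ε δ κ : ℝ)
    (n k j : ℕ) (hK : (Fintype.card G : ℝ) ≤ K * #A) (hε : 0 < ε) (hε1 : ε ≤ 1) (hδ : 0 < δ)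
    (hκ : 0 ≤ κ) (hk : 1 ≤ k) (n0 : 1 ≤ n)
    (hn : 8 * k * Real.exp (-(ε ^ 2 * n / 4)) * #I ≤ ε * δ)
    (hj : 16 * Real.log (8 * K ^ n) < j) :
    ∃ (Λ : Finset (AddChar G ℂ)) (Z : Finset G) (K' : ι → G → ℝ), #Λ ≤ j ∧
      (#Z : ℝ) ≤ δ * Fintype.card G ∧
      (∀ u ∈ I, ∀ s, s ∉ Z → |K' u s - F A (S u) s| ≤ (2 * k + 1) * ε) ∧
      ∀ u ∈ I, ∀ s x, (∀ lam ∈ Λ, ‖lam x - 1‖ ≤ κ) →
        |K' u (s + x) - K' u s| ≤ √K * (j * κ + 2 / 4 ^ k) := by
  have cA : (0 : ℝ) < #A := Nat.cast_pos.2 hA.card_pos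
  have cG : (0 : ℝ) < Fintype.card G := by exact_mod_cast Fintype.card_pos
  have k1 : (1 : ℝ) ≤ k := by exact_mod_cast hk
  have hK0 : 0 < K := (mul_pos_iff_of_pos_right cA).1 (cG.trans_le hK)
  obtain ⟨c, hc⟩ : ∃ c, c = ε * δ * Fintype.card G / (2 * k) := ⟨_, rfl⟩
  have c0 : 0 < c := by rw [hc]; positivity
  have hn' : 4 * Real.exp (-(ε ^ 2 * n / 4)) * (#I * Fintype.card G) ≤ c := by
    rw [hc, le_div_iff₀ (by positivity)]
    nlinarith
  obtain ⟨z, hz⟩ := pigeon (D := univ) (U := univ) hA univ_nonempty (fun _ _ _ _ => mem_univ _) _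
    (filter_subset _ _) (good A I S hA hε hε1 c0 n hn')
  obtain ⟨T, hT⟩ : ∃ T : Finset G, T = {t ∈ (univ : Finset G) | (fun i => z i - t) ∈
      {v ∈ Fintype.piFinset fun _ : Fin n => A |
        (#{y ∈ (univ : Finset G) | ∃ u ∈ I, Bad A (S u) ε v y} : ℝ) ≤ c}} := ⟨_, rfl⟩
  rw [← hT, card_univ] at hz
  have cT : (0 : ℝ) < #T := lt_of_lt_of_le (by positivity) hz
  have hTn : T.Nonempty := card_pos.1 (Nat.cast_pos.1 cT)
  obtain ⟨B, hB⟩ : ∃ B : G → Finset G, ∀ t, B t =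
      {y ∈ (univ : Finset G) | ∃ u ∈ I, Bad A (S u) ε (fun i => z i - t) y} := ⟨_, fun _ => rfl⟩
  have cB : ∀ t ∈ T, (#(B t) : ℝ) ≤ c := fun t ht => by
    rw [hT] at ht
    rw [hB]
    exact (mem_filter.1 (mem_filter.1 ht).2).2
  have pt : ∀ u ∈ I, ∀ t t' y, |F A (S u) (y + (t - t')) - F A (S u) y| ≤
      2 * ε + (ind (B t) (y + (t - t')) + ind (B t') y) := fun u hu t t' y => by
    have b1 := F_bd hA (S u) (y + (t - t'))
    have b2 := F_bd hA (S u) y
    have b3 := ind_bd (B t) (y + (t - t'))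
    have b4 := ind_bd (B t') y
    rw [abs_le]
    by_cases p : y + (t - t') ∈ B t
    · rw [ind, if_pos p]
      constructor <;> linarith
    by_cases q : y ∈ B t'
    · rw [ind.eq_1 (B t'), if_pos q]
      constructor <;> linarith
    rw [hB, mem_filter, not_and, not_exists] at p q
    have p' := not_and.1 (p (mem_univ _) u) hu
    have q' := not_and.1 (q (mem_univ _) u) hu
    simp only [Bad, not_lt, abs_le] at p' q'
    rw [sum_congr rfl fun i _ => congrArg (ind (S u))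
      (show y + (t - t') + (z i - t) = y + (z i - t') by abel)] at p'
    have n1 : (0 : ℝ) < n := by exact_mod_cast n0
    constructor <;> nlinarith
  have a1 : (0 : ℝ) < (#T : ℝ) ^ 2 := by positivity
  have sind : ∀ (X : Finset G) (d : G), ∑ y, ind X (y + d) = #X := fun X d => by
    rw [show ∑ y, ind X (y + d) = ∑ y, ind X y from Equiv.sum_comp (Equiv.addRight d) (ind X)]
    simp [ind]
  obtain ⟨E, E0, E1, E2⟩ := iter T hTn I (fun u => F A (S u))
    (fun y => (∑ t ∈ T, ∑ t' ∈ T, (ind (B t) (y + (t - t')) + ind (B t') y)) / (#T : ℝ) ^ 2)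
    (2 * ε) (2 * c) (fun y => div_nonneg (sum_nonneg fun _ _ => sum_nonneg fun _ _ =>
      add_nonneg (ind_bd _ _).1 (ind_bd _ _).1) a1.le) (by
      rw [← sum_div, div_le_iff₀ a1, sum_comm]
      refine (sum_le_card_nsmul _ _ (#T * (2 * c)) fun t ht => ?_).trans_eq ?_
      · rw [sum_comm]
        refine (sum_le_card_nsmul _ _ (2 * c) fun t' ht' => ?_).trans_eq (nsmul_eq_mul _ _)
        have h1 := sind (B t') 0
        simp only [add_zero] at h1
        rw [sum_add_distrib, sind, h1]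
        linarith [cB t ht, cB t' ht']
      · rw [nsmul_eq_mul]
        ring) (fun u hu y => by
      have h4 : avg T (F A (S u)) y - (#T : ℝ) ^ 2 * F A (S u) y =
          ∑ t ∈ T, ∑ t' ∈ T, (F A (S u) (y + (t - t')) - F A (S u) y) := by
        simp only [avg, sum_sub_distrib, sum_const, nsmul_eq_mul]
        ring
      rw [h4, mul_add, mul_div_cancel₀ _ a1.ne']
      refine (abs_sum_le_sum_abs _ _).trans ((sum_le_sum fun t _ =>
        (abs_sum_le_sum_abs _ _).trans (sum_le_sum fun t' _ => pt u hu t t' y)).trans_eq ?_)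
      simp only [sum_add_distrib, sum_const, nsmul_eq_mul]
      ring) k
  obtain ⟨Λ, hΛ, hΛ'⟩ := P057.local_chang T univ univ univ j (subset_univ _) hTn univ_nonempty
    (fun _ _ _ _ => mem_univ _) (by
      have : (0 : ℝ) ≤ #(univ : Finset G) := Nat.cast_nonneg _
      linarith) (1 / 2 * (1 / K) ^ n) (by positivity) (le_trans (by
      have k2 : 1 / K ≤ (#A : ℝ) / Fintype.card G := by
        rw [div_le_div_iff₀ hK0 cG]
        linarith
      rw [card_univ]
      gcongr) hz) (by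
      rwa [show 4 / (1 / 2 * (1 / K) ^ n) = 8 * K ^ n by
        rw [one_div_pow]
        field_simp
        norm_num])
  have a4 : (0 : ℝ) < ((#T : ℝ) ^ 2) ^ k := by positivity
  refine ⟨Λ, {y ∈ (univ : Finset G) | ε < E y}, fun u y => ((avg T)^[k] (F A (S u))) y / ((#T : ℝ) ^ 2) ^ k, hΛ,
    ?_, fun u hu s hs => ?_, fun u hu s x hx => ?_⟩
  · have h1 : #{y ∈ (univ : Finset G) | ε < E y} • ε ≤ k * (2 * c) :=
      ((card_nsmul_le_sum _ _ _ fun y hy => (mem_filter.1 hy).2.le).trans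
        (sum_le_sum_of_subset_of_nonneg (filter_subset _ _) fun _ _ _ => E0 _)).trans E1
    have h2 : (k : ℝ) * (2 * c) = δ * Fintype.card G * ε := by
      rw [hc]
      field_simp
    rw [nsmul_eq_mul, h2] at h1
    exact le_of_mul_le_mul_right h1 hε
  · have h1 : E s ≤ ε := not_lt.1 fun h => hs (mem_filter.2 ⟨mem_univ _, h⟩)
    have h2 := E2 u hu s
    rw [div_sub' a4.ne', abs_div, abs_of_pos a4, div_le_iff₀ a4]
    refine h2.trans ?_
    rw [mul_comm]
    exact mul_le_mul_of_nonneg_right (by linarith) a4.le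
  · have hc := (compare T _ _ (psi_fourier A {s} (S u)) k x (η := j * κ) (by positivity)
      fun γ hγ => by
        obtain ⟨χ, k1, k2⟩ := hΛ' γ hγ
        have k3 := char_le univ_nonempty k1 (x := x) (κ := 0) (by simp)
        have k4 := sum_le_card_nsmul Λ _ κ hx
        have k5 : (#Λ : ℝ) * κ ≤ j * κ := by gcongr
        rw [nsmul_eq_mul] at k4
        linarith [k2 x]).trans (mul_le_mul_of_nonneg_right (cf_le hA (singleton_nonempty s) (K := K)
          (le_trans (by exact_mod_cast card_le_univ _) hK)) (by positivity))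
    rw [show psi A {s} (S u) = fun x => F A (S u) (s + x) from funext (psi_one A (S u) s),
      iter_shift, iter_shift, add_zero] at hc
    rw [← sub_div, abs_div, abs_of_pos a4, div_le_iff₀ a4]
    exact hc.trans_eq (by ring)

end Vale.Agent.P057H.CsmH64
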