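import Vale.Agent.P057L.Defs

/-! Definitions and block statements for the power of logarithm bound (note 4310). -/

set_option linter.all false

open Finset
open scoped BigOperators Classical

namespace Vale.Agent.P057H

open Vale.Agent.P057Z Vale.Agent.P057L

noncomputable section

variable {j : ℕ}

/-- a sum of some coordinates -/
def ss (S : Finset (Fin j)) (W : Pt j 1) : ℤ := ∑ i ∈ S, W i 0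

/-- the labels of a point -/
def lb {Λ : Type} (Υ : Finset (Fin j) → ℤ → Λ) (W : Pt j 1) (s : ℤ) : Finset (Fin j) → Λ :=
  fun S => Υ S (ss S W + s)

/-- the label of the full sum is constant -/
def Tc {G Λ : Type} (Υ : Finset (Fin j) → G → Λ) : Prop := ∀ x x', Υ univ x = Υ univ x'

/-- restriction to a progression -/
def pf (f : ℤ → ℝ) (x : ℤ) (D : ℕ) : ℤ → ℝ := fun z => f (x + D * z)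

/-- the data of a state -/
structure Sd (L : ℕ) (f : ℤ → ℝ) (lam m : ℝ) (x0 : ℤ) {Λ1 Λ2 : Type} [Fintype Λ1] [Fintype Λ2]
    (Ω : Finset (Pt j 1 × ℤ)) (B : Pt j 1 → ℤ → Λ1) (Υ : Finset (Fin j) → ℤ → Λ2)
    (F : Λ1 → (Finset (Fin j) → Λ2) → Prop) : Prop where
  c1 : (Fintype.card Λ1 : ℝ) ≤ Real.exp m
  c2 : (Fintype.card Λ2 : ℝ) ≤ Real.exp m
  tc : Tc Υ
  sub : Ω ⊆ bp j 1 L ×ˢ rg L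
  den : Real.exp (-m) * (L : ℝ) ^ (j + 1) ≤ Ω.card
  ex : ∀ p ∈ Ω, 1 / m ≤ 𝔼 v ∈ rg L, if F (B p.1 v) (lb Υ p.1 (p.2 + v)) then
    f (x0 + ss univ p.1 + p.2 + v) - lam else 0

/-- a state with j + 2 variables -/
def St (j L : ℕ) (f : ℤ → ℝ) (lam m : ℝ) : Prop :=
  ∃ (x0 : ℤ) (Λ1 Λ2 : Type) (_ : Fintype Λ1) (_ : Fintype Λ2) (Ω : Finset (Pt j 1 × ℤ))
    (B : Pt j 1 → ℤ → Λ1) (Υ : Finset (Fin j) → ℤ → Λ2)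
    (F : Λ1 → (Finset (Fin j) → Λ2) → Prop), Sd L f lam m x0 Ω B Υ F

/-- a state with j + 1 variables, after a step -/
def Md (j L : ℕ) (f : ℤ → ℝ) (lam m : ℝ) : Prop :=
  ∃ (x0 : ℤ) (Λ : Type) (_ : Fintype Λ) (Ω : Finset (Pt j 1)) (Υ : Finset (Fin j) → ℤ → Λ)
    (F : (Finset (Fin j) → Λ) → Prop), (Fintype.card Λ : ℝ) ≤ Real.exp m ∧ Tc Υ ∧ Dn Ω L m ∧
    ∀ W ∈ Ω, 1 / m ≤ 𝔼 v ∈ rg L, if F (lb Υ W v) then f (x0 + ss univ W + v) - lam else 0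

/-- g models f near x0 -/
def Mo (j L : ℕ) (f g : ℤ → ℝ) (x0 : ℤ) (ε : ℝ) : Prop :=
  ∀ (a b : Pt j 1 → ℤ → ℝ) (H : Finset (Fin j) → ℤ → ℝ), (∀ W y, |a W y| ≤ 1) →
    (∀ W v, |b W v| ≤ 1) → (∀ S x, |H S x| ≤ 1) →
    |∑ W ∈ bp j 1 L, ∑ y ∈ sy (4 * L), ∑ v ∈ sy (4 * L), a W y * b W v *
      (∏ S ∈ (univ : Finset (Finset (Fin j))).erase univ, H S (ss S W + y + v)) *
      (f (x0 + ss univ W + y + v) - g (x0 + ss univ W + y + v))| ≤ ε * (L : ℝ) ^ (j + 2)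

/-- all deep models exist -/
def HM (j L : ℕ) (f : ℤ → ℝ) (μ : ℝ) : Prop :=
  ∀ Z : ℝ, μ ≤ Z → ∀ x0 : ℤ, ∃ g : ℤ → ℝ, (∀ x, 0 ≤ g x ∧ g x ≤ Real.exp Z) ∧
    Mo j L f g x0 (Real.exp (-Z))

/-- the function of the step -/
def GG {Λ : Type} (f : ℤ → ℝ) (lam : ℝ) (z : ℤ) (Υ : Finset (Fin j) → ℤ → Λ)
    (F : (Finset (Fin j) → Λ) → Prop) (W : Pt j 1) (s : ℤ) : ℝ :=
  if F (lb Υ W s) then f (z + ss univ W + s) else lam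

/-- the share of the points y of a with s - y in S -/
def kk (a S : Finset ℤ) (s : ℤ) : ℝ := ((a.filter fun y => s - y ∈ S).card : ℝ) / a.card

/-! ### The step -/

/-- change of the form of a state -/
def MS : Prop :=
  (∀ (j L : ℕ) (f : ℤ → ℝ) (lam m : ℝ), 1 ≤ m → Md (j + 1) L f lam m → St j L f lam (2 ^ j * m)) ∧
  (∀ (L : ℕ) (f : ℤ → ℝ) (lam m : ℝ), 0 < m → 1 ≤ L → Md 0 L f lam m →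
    ∃ x : ℤ, lam ≤ 𝔼 v ∈ rg L, f (x + v)) ∧
  (∀ (j L : ℕ) (f : ℤ → ℝ) (lam m m' : ℝ), 0 < m → m ≤ m' → St j L f lam m → St j L f lam m') ∧
  ∀ (j L : ℕ) (f : ℤ → ℝ) (lam m : ℝ), 0 < m → 1 ≤ L → (∀ x, f x ≤ lam) → ¬ St j L f lam m

/-- weighted almost periodicity for many sets at once -/
def WAP : Prop :=
  ∃ C : ℕ, ∀ (Y : ℝ) (N Q : ℕ) [Fact Q.Prime], (C : ℝ) ≤ Y → Y ^ C ≤ Real.log N → 8 * N ≤ Q →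
    Q ≤ 16 * N → ∃ R T : ℕ, (R : ℝ) ≤ Y ^ C ∧ 1 ≤ T ∧ T ≤ N ∧ N ≤ T * Real.exp (Y ^ C) ∧
      ∀ (Λ : Type) [Fintype Λ] (a : Finset ℤ) (S : Λ → Finset ℤ) (υ : ℤ → Λ) (w : ℤ → ℝ),
        (Fintype.card Λ : ℝ) ≤ Real.exp Y → a ⊆ rg N → Real.exp (-Y) * N ≤ a.card →
        (∀ l, S l ⊆ rg N) → (∀ s, 1 ≤ w s ∧ w s ≤ Real.exp Y) →
        ∃ ξ : Fin R → ZMod Q, ∀ t : ℤ, |t| ≤ T →
          (∀ i, nm ((t : ZMod Q) * ξ i) ≤ Real.exp (-Y ^ C)) →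
          |∑ s ∈ Ico (-(N : ℤ)) (3 * N), w s * (kk a (S (υ s)) (s - t) - kk a (S (υ s)) s)| ≤
            (∑ s ∈ Ico (-(N : ℤ)) (3 * N), w s) / Y

/-- the data after smoothing -/
structure Sm1 {Q r : ℕ} [Fact Q.Prime] (Y : ℝ) (L T : ℕ) (ρ : ℝ) (f : ℤ → ℝ) (lam μ : ℝ) (x0 : ℤ)
    {Λ1 Λ2 : Type} (Ω : Finset (Pt j 1 × ℤ)) (B : Pt j 1 → ℤ → Λ1) (Υ : Finset (Fin j) → ℤ → Λ2)
    (F : Λ1 → (Finset (Fin j) → Λ2) → Prop) (ξ γ : Pt j 1 → Fin r → ZMod Q) (x : Pt j 1 → ℤ) :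
    Prop where
  hr : (r : ℝ) ≤ Y
  hρ : Real.exp (-Y) ≤ ρ
  hρ1 : ρ ≤ 1
  hT : 1 ≤ T
  hTN : T ≤ L
  hNT : L ≤ T * Real.exp Y
  hNQ : 2 * L ≤ Q
  hQN : Q ≤ L * Real.exp Y
  sub : Ω ⊆ bp j 1 L ×ˢ rg L
  den : Real.exp (-Y) * (L : ℝ) ^ (j + 1) ≤ Ω.card
  hx : ∀ W, x W ∈ rg T
  hZ : ∀ W, Real.exp (-Y) ≤ 𝔼 s ∈ rg T, lap ρ ((s : ZMod Q) • ξ W + γ W)
  ex : Ω.card / (2 * μ) ≤ ∑ p ∈ Ω, 𝔼 v ∈ rg L,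
    (𝔼 s ∈ rg T, lap ρ ((s : ZMod Q) • ξ p.1 + γ p.1) *
      if F (B p.1 v) (lb Υ p.1 (p.2 + v - x p.1 + s)) then
        f (x0 + ss univ p.1 + (p.2 + v - x p.1 + s)) - lam else 0) /
      𝔼 s ∈ rg T, lap ρ ((s : ZMod Q) • ξ p.1 + γ p.1)

/-- smoothing -/
def SMA : Prop :=
  ∀ j : ℕ, ∃ C : ℕ, ∀ (μ lam : ℝ) (L : ℕ) (f : ℤ → ℝ) (x0 : ℤ) (Λ1 Λ2 : Type) [Fintype Λ1]
    [Fintype Λ2] (Ω : Finset (Pt j 1 × ℤ)) (B : Pt j 1 → ℤ → Λ1) (Υ : Finset (Fin j) → ℤ → Λ2)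
    (F : Λ1 → (Finset (Fin j) → Λ2) → Prop), (C : ℝ) ≤ μ → μ ^ C ≤ Real.log L → (∀ x, 0 ≤ f x) →
    1 ≤ lam → lam ≤ μ → (∀ x : ℤ, 𝔼 v ∈ rg L, f (x + v) ≤ lam) → HM j L f μ →
    Sd L f lam μ x0 Ω B Υ F →
    ∃ (T Q r : ℕ) (_ : Fact Q.Prime) (ρ : ℝ) (Ω' : Finset (Pt j 1 × ℤ))
      (ξ γ : Pt j 1 → Fin r → ZMod Q) (x : Pt j 1 → ℤ), Sm1 (μ ^ C) L T ρ f lam μ x0 Ω' B Υ F ξ γ x

/-- selection of a centre and a label -/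
def SMB : Prop :=
  ∀ j : ℕ, ∃ C : ℕ, ∀ (Y μ lam : ℝ) (L T Q r : ℕ) [Fact Q.Prime] (ρ : ℝ) (f : ℤ → ℝ) (x0 : ℤ)
    (Λ1 Λ2 : Type) [Fintype Λ1] (Ω : Finset (Pt j 1 × ℤ)) (B : Pt j 1 → ℤ → Λ1)
    (Υ : Finset (Fin j) → ℤ → Λ2) (F : Λ1 → (Finset (Fin j) → Λ2) → Prop)
    (ξ γ : Pt j 1 → Fin r → ZMod Q) (x : Pt j 1 → ℤ), (C : ℝ) ≤ Y → 1 ≤ μ → μ ≤ Y →
    (∀ x, 0 ≤ f x) → 0 ≤ lam → lam ≤ Y → (Fintype.card Λ1 : ℝ) ≤ Real.exp Y →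
    (∀ x : ℤ, 𝔼 v ∈ rg T, f (x + v) ≤ lam) → Sm1 Y L T ρ f lam μ x0 Ω B Υ F ξ γ x →
    ∃ (z : ℤ) (l : Λ1) (Ω1 : Finset (Pt j 1)), In1 (Y ^ C) L T ρ (lam + 1 / (8 * μ))
      (GG f lam (x0 + z) (fun S s => Υ S (z + s)) (F l)) ξ γ Ω1

/-- the product forms -/
def GFH : Prop :=
  ∀ (j : ℕ) (Λ : Type) [Fintype Λ] (g : ℤ → ℝ) (lam M : ℝ) (z : ℤ) (Υ : Finset (Fin j) → ℤ → Λ)
    (F : (Finset (Fin j) → Λ) → Prop), 1 ≤ M → (∀ x, 0 ≤ g x ∧ g x ≤ M) → 0 ≤ lam → lam ≤ M →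
    ∃ G1 : (Finset (Fin j) → Λ) → Pt j 1 → ℤ → ℝ, (∀ υ i l l', Fac (G1 υ) M i l l') ∧
      ∀ W s, GG g lam z Υ F W s = ∑ υ, G1 υ W s

/-- the error of a model has no large frequencies -/
def UNIF : Prop :=
  ∀ (j L T Q : ℕ) [Fact Q.Prime] (Λ : Type) [Fintype Λ] (f g : ℤ → ℝ) (lam ε : ℝ) (z : ℤ)
    (Υ : Finset (Fin j) → ℤ → Λ) (F : (Finset (Fin j) → Λ) → Prop) (i : Fin j)
    (U : Finset (Pt j 1)) (u : Pt j 1 → ℂ) (ψ : Pt j 1 → ZMod Q), 1 ≤ T → T ≤ L → Tc Υ →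
    Mo j L f g z ε → U ⊆ bp j 1 L → (∀ W, ‖u W‖ ≤ 1) →
    ‖∑ W ∈ U, u W * 𝔼 s ∈ rg T, ((GG f lam z Υ F W s - GG g lam z Υ F W s : ℝ) : ℂ) *
      ch (ψ W * (s : ZMod Q))‖ * T ≤
      4 * (Fintype.card Λ : ℝ) ^ (2 ^ j) * ε * (L : ℝ) ^ (j + 1)

/-- dropping frequencies for an unbounded function -/
def DROPH : Prop :=
  ∀ j : ℕ, ∃ C : ℕ, ∀ (Y Y' : ℝ) (q N T Q r : ℕ) [Fact Q.Prime] (ρ θ : ℝ) (Λ : Type) [Fintype Λ]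
    (G : Pt j q → ℤ → ℝ) (G1 : Λ → Pt j q → ℤ → ℝ) (ξ γ : Pt j q → Fin r → ZMod Q)
    (Ω : Finset (Pt j q)), (C : ℝ) ≤ Y → Y ≤ Y' → (q : ℝ) ≤ Y → Y ^ C ≤ Real.log N →
    (∀ W s, 0 ≤ G W s) → (∀ W, 𝔼 s ∈ rg T, G W s ≤ Real.exp Y) → 0 ≤ θ → θ ≤ Real.exp Y →
    (Fintype.card Λ : ℝ) ≤ Real.exp Y' → (∀ υ i l l', Fac (G1 υ) (Real.exp Y') i l l') →
    (∀ (i : Fin j) (U : Finset (Pt j q)) (u : Pt j q → ℂ) (ψ : Pt j q → ZMod Q), U ⊆ bp j q N →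
      (∀ W, ‖u W‖ ≤ 1) → ‖∑ W ∈ U, u W * 𝔼 s ∈ rg T, ((G W s - ∑ υ, G1 υ W s : ℝ) : ℂ) *
        ch (ψ W * (s : ZMod Q))‖ ≤ Real.exp (-Y ^ 3) * (N : ℝ) ^ (j * q)) →
    In1 Y N T ρ θ G ξ γ Ω →
    ∃ (t K0 : ℕ) (b : Fin t → Fin r → ℤ) (Ψ : (Fin r → ZMod Q) → ℝ) (Ω1 : Finset (Pt j q)),
      In2 (Y' ^ C) N T K0 ρ ((1 - 2 * Real.exp (-Y)) * θ) G ξ γ b Ψ Ω1 ∧
      ∀ i l l', Pr (fun W (a : Fin t) => cs Q (b a) ⬝ᵥ ξ W) Ω1 i l l'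

/-- the weight is constant on short progressions, for an unbounded function -/
def CSTH : Prop :=
  ∀ j : ℕ, ∃ C : ℕ, ∀ (Y X : ℝ) (q N T Q r t K0 d L : ℕ)
    [Fact Q.Prime] (ρ θ : ℝ) (G : Pt j q → ℤ → ℝ) (ξ γ : Pt j q → Fin r → ZMod Q)
    (b : Fin t → Fin r → ℤ) (Ψ : (Fin r → ZMod Q) → ℝ) (Ω Ω' : Finset (Pt j q)) (W0 : Pt j q),
    (C : ℝ) ≤ Y → 0 ≤ X → (q : ℝ) ≤ Y → (r : ℝ) ≤ Y → Y ^ C * (X + 1) ≤ Real.log L →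
    Real.exp (-Y) ≤ ρ → 1 ≤ T → N ≤ T * Real.exp Y → (∀ W s, 0 ≤ G W s ∧ G W s ≤ Real.exp X) →
    (∀ (W : Pt j q) (o : ℤ) (D L' : ℕ), 1 ≤ D → Lg L L' 2 →
      𝔼 v ∈ rg L', G W (o + D * v) ≤ Real.exp Y) →
    0 ≤ θ → θ ≤ Real.exp Y → In2 Y N T K0 ρ θ G ξ γ b Ψ Ω → 1 ≤ d → d * L ≤ N →
    Ω' ⊆ pre Ω W0 d L → Dn Ω' L Y →
    (∀ w ∈ Ω', ∀ a, nm ((d : ZMod Q) * (cs Q (b a) ⬝ᵥ ξ (lc W0 d w))) ≤ 1 / L) →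
    ∃ (o : ℤ) (W1 : Pt j q) (d' L' : ℕ) (Ω5 : Finset (Pt j q)), 1 ≤ d' ∧ Lg L L' 2 ∧
      Dn Ω5 L' (Y ^ C) ∧ ∀ w ∈ Ω5, θ ≤ 𝔼 v ∈ rg L', G (lc W1 d' w) (o + d' * v)

/-- no long progression has a large mean -/
def NoF (L : ℕ) (f : ℤ → ℝ) (lam Y : ℝ) : Prop :=
  ∀ (x : ℤ) (D L' : ℕ), 1 ≤ D → Lg L L' Y → 𝔼 v ∈ rg L', f (x + D * v) ≤ lam

def STEPH : Prop :=
  ∀ j : ℕ, ∃ C : ℕ, ∀ (μ X lam : ℝ) (L : ℕ) (f : ℤ → ℝ), (C : ℝ) ≤ μ → 0 ≤ X →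
    μ ^ C * (X + 1) ≤ Real.log L → (∀ x, 0 ≤ f x ∧ f x ≤ Real.exp X) → 1 ≤ lam → lam ≤ μ →
    lam ≤ Real.exp X → NoF L f lam (μ ^ C) → HM j L f μ → St j L f lam μ →
    ∃ (x : ℤ) (D L' : ℕ), 1 ≤ D ∧ Lg L L' (μ ^ C) ∧ Md j L' (pf f x D) lam (μ ^ C)

def DOWNH : Prop :=
  ∀ j : ℕ, ∃ C : ℕ, ∀ (μ X lam : ℝ) (L : ℕ) (f : ℤ → ℝ), (C : ℝ) ≤ μ → 0 ≤ X →
    μ ^ C * (X + 1) ≤ Real.log L → (∀ x, 0 ≤ f x ∧ f x ≤ Real.exp X) → 1 ≤ lam → lam ≤ μ →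
    lam ≤ Real.exp X →
    (∀ j' ≤ j, ∀ (x : ℤ) (D L' : ℕ), 1 ≤ D → Lg L L' (μ ^ C) → HM j' L' (pf f x D) μ) →
    St j L f lam μ →
    ∃ (x : ℤ) (D L' : ℕ), 1 ≤ D ∧ Lg L L' (μ ^ C) ∧ lam ≤ 𝔼 v ∈ rg L', f (x + D * v)

/-! ### Models -/

/-- the abstract model -/
def AM : Prop :=
  ∀ (Ω ι X : Type) [Fintype Ω] [Nonempty Ω] [Fintype ι] (π : ι → Ω → X) (f : Ω → ℝ)
    (lam η ε δ E : ℝ) (n : ℕ), (∀ ω, 0 ≤ f ω) → 𝔼 ω, f ω ≤ E → 0 < lam → 0 < η → η ≤ 1 → 0 < ε →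
    16 * lam * E < n * ε ^ 2 → 4 * δ ≤ ε * η →
    (∀ (ℓ : ι → X → Fin n → Bool) (F : (ι → Fin n → Bool) → Prop),
      𝔼 ω, (if F (fun i => ℓ i (π i ω)) then f ω - lam else 0) ≤ δ) →
    ∃ g : Ω → ℝ, (∀ ω, 0 ≤ g ω ∧ g ω ≤ (1 + η) * lam) ∧
      ∀ u : ι → X → ℝ, (∀ i x, |u i x| ≤ 1) → |𝔼 ω, (f ω - g ω) * ∏ i, u i (π i ω)| ≤ ε

/-- the cyclic sample space -/
abbrev Oc (j M : ℕ) := (Fin j → ZMod M) × ZMod M × ZMod M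

/-- a sum in the cyclic sample space -/
def sc {M : ℕ} (S : Finset (Fin j)) (ω : Oc j M) : ZMod M := ∑ i ∈ S, ω.1 i + ω.2.1 + ω.2.2

/-- h is small against all tests -/
def Nc (j M : ℕ) [NeZero M] (h : ZMod M → ℝ) (ε : ℝ) : Prop :=
  ∀ (a b : (Fin j → ZMod M) → ZMod M → ℝ) (H : Finset (Fin j) → ZMod M → ℝ),
    (∀ W y, |a W y| ≤ 1) → (∀ W v, |b W v| ≤ 1) → (∀ S x, |H S x| ≤ 1) →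
    |𝔼 ω : Oc j M, a ω.1 ω.2.1 * b ω.1 ω.2.2 *
      (∏ S ∈ (univ : Finset (Finset (Fin j))).erase univ, H S (sc S ω)) * h (sc univ ω)| ≤ ε

/-- an excess on a union of atoms -/
def Vc (j M : ℕ) [NeZero M] (f : ZMod M → ℝ) (lam δ : ℝ) (n : ℕ) : Prop :=
  ∃ (A B : (Fin j → ZMod M) → ZMod M → Fin n → Bool) (Υ : Finset (Fin j) → ZMod M → Fin n → Bool)
    (F : (Fin n → Bool) → (Fin n → Bool) → (Finset (Fin j) → Fin n → Bool) → Prop), Tc Υ ∧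
    δ ≤ 𝔼 ω : Oc j M, if F (A ω.1 ω.2.1) (B ω.1 ω.2.2) (fun S => Υ S (sc S ω)) then
      f (sc univ ω) - lam else 0

/-- the cyclic model -/
def ZH : Prop :=
  ∀ (j M : ℕ) [NeZero M] (f : ZMod M → ℝ) (lam η ε δ E : ℝ) (n : ℕ), (∀ x, 0 ≤ f x) →
    𝔼 x, f x ≤ E → 0 < lam → 0 < η → η ≤ 1 → 0 < ε → 16 * lam * E < n * ε ^ 2 → 4 * δ ≤ ε * η →
    ¬ Vc j M f lam δ n →
    ∃ g : ZMod M → ℝ, (∀ x, 0 ≤ g x ∧ g x ≤ (1 + η) * lam) ∧ Nc j M (fun x => f x - g x) ε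

/-- a window of f in the cyclic group -/
def per (f : ℤ → ℝ) (x0 : ℤ) (M0 M : ℕ) : ZMod M → ℝ :=
  fun x => if x.val < M0 then f (x0 + x.val) else 0

/-- from the cyclic group to a box -/
def WND : Prop :=
  ∀ (j M M0 L n : ℕ) [NeZero M] (f : ℤ → ℝ) (x0 : ℤ) (lam lam' δ m : ℝ), 1 ≤ L →
    M0 + (j + 2) * L ≤ M → (∀ x, 0 ≤ f x) → 0 ≤ lam → 1 ≤ lam' → 1 ≤ m →
    (∀ x : ℤ, 𝔼 v ∈ rg L, f (x + v) ≤ lam') → 2 ≤ δ * m → 2 ^ n * m * lam' ≤ Real.exp m →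
    Vc j M (per f x0 M0 M) lam δ n → St j L f lam m

/-- the model on the integers -/
def MOI : Prop :=
  ∀ j : ℕ, ∃ C : ℕ, ∀ (L : ℕ) (f : ℤ → ℝ) (lam lam' m ε : ℝ) (x0 : ℤ), 1 ≤ L → (∀ x, 0 ≤ f x) →
    1 ≤ lam → 1 ≤ lam' → 0 < ε → ε ≤ 1 → C * lam * lam' ≤ m * ε ^ 2 →
    (∀ x : ℤ, 𝔼 v ∈ rg L, f (x + v) ≤ lam') → ¬ St j L f lam m →
    ∃ g : ℤ → ℝ, (∀ x, 0 ≤ g x ∧ g x ≤ 2 * lam) ∧ Mo j L f g x0 ε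

/-! ### Counting -/

/-- the count of progressions -/
def apc (k M : ℕ) [NeZero M] (h : Fin k → ZMod M → ℝ) : ℝ :=
  𝔼 x : ZMod M, 𝔼 d : ZMod M, ∏ i, h i (x + ((i : ℕ) : ZMod M) * d)

/-- general faces are controlled by the tests -/
def BCS : Prop :=
  ∀ (j M : ℕ) [NeZero M] (Δ : ZMod M → ℝ) (ε : ℝ) (a b : (Fin j → ZMod M) → ZMod M → ℝ)
    (u : Fin j → Oc j M → ℝ), (∀ x, |Δ x| ≤ 1) → Nc j M Δ ε → (∀ W y, |a W y| ≤ 1) →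
    (∀ W v, |b W v| ≤ 1) → (∀ i ω, |u i ω| ≤ 1) →
    (∀ (i : Fin j) (ω : Oc j M) (c : ZMod M), u i (Function.update ω.1 i c, ω.2) = u i ω) →
    |𝔼 ω : Oc j M, a ω.1 ω.2.1 * b ω.1 ω.2.2 * (∏ i, u i ω) * Δ (sc univ ω)| ^ 2 ^ j ≤ ε

/-- the count is controlled by the tests -/
def GVN : Prop :=
  ∀ (j M : ℕ) [Fact M.Prime] (h : Fin (j + 3) → ZMod M → ℝ) (i : Fin (j + 3)) (ε : ℝ),
    j + 3 ≤ M → (∀ l x, |h l x| ≤ 1) → Nc j M (h i) ε → |apc (j + 3) M h| ^ 2 ^ j ≤ ε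

/-- telescoping -/
def TEL : Prop :=
  ∀ (j M : ℕ) [Fact M.Prime] (g g' : ZMod M → ℝ) (B ε τ : ℝ), j + 3 ≤ M → 1 ≤ B → 0 ≤ τ →
    (∀ x, 0 ≤ g x ∧ g x ≤ B) → (∀ x, 0 ≤ g' x ∧ g' x ≤ B) → Nc j M (fun x => g' x - g x) ε →
    ε ≤ τ ^ 2 ^ j →
    |apc (j + 3) M (fun _ => g') - apc (j + 3) M (fun _ => g)| ≤ (j + 3) * B ^ (j + 3) * τ

/-- the first model has many progressions -/
def BASE : Prop :=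
  ∀ j : ℕ, ∃ η c : ℝ, 0 < η ∧ η ≤ 1 / 10 ∧ 0 < c ∧ ∃ C : ℕ, ∀ (M N : ℕ) [NeZero M]
    (f g : ZMod M → ℝ), C ≤ N → 2 * N ≤ M → M ≤ 4 * N → (∀ x, N ≤ x.val → f x = 0) →
    ∑ x, f x = N → (∀ x, 0 ≤ g x ∧ g x ≤ (1 + η) ^ 2) → Nc j M (fun x => f x - g x) (η ^ 2) →
    c ≤ apc (j + 3) M (fun _ => g)

/-- only trivial progressions -/
def TRIV : Prop :=
  ∀ (k M N : ℕ) [NeZero M] (A : Finset ℤ) (α : ℝ), 3 ≤ k → 2 * N ≤ M → A ⊆ rg N → APF k A →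
    0 < α → apc k M (fun _ => per (ind A α) 0 N M) ≤ (1 / α) ^ k / M

/-- some state occurs -/
def CNT : Prop :=
  ∀ j : ℕ, ∃ η : ℝ, 0 < η ∧ η ≤ 1 / 10 ∧ ∃ P i1 : ℕ, 9 ≤ P ∧ ∀ i0, i1 ≤ i0 → ∃ C : ℕ,
    ∀ (X α : ℝ) (N : ℕ) (A : Finset ℤ), 0 ≤ X → C * (X + 1) ≤ Real.log N → A ⊆ rg N →
      APF (j + 3) A → Real.exp (-X) ≤ α → α * N = A.card →
      ∃ L : ℕ, Lg N L 2 ∧ ((∃ x : ℤ, 1 + η ≤ 𝔼 v ∈ rg L, ind A α (x + v)) ∨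
        St j L (ind A α) (1 + η) (2 ^ (P * i0)) ∨
        ∃ i, i0 < i ∧ St j L (ind A α) (2 ^ i) (2 ^ (P * i)))

/-! ### The end -/

def INCH : Prop :=
  ∀ j : ℕ, ∃ η : ℝ, 0 < η ∧ ∃ C : ℕ, ∀ (X α : ℝ) (N : ℕ) (A : Finset ℤ), 0 ≤ X →
    Real.exp (C * (X + 1)) ≤ Real.log N → A ⊆ rg N → APF (j + 3) A → Real.exp (-X) ≤ α →
    α * N = A.card →
    ∃ (lam : ℝ) (L : ℕ) (A' : Finset ℤ), 1 + η ≤ lam ∧ Lg N L (lam ^ C) ∧ A' ⊆ rg L ∧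
      APF (j + 3) A' ∧ lam * α * L ≤ A'.card

def BNDH : Prop :=
  ∀ j : ℕ, ∃ C : ℕ, ∀ (X : ℝ) (N : ℕ) (A : Finset ℤ), 0 ≤ X → 1 ≤ N → A ⊆ rg N →
    APF (j + 3) A → Real.exp (-X) * N ≤ A.card → Real.log N ≤ Real.exp (C * (X + 1))

def RESULT : Prop :=
  ∀ k : ℕ, 3 ≤ k → ∃ c : ℝ, 0 < c ∧ ∃ N₀ : ℕ, ∀ N : ℕ, N₀ ≤ N → ∀ A : Finset ℕ, A ⊆ Icc 1 N →
    (∀ a d : ℕ, 0 < d → ¬ ∀ i : ℕ, i < k → a + i * d ∈ A) →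
    (A.card : ℝ) ≤ N / Real.log N ^ c

end

end Vale.Agent.P057H
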