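import Vale.Agent.P057H.Defs

/-! The descent through the number of variables. -/

set_option linter.all false

open Finset
open scoped BigOperators Classical

namespace Vale.Agent.P057H.H16

open Vale.Agent.P057Z Vale.Agent.P057L

theorem lg_mono {N L : ℕ} {Y Y' : ℝ} (h : Lg N L Y) (hY : Y ≤ Y') : Lg N L Y' :=
  ⟨h.1, h.2.trans (mul_le_mul_of_nonneg_right hY (Real.log_natCast_nonneg L))⟩

theorem lg_trans {N L L' : ℕ} {Y Y' : ℝ} (h : Lg N L Y) (h' : Lg L L' Y') (hY : 0 ≤ Y) :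
    Lg N L' (Y * Y') :=
  ⟨h'.1, h.2.trans (by rw [mul_assoc]; exact mul_le_mul_of_nonneg_left h'.2 hY)⟩

theorem pf_pf (f : ℤ → ℝ) (x x' : ℤ) (D D' : ℕ) :
    pf (pf f x D) x' D' = pf f (x + D * x') (D * D') := by
  funext z
  simp only [pf]
  congr 1
  push_cast
  ring

theorem pf_one (f : ℤ → ℝ) : pf f 0 1 = f := by
  funext z
  simp [pf]

theorem hm_mono {j L : ℕ} {f : ℤ → ℝ} {m m' : ℝ} (h : HM j L f m) (hm : m ≤ m') : HM j L f m' :=
  fun Z hZ => h Z (hm.trans hZ)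

/-- one step, or the end -/
theorem one (hS : STEPH) (j : ℕ) : ∃ C : ℕ, ∀ (μ X lam : ℝ) (L : ℕ) (f : ℤ → ℝ), (C : ℝ) ≤ μ →
    1 ≤ μ → 0 ≤ X → μ ^ C * (X + 1) ≤ Real.log L → (∀ x, 0 ≤ f x ∧ f x ≤ Real.exp X) → 1 ≤ lam →
    lam ≤ μ → lam ≤ Real.exp X → HM j L f μ → St j L f lam μ →
    ∃ (x : ℤ) (D L' : ℕ), 1 ≤ D ∧ Lg L L' (μ ^ C) ∧
      (lam ≤ 𝔼 v ∈ rg L', f (x + D * v) ∨ Md j L' (pf f x D) lam (μ ^ C)) := by
  obtain ⟨C, hC⟩ := hS j
  refine ⟨C, fun μ X lam L f h1 h1' h2 h3 h4 h5 h6 h7 h8 h9 => ?_⟩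
  by_cases hN : NoF L f lam (μ ^ C)
  · obtain ⟨x, D, L', a, b, c⟩ := hC μ X lam L f h1 h2 h3 h4 h5 h6 h7 hN h8 h9
    exact ⟨x, D, L', a, b, Or.inr c⟩
  · simp only [NoF, not_forall, not_le] at hN
    obtain ⟨x, D, L', a, b, c⟩ := hN
    exact ⟨x, D, L', a, b, Or.inl c.le⟩

theorem lg_self {L : ℕ} {Y X : ℝ} (hY : 1 ≤ Y) (hX : 0 ≤ X) (h : Y * (X + 1) ≤ Real.log L) :
    Lg L L Y := by
  have h0 : 0 < Real.log L := lt_of_lt_of_le (by positivity) h
  refine ⟨?_, by nlinarith⟩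
  rcases Nat.eq_zero_or_pos L with rfl | hL
  · simp at h0
  · exact hL

theorem downh (hM : MS) (hS : STEPH) : DOWNH := by
  obtain ⟨m1, m2, m3, -⟩ := hM
  intro j
  induction j with
  | zero =>
    obtain ⟨C, hC⟩ := one hS 0
    refine ⟨C + 1, fun μ X lam L f h1 h2 h3 h4 h5 h6 h7 h8 h9 => ?_⟩
    push_cast at h1
    have hC0 : (0 : ℝ) ≤ C := Nat.cast_nonneg C
    have hμ : 1 ≤ μ := by linarith
    have hp : μ ^ C ≤ μ ^ (C + 1) := pow_le_pow_right₀ hμ (by omega)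
    have hp1 : 1 ≤ μ ^ C := one_le_pow₀ hμ
    have hH := h8 0 le_rfl 0 1 L le_rfl (lg_self (one_le_pow₀ hμ) h2 h3)
    rw [pf_one] at hH
    obtain ⟨x, D, L', a, b, c⟩ := hC μ X lam L f (by linarith) hμ h2
      (le_trans (mul_le_mul_of_nonneg_right hp (by linarith)) h3) h4 h5 h6 h7 hH h9
    rcases c with c | c
    · exact ⟨x, D, L', a, lg_mono b hp, c⟩
    · obtain ⟨y, hy⟩ := m2 L' _ lam _ (by linarith) b.1 c
      refine ⟨x + D * y, D, L', a, lg_mono b hp, hy.trans (le_of_eq ?_)⟩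
      refine Finset.expect_congr rfl fun v _ => ?_
      simp only [pf]
      congr 1
      ring
  | succ j ih =>
    obtain ⟨C, hC⟩ := one hS (j + 1)
    obtain ⟨E, hE⟩ := ih
    refine ⟨C + (C + 1) * E + E + 2 ^ j, fun μ X lam L f h1 h2 h3 h4 h5 h6 h7 h8 h9 => ?_⟩
    set K := C + (C + 1) * E + E + 2 ^ j with hK
    have hj : 1 ≤ 2 ^ j := Nat.one_le_two_pow
    have k1 : ((C : ℕ) : ℝ) ≤ μ := le_trans (by exact_mod_cast (by omega : C ≤ K)) h1
    have k2 : ((E : ℕ) : ℝ) ≤ μ := le_trans (by exact_mod_cast (by omega : E ≤ K)) h1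
    have k3 : ((2 ^ j : ℕ) : ℝ) ≤ μ := le_trans (by exact_mod_cast (by omega : 2 ^ j ≤ K)) h1
    have hμ : 1 ≤ μ := le_trans (by exact_mod_cast hj) k3
    push_cast at k3
    have hp : μ ^ C ≤ μ ^ K := pow_le_pow_right₀ hμ (by omega)
    have hp1 : 1 ≤ μ ^ C := one_le_pow₀ hμ
    have hq : μ ^ C * (μ ^ (C + 1)) ^ E ≤ μ ^ K := by
      rw [← pow_mul, ← pow_add]
      exact pow_le_pow_right₀ hμ (by omega)
    have hμ' : μ ≤ μ ^ (C + 1) := le_self_pow₀ hμ (by omega)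
    have hH := h8 (j + 1) le_rfl 0 1 L le_rfl (lg_self (one_le_pow₀ hμ) h2 h3)
    rw [pf_one] at hH
    obtain ⟨x, D, L', a, b, c⟩ := hC μ X lam L f k1 hμ h2
      (le_trans (mul_le_mul_of_nonneg_right hp (by linarith)) h3) h4 h5 h6 h7 hH h9
    rcases c with c | c
    · exact ⟨x, D, L', a, lg_mono b hp, c⟩
    · have s1 := m1 j L' _ lam _ hp1 c
      have s2 := m3 j L' _ lam _ (μ ^ (C + 1)) (by positivity)
        (by rw [pow_succ']; exact mul_le_mul_of_nonneg_right k3 (by positivity)) s1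
      have hl : (μ ^ (C + 1)) ^ E * (X + 1) ≤ Real.log L' := by
        have h := (le_trans (mul_le_mul_of_nonneg_right hq (by linarith)) h3).trans b.2
        rw [mul_assoc] at h
        exact le_of_mul_le_mul_left h (by positivity)
      obtain ⟨y, D', L'', a', b', c'⟩ := hE (μ ^ (C + 1)) X lam L' (pf f x D) (k2.trans hμ') h2 hl
        (fun z => h4 _) h5 (h6.trans hμ') h7 (fun j' hj' y D' L'' a' b' => by
          rw [pf_pf]
          exact hm_mono (h8 j' (by omega) _ _ L'' (Nat.mul_pos a a')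
            (lg_mono (lg_trans b b' (by positivity)) hq)) hμ') s2
      refine ⟨x + D * y, D * D', L'', Nat.mul_pos a a',
        lg_mono (lg_trans b b' (by positivity)) hq, c'.trans (le_of_eq ?_)⟩
      refine Finset.expect_congr rfl fun v _ => ?_
      simp only [pf]
      congr 1
      push_cast
      ring

end Vale.Agent.P057H.H16
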