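import Vale.Agent.P057H.Defs

/-! The descent over the number of variables. -/

set_option linter.all false

open Finset
open scoped BigOperators Classical

namespace Vale.Agent.P057H.H79

open Vale.Agent.P057Z Vale.Agent.P057L

theorem lg_mono {N L : ℕ} {Y Y' : ℝ} (h : Lg N L Y) (hY : Y ≤ Y') : Lg N L Y' :=
  ⟨h.1, h.2.trans (mul_le_mul_of_nonneg_right hY (Real.log_natCast_nonneg L))⟩

theorem lg_trans {N L L' : ℕ} {Y Y' : ℝ} (h : Lg N L Y) (h' : Lg L L' Y') (hY : 0 ≤ Y) :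
    Lg N L' (Y * Y') :=
  ⟨h'.1, h.2.trans (by rw [mul_assoc]; exact mul_le_mul_of_nonneg_left h'.2 hY)⟩

theorem pf_pf (f : ℤ → ℝ) (x x' : ℤ) (D D' : ℕ) :
    pf (pf f x D) x' D' = pf f (x + D * x') (D * D') := by
  funext z
  simp only [pf]
  congr 1
  push_cast
  ring

theorem pf_one (f : ℤ → ℝ) : pf f 0 1 = f := by
  funext z
  simp [pf]

/-- either a long progression has a large mean, or the step applies -/
theorem stepA (hS : STEPH) (j : ℕ) : ∃ C1 : ℕ, ∀ (C : ℕ) (μ X lam : ℝ) (L : ℕ) (f : ℤ → ℝ),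
    C1 ≤ C → 2 ≤ C → (C : ℝ) ≤ μ → 0 ≤ X → μ ^ C * (X + 1) ≤ Real.log L →
    (∀ x, 0 ≤ f x ∧ f x ≤ Real.exp X) → 1 ≤ lam → lam ≤ μ → lam ≤ Real.exp X →
    (∀ j' ≤ j, ∀ (x : ℤ) (D L' : ℕ), 1 ≤ D → Lg L L' (μ ^ C) → HM j' L' (pf f x D) μ) →
    St j L f lam μ →
    (∃ (x : ℤ) (D L' : ℕ), 1 ≤ D ∧ Lg L L' (μ ^ C) ∧ lam ≤ 𝔼 v ∈ rg L', f (x + D * v)) ∨
    ∃ (x : ℤ) (D L' : ℕ), 1 ≤ D ∧ Lg L L' (μ ^ C1) ∧ Md j L' (pf f x D) lam (μ ^ C1) := by
  obtain ⟨C1, h1⟩ := hS j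
  refine ⟨C1, fun C μ X lam L f hC hC2 hμ hX hL hf l1 l2 l3 hH hSt => ?_⟩
  have hμ2 : (2 : ℝ) ≤ μ := le_trans (by exact_mod_cast hC2) hμ
  have hμ1 : (1 : ℝ) ≤ μ := by linarith
  have hp : μ ^ C1 ≤ μ ^ C := pow_le_pow_right₀ hμ1 hC
  have hp1 : 1 ≤ μ ^ C := one_le_pow₀ hμ1
  by_cases hN : NoF L f lam (μ ^ C1)
  · right
    have hlog : 0 < Real.log L := lt_of_lt_of_le (by positivity) hL
    have hL1 : 1 ≤ L := by
      rcases Nat.eq_zero_or_pos L with h | h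
      · subst h; simp at hlog
      · exact h
    have hH' : HM j L f μ := by
      have := hH j le_rfl 0 1 L le_rfl ⟨hL1, by nlinarith⟩
      rwa [pf_one] at this
    exact h1 μ X lam L f (le_trans (by exact_mod_cast hC) hμ) hX
      (le_trans (mul_le_mul_of_nonneg_right hp (by linarith)) hL) hf l1 l2 l3 hN hH' hSt
  · left
    unfold NoF at hN
    push Not at hN
    obtain ⟨x, D, L', hD, hg, hlt⟩ := hN
    exact ⟨x, D, L', hD, lg_mono hg hp, hlt.le⟩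

theorem downh (hM : MS) (hS : STEPH) : DOWNH := by
  intro j
  induction j with
  | zero =>
    obtain ⟨C1, h1⟩ := stepA hS 0
    refine ⟨C1 + 2, fun μ X lam L f hμ hX hL hf l1 l2 l3 hH hSt => ?_⟩
    have hμ1 : (1 : ℝ) ≤ μ := l1.trans l2
    rcases h1 (C1 + 2) μ X lam L f (by omega) (by omega) hμ hX hL hf l1 l2 l3 hH hSt with h | h
    · exact h
    obtain ⟨x, D, L', hD, hg, hm⟩ := h
    obtain ⟨x', hx'⟩ := hM.2.1 L' (pf f x D) lam (μ ^ C1) (by positivity) hg.1 hm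
    refine ⟨x + D * x', D, L', hD, lg_mono hg (pow_le_pow_right₀ hμ1 (by omega)), ?_⟩
    refine hx'.trans (le_of_eq (Finset.expect_congr rfl fun v _ => ?_))
    simp only [pf]
    congr 1
    ring
  | succ j ih =>
    obtain ⟨C1, h1⟩ := stepA hS (j + 1)
    obtain ⟨C2, h2⟩ := ih
    refine ⟨C1 + (j + C1 + 1) * C2 + C2 + 2, fun μ X lam L f hμ hX hL hf l1 l2 l3 hH hSt => ?_⟩
    set C := C1 + (j + C1 + 1) * C2 + C2 + 2 with hCd
    have hμ2 : (2 : ℝ) ≤ μ := le_trans (by exact_mod_cast (by omega : 2 ≤ C)) hμ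
    have hμ1 : (1 : ℝ) ≤ μ := by linarith
    have hμ0 : (0 : ℝ) < μ := by linarith
    rcases h1 C μ X lam L f (by omega) (by omega) hμ hX hL hf l1 l2 l3 hH hSt with h | h
    · exact h
    obtain ⟨x, D, L', hD, hg, hm⟩ := h
    have hs1 : St j L' (pf f x D) lam (2 ^ j * μ ^ C1) :=
      hM.1 j L' _ lam _ (one_le_pow₀ hμ1) hm
    have hle : (2 : ℝ) ^ j * μ ^ C1 ≤ μ ^ (j + C1 + 1) := by
      calc (2 : ℝ) ^ j * μ ^ C1 ≤ μ ^ j * μ ^ C1 := by gcongr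
        _ = μ ^ (j + C1) := by rw [pow_add]
        _ ≤ μ ^ (j + C1 + 1) := pow_le_pow_right₀ hμ1 (by omega)
    have hs2 : St j L' (pf f x D) lam (μ ^ (j + C1 + 1)) :=
      hM.2.2.1 j L' _ lam _ _ (by positivity) hle hs1
    have hμμ : μ ≤ μ ^ (j + C1 + 1) := le_self_pow₀ hμ1 (by omega)
    have hcomp : μ ^ C1 * (μ ^ (j + C1 + 1)) ^ C2 ≤ μ ^ C := by
      rw [← pow_mul, ← pow_add]
      exact pow_le_pow_right₀ hμ1 (by omega)
    have hL' : (μ ^ (j + C1 + 1)) ^ C2 * (X + 1) ≤ Real.log L' := by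
      have h3 : μ ^ C1 * ((μ ^ (j + C1 + 1)) ^ C2 * (X + 1)) ≤ μ ^ C1 * Real.log L' := by
        rw [← mul_assoc]
        exact ((mul_le_mul_of_nonneg_right hcomp (by linarith)).trans hL).trans hg.2
      exact le_of_mul_le_mul_left h3 (by positivity)
    obtain ⟨x', D', L'', hD', hg', hm'⟩ := h2 (μ ^ (j + C1 + 1)) X lam L' (pf f x D)
      (le_trans (le_trans (by exact_mod_cast (by omega : C2 ≤ C)) hμ) hμμ) hX hL'
      (fun z => hf _) l1 (l2.trans hμμ) l3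
      (fun j' hj' x' D' L'' hD' hg' Z hZ => by
        rw [pf_pf]
        exact hH j' (by omega) _ _ L'' (Nat.mul_pos hD hD')
          (lg_mono (lg_trans hg hg' (by positivity)) hcomp) Z (hμμ.trans hZ)) hs2
    refine ⟨x + D * x', D * D', L'', Nat.mul_pos hD hD',
      lg_mono (lg_trans hg hg' (by positivity)) hcomp, ?_⟩
    refine hm'.trans (le_of_eq (Finset.expect_congr rfl fun v _ => ?_))
    simp only [pf]
    congr 1
    push_cast
    ring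

end Vale.Agent.P057H.H79
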