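import Vale.Agent.P057H.Defs
import Vale.Agent.P057L.Inc

/-! Row INCH: the maximal level. -/

set_option linter.all false

open Finset Filter
open scoped BigOperators Classical

namespace Vale.Agent.P057H.H11

open Vale.Agent.P057Z Vale.Agent.P057L

theorem ex_max (p : ℕ → Prop) (B : ℕ) (hB : ∀ i, p i → i ≤ B) (h : ∃ i, p i) :
    ∃ i, p i ∧ ∀ i', i < i' → ¬ p i' := by
  obtain ⟨i, hi⟩ := h
  exact ⟨Nat.findGreatest p B, Nat.findGreatest_spec (hB i hi) hi,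
    fun i' h h' => Nat.findGreatest_is_greatest h (hB i' h') h'⟩

theorem pf_pf (f : ℤ → ℝ) (x x' : ℤ) (D D' : ℕ) :
    pf (pf f x D) x' D' = pf f (x + D * x') (D * D') := by
  funext z
  simp only [pf]
  congr 1
  push_cast
  ring

theorem pf_one (f : ℤ → ℝ) : pf f 0 1 = f := by
  funext z
  simp [pf]

theorem thr (k : ℕ) : ∃ K : ℕ, ∀ n, K ≤ n → ((n : ℝ) + 2) ^ k ≤ 2 ^ n := by
  have h := (tendsto_pow_const_div_const_pow_of_one_lt k (by norm_num : (1 : ℝ) < 2)).eventually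
    (eventually_le_nhds (by norm_num : (0 : ℝ) < 1 / 4))
  obtain ⟨K, hK⟩ := eventually_atTop.1 h
  refine ⟨K, fun n hn => ?_⟩
  have := hK (n + 2) (by omega)
  rw [div_le_iff₀ (by positivity), pow_add] at this
  push_cast at this
  linarith

theorem lin (n : ℕ) (h : 2 ≤ n) : (n : ℝ) + 2 ≤ 2 ^ n := by
  obtain ⟨m, rfl⟩ := Nat.exists_eq_add_of_le h
  have : (m : ℝ) + 1 ≤ 2 ^ m := by exact_mod_cast Nat.lt_two_pow_self
  rw [pow_add]
  push_cast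
  nlinarith

theorem num {Z c lam : ℝ} {P : ℕ} (hP : 9 ≤ P) (hZ : 8 ≤ Z) (c0 : 0 ≤ c) (hc : c ≤ Z)
    (l0 : 0 ≤ lam) (hl : lam ≤ Z) : ∃ n : ℕ, Z < n + 2 ∧ 2 * (2 : ℝ) ^ n ≤ Real.exp Z ∧
      c * 2 ^ n * lam ≤ 2 ^ (P * n) * Real.exp (-Z) ^ 2 := by
  have h8 : 8 ≤ ⌊Z⌋₊ := Nat.le_floor (by exact_mod_cast hZ)
  obtain ⟨n, hn⟩ : ∃ n, ⌊Z⌋₊ = n + 1 := ⟨⌊Z⌋₊ - 1, by omega⟩
  have a1 := Nat.lt_floor_add_one Z
  have a2 := Nat.floor_le (show 0 ≤ Z by linarith)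
  rw [hn] at a1 a2 h8
  have a3 : Z < n + 2 := by push_cast at a1; linarith
  refine ⟨n, a3, ?_, ?_⟩
  · rw [← pow_succ']
    exact (two_pow_le_exp _).trans (Real.exp_le_exp.2 a2)
  · have b1 := lin n (by omega)
    have b2 : (2 : ℝ) ^ 6 ≤ 2 ^ n := pow_le_pow_right₀ (by norm_num) (by omega)
    have b3 : Real.exp Z ^ 2 ≤ 2 ^ 6 * (2 ^ n) ^ 3 := by
      have e1 : Real.exp 2 ≤ 8 := by
        have := Real.exp_one_lt_d9
        rw [show (2 : ℝ) = 1 + 1 by norm_num, Real.exp_add]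
        nlinarith [Real.exp_pos 1]
      calc Real.exp Z ^ 2 ≤ Real.exp 2 ^ (n + 2) := by
            rw [← Real.exp_nat_mul, ← Real.exp_nat_mul]
            refine Real.exp_le_exp.2 ?_
            push_cast
            linarith
        _ ≤ 8 ^ (n + 2) := pow_le_pow_left₀ (Real.exp_pos _).le e1 _
        _ = _ := by
          rw [show (8 : ℝ) = 2 ^ 3 by norm_num, ← pow_mul, ← pow_mul, ← pow_add]
          congr 1
          ring
    rw [Real.exp_neg, inv_pow, ← div_eq_mul_inv, le_div_iff₀ (by positivity)]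
    have b4 : c ≤ 2 ^ n := by linarith
    have b5 : lam ≤ 2 ^ n := by linarith
    calc c * 2 ^ n * lam * Real.exp Z ^ 2 ≤ 2 ^ n * 2 ^ n * 2 ^ n * (2 ^ n * (2 ^ n) ^ 3) := by
          gcongr
          exact b3.trans (by gcongr)
      _ = 2 ^ (7 * n) := by rw [mul_comm 7, pow_mul]; ring
      _ ≤ _ := pow_le_pow_right₀ (by norm_num) (Nat.mul_le_mul_right _ (by omega))

theorem hm {j L C P : ℕ} {f : ℤ → ℝ} {lam μ : ℝ}
    (h : ∀ (L : ℕ) (f : ℤ → ℝ) (lam lam' m ε : ℝ) (x0 : ℤ), 1 ≤ L → (∀ x, 0 ≤ f x) →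
      1 ≤ lam → 1 ≤ lam' → 0 < ε → ε ≤ 1 → C * lam * lam' ≤ m * ε ^ 2 →
      (∀ x : ℤ, 𝔼 v ∈ rg L, f (x + v) ≤ lam') → ¬ St j L f lam m →
      ∃ g : ℤ → ℝ, (∀ x, 0 ≤ g x ∧ g x ≤ 2 * lam) ∧ Mo j L f g x0 ε)
    (hP : 9 ≤ P) (hL : 1 ≤ L) (hf : ∀ x, 0 ≤ f x) (l1 : 1 ≤ lam) (l2 : lam ≤ μ) (hC : (C : ℝ) ≤ μ)
    (h8 : 8 ≤ μ) (hi : ∀ x : ℤ, 𝔼 v ∈ rg L, f (x + v) ≤ lam)
    (hn : ∀ n : ℕ, μ < n + 2 → ¬ St j L f (2 ^ n) (2 ^ (P * n))) : HM j L f μ := by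
  intro Z hZ x0
  obtain ⟨n, a1, a2, a3⟩ := num hP (h8.trans hZ) (Nat.cast_nonneg C) (hC.trans hZ)
    (by linarith : 0 ≤ lam) (l2.trans hZ)
  obtain ⟨g, b1, b2⟩ := h L f (2 ^ n) lam _ _ x0 hL hf (one_le_pow₀ (by norm_num)) l1
    (Real.exp_pos _) (Real.exp_le_one_iff.2 (by linarith)) a3 hi (hn n (by linarith))
  exact ⟨g, fun x => ⟨(b1 x).1, (b1 x).2.trans a2⟩, b2⟩

theorem inch (h1 : MS) (h2 : MOI) (h3 : CNT) (h4 : DOWNH) : INCH := by
  intro j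
  obtain ⟨η, η0, η1, P, i1, hP, h3⟩ := h3 j
  choose Cm h2 using h2
  choose Cd h4 using h4
  obtain ⟨CD, hCD⟩ : ∃ CD, ∀ j' ≤ j, Cd j' ≤ CD := ⟨∑ j' ∈ range (j + 1), Cd j', fun j' h =>
    single_le_sum (f := Cd) (fun _ _ => Nat.zero_le _) (mem_range.2 (by omega))⟩
  obtain ⟨CM, hCM⟩ : ∃ CM, ∀ j' ≤ j, Cm j' ≤ CM := ⟨∑ j' ∈ range (j + 1), Cm j', fun j' h =>
    single_le_sum (f := Cm) (fun _ _ => Nat.zero_le _) (mem_range.2 (by omega))⟩
  obtain ⟨K, hK⟩ := thr (CD + 1)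
  obtain ⟨i0, q1, q2, q3, q4, q5⟩ : ∃ i0, i1 ≤ i0 ∧ CD ≤ i0 ∧ CM ≤ i0 ∧ K ≤ i0 ∧ 8 ≤ i0 :=
    ⟨i1 + CD + CM + K + 8, by omega, by omega, by omega, by omega, by omega⟩
  obtain ⟨C0, h3⟩ := h3 i0 q1
  obtain ⟨C1, hC1⟩ := pow_unbounded_of_one_lt ((2 : ℝ) ^ (P * i0)) (by linarith : 1 < 1 + η)
  obtain ⟨C, r1, r2, r3, r4⟩ : ∃ C, C0 ≤ C ∧ (C1 + P) * (CD + 1) ≤ C ∧
      P * (CD + 1) * (i0 + 1) + 1 ≤ C ∧ C1 ≤ C :=
    ⟨C0 + (C1 + P) * (CD + 1) + (P * (CD + 1) * (i0 + 1) + 1) + C1, by omega, by omega, by omega,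
      by omega⟩
  refine ⟨η, η0, C, fun X α N A hX hN hA hF hα hc => ?_⟩
  have α0 : 0 < α := (Real.exp_pos _).trans_le hα
  have α1 : 1 / α ≤ Real.exp X := by
    rw [div_le_iff₀ α0]
    have := mul_le_mul_of_nonneg_left hα (Real.exp_pos X).le
    rwa [← Real.exp_add, add_neg_cancel, Real.exp_zero] at this
  set f := ind A α with hf
  have f0 : ∀ x, 0 ≤ f x ∧ f x ≤ 1 / α := fun x => by
    simp only [hf, ind]
    split_ifs
    · exact ⟨by positivity, le_rfl⟩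
    · exact ⟨le_rfl, by positivity⟩
  have two : ∀ i, i0 ≤ i → (i : ℝ) + 2 ≤ 2 ^ (P * i) := fun i hi =>
    (lin i (by omega)).trans (pow_le_pow_right₀ (by norm_num) (Nat.le_mul_of_pos_left _ (by omega)))
  have fin : ∀ lam : ℝ, 1 + η ≤ lam → (∃ (x : ℤ) (D L : ℕ), 1 ≤ D ∧ Lg N L (lam ^ C) ∧
      lam ≤ 𝔼 v ∈ rg L, f (x + D * v)) → ∃ (lam : ℝ) (L : ℕ) (A' : Finset ℤ), 1 + η ≤ lam ∧
      Lg N L (lam ^ C) ∧ A' ⊆ rg L ∧ APF (j + 3) A' ∧ lam * α * L ≤ A'.card := by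
    rintro lam hl ⟨x, D, L, hD, hL, h⟩
    obtain ⟨A', a, b, c⟩ := inc_of hF α0 hL.1 hD h
    exact ⟨lam, L, A', hl, hL, a, b, c⟩
  obtain ⟨L0, hL0, h3⟩ := h3 X α N A hX (le_trans (by
    have : (C0 : ℝ) ≤ C := by exact_mod_cast r1
    have := Real.add_one_le_exp (C * (X + 1))
    nlinarith) hN) hA hF hα hc
  have t2 : ∀ i, i0 ≤ i → (2 : ℝ) ≤ 2 ^ (P * i) := fun i hi => by
    linarith [two i hi, (Nat.cast_nonneg i : (0 : ℝ) ≤ i)]
  rcases h3 with ⟨x, h3⟩ | h3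
  · refine fin _ le_rfl ⟨x, 1, L0, le_rfl, hL0.mono ?_, by simpa using h3⟩
    exact (t2 i0 le_rfl).trans (hC1.le.trans (pw_le (by linarith) r4))
  let lv : ℕ → ℝ := fun i => if i = i0 then 1 + η else 2 ^ i
  let good : ℕ → Prop := fun i => i0 ≤ i ∧ ∃ j' ≤ j, ∃ (x : ℤ) (D L : ℕ), 1 ≤ D ∧
    Lg N L (2 ^ (P * i)) ∧ St j' L (pf f x D) (lv i) (2 ^ (P * i))
  have g1 : ∀ i, good i → lv i < 1 / α := by
    rintro i ⟨-, j', -, x, D, L, -, hL, hS⟩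
    by_contra hn
    exact h1.2.2.2 j' L _ _ _ (by positivity) hL.1 (fun z => (f0 _).2.trans (not_lt.1 hn)) hS
  obtain ⟨i, hi, hmax⟩ := ex_max good (i0 + ⌈1 / α⌉₊) (fun i hi => by
    by_cases e : i = i0
    · omega
    · have a1 := g1 i hi
      simp only [lv, if_neg e] at a1
      have a2 : (i : ℝ) < 2 ^ i := by exact_mod_cast Nat.lt_two_pow_self
      have a3 : (i : ℝ) ≤ ⌈1 / α⌉₊ := by linarith [Nat.le_ceil (1 / α)]
      have : i ≤ ⌈1 / α⌉₊ := by exact_mod_cast a3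
      omega) (by
    rcases h3 with h3 | ⟨i, hi, h3⟩
    · exact ⟨i0, le_rfl, j, le_rfl, 0, 1, L0, le_rfl, hL0.mono (t2 i0 le_rfl), by
        simpa only [lv, if_true, pf_one] using h3⟩
    · exact ⟨i, hi.le, j, le_rfl, 0, 1, L0, le_rfl, hL0.mono (t2 i hi.le), by
        simpa only [lv, if_neg hi.ne', pf_one] using h3⟩)
  have l0 := g1 i hi
  obtain ⟨hi, j', hj, x, D, L, hD, hL, hS⟩ := hi
  have m1 := two i hi
  have m2 : (i0 : ℝ) ≤ i := by exact_mod_cast hi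
  have m3 : (8 : ℝ) ≤ i0 := by exact_mod_cast q5
  have m4 : (2 : ℝ) ^ (P * i) = (2 ^ i) ^ P := by rw [mul_comm, pow_mul]
  have m5 : (2 : ℝ) ≤ 2 ^ i := by linarith [lin i (by omega)]
  have l1 : 1 + η ≤ lv i ∧ lv i ≤ 2 ^ (P * i) ∧ 2 ^ (P * i) ≤ lv i ^ (C1 + P) ∧
      (2 : ℝ) ^ i ≤ Real.exp ((i0 + 1) * (X + 1)) := by
    by_cases e : i = i0
    · simp only [lv, if_pos e]
      refine ⟨le_rfl, by linarith, ?_, ?_⟩
      · rw [e]
        exact hC1.le.trans (pw_le (by linarith) (by omega))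
      · rw [e]
        exact (two_pow_le_exp _).trans (Real.exp_le_exp.2 (by nlinarith))
    · simp only [lv, if_neg e] at l0 ⊢
      refine ⟨by linarith, ?_, ?_, ?_⟩
      · rw [m4]
        exact le_pw (by linarith) (by omega)
      · rw [m4]
        exact pw_le (by linarith) (by omega)
      · exact (l0.le.trans α1).trans (Real.exp_le_exp.2 (by nlinarith))
  obtain ⟨l1, l2, l3, l4⟩ := l1
  have l5 : ((2 : ℝ) ^ (P * i)) ^ (CD + 1) * (X + 1) ≤ Real.log N := by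
    refine le_trans ?_ hN
    calc _ ≤ (Real.exp ((i0 + 1) * (X + 1)) ^ P) ^ (CD + 1) * Real.exp (X + 1) := by
          rw [m4]
          gcongr
          linarith [Real.add_one_le_exp (X + 1)]
      _ ≤ _ := by
        rw [← Real.exp_nat_mul, ← Real.exp_nat_mul, ← Real.exp_add]
        refine Real.exp_le_exp.2 ?_
        have : ((P * (CD + 1) * (i0 + 1) + 1 : ℕ) : ℝ) ≤ C := by exact_mod_cast r3
        have := mul_le_mul_of_nonneg_right this (show 0 ≤ X + 1 by linarith)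
        push_cast at this ⊢
        linarith
  generalize lv i = lam at hS l0 l1 l2 l3
  generalize (2 : ℝ) ^ (P * i) = μ at hL hS m1 l2 l3 l5
  have μ1 : 1 ≤ μ := by linarith
  have up : ∀ L', Lg L L' (μ ^ Cd j') → Lg N L' (μ ^ (CD + 1)) := fun L' h =>
    (hL.trans h (by linarith)).mono (by
      rw [← pow_succ']
      exact pw_le μ1 (Nat.succ_le_succ (hCD j' hj)))
  refine fin lam l1 ?_
  suffices H : ∃ (x : ℤ) (D L : ℕ), 1 ≤ D ∧ Lg N L (μ ^ (CD + 1)) ∧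
      lam ≤ 𝔼 v ∈ rg L, f (x + D * v) by
    obtain ⟨x, D, L, a, b, c⟩ := H
    refine ⟨x, D, L, a, b.mono ?_, c⟩
    refine (pow_le_pow_left₀ (by linarith) l3 _).trans ?_
    rw [← pow_mul]
    exact pw_le (by linarith) r2
  by_contra hn
  obtain ⟨x', D', L', a, b, c⟩ := h4 j' μ X lam L (pf f x D) (by
      have : (Cd j' : ℝ) ≤ i0 := by exact_mod_cast (hCD j' hj).trans q2
      linarith) hX (by
      have a1 : μ * (μ ^ Cd j' * (X + 1)) ≤ μ * Real.log L := by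
        refine le_trans ?_ (l5.trans hL.2)
        rw [← mul_assoc, ← pow_succ']
        exact mul_le_mul_of_nonneg_right (pw_le μ1 (Nat.succ_le_succ (hCD j' hj))) (by linarith)
      exact le_of_mul_le_mul_left a1 (by linarith))
    (fun z => ⟨(f0 _).1, (f0 _).2.trans α1⟩) (by linarith) l2 (l0.le.trans α1)
    (fun j2 hj2 x' D' L' hD' hL' => by
      rw [pf_pf]
      refine hm (h2 j2) hP hL'.1 (fun z => (f0 _).1) (by linarith) l2 (by
        have : (Cm j2 : ℝ) ≤ i0 := by exact_mod_cast (hCM j2 (hj2.trans hj)).trans q3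
        linarith) (by linarith) (fun y => ?_) fun n h1 h2 => ?_
      · by_contra hlt
        refine hn ⟨x + D * x' + (D * D' : ℕ) * y, D * D', L', Nat.mul_pos hD hD', up L' hL', ?_⟩
        refine (not_le.1 hlt).le.trans (le_of_eq (expect_congr rfl fun v _ => ?_))
        simp only [pf]
        congr 1
        ring
      · have a1 : i < n := by
          have : (i : ℝ) < n := by linarith
          exact_mod_cast this
        refine hmax n a1 ⟨by omega, j2, hj2.trans hj, _, _, L', Nat.mul_pos hD hD',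
          (up L' hL').mono ?_, by simpa only [lv, if_neg (show n ≠ i0 by omega)] using h2⟩
        refine (pow_le_pow_left₀ (by linarith) h1.le _).trans ((hK n (by omega)).trans ?_)
        exact pow_le_pow_right₀ (by norm_num) (Nat.le_mul_of_pos_left _ (by omega))) hS
  refine hn ⟨x + D * x', D * D', L', Nat.mul_pos hD a, up L' b, ?_⟩
  refine c.trans (le_of_eq (expect_congr rfl fun v _ => ?_))
  exact congrFun (pf_pf f x x' D D') v

end Vale.Agent.P057H.H11
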