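import Vale.Agent.P057H.Defs
import Vale.Agent.P057L.Inc

/-! The density increment from the deepest state. -/

set_option linter.all false

open Finset Filter
open scoped BigOperators Classical

namespace Vale.Agent.P057H.H20

open Vale.Agent.P057Z Vale.Agent.P057L

noncomputable section

theorem pf_pf (f : ℤ → ℝ) (x x' : ℤ) (D D' : ℕ) :
    pf (pf f x D) x' D' = pf f (x + D * x') (D * D') := by
  funext z
  simp only [pf]
  push_cast
  rw [show x + D * (x' + D' * z) = x + D * x' + D * D' * z by ring]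

theorem unif {p : ℕ → ℕ → Prop} (h : ∀ j, ∃ C, p j C) (j : ℕ) :
    ∃ C : ℕ, ∀ j' ≤ j, ∃ C' ≤ C, p j' C' := by
  choose c hc using h
  exact ⟨∑ i ∈ range (j + 1), c i, fun j' hj =>
    ⟨c j', single_le_sum (f := c) (fun _ _ => Nat.zero_le _) (mem_range.2 (by omega)), hc j'⟩⟩

theorem ev_pow (E : ℕ) : ∃ n0 : ℕ, ∀ n, n0 ≤ n → (n : ℝ) ^ E ≤ 2 ^ n := by
  obtain ⟨n0, h⟩ := eventually_atTop.1 ((tendsto_pow_const_div_const_pow_of_one_lt E
    (r := 2) one_lt_two).eventually (gt_mem_nhds one_pos))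
  exact ⟨n0, fun n hn => ((div_lt_one (by positivity)).1 (h n hn)).le⟩

theorem nat_le (n : ℕ) : (n : ℝ) ≤ 2 ^ n := by exact_mod_cast (Nat.lt_two_pow_self (n := n)).le

theorem num1 {n : ℕ} (hn : 3 ≤ n) {Z : ℝ} (h : (n : ℝ) ≤ Z) : 2 * (2 : ℝ) ^ n ≤ Real.exp Z := by
  have e : (2 * 1.35 : ℝ) ≤ Real.exp 1 := by have := Real.exp_one_gt_d9; linarith
  have h1 : (1.35 : ℝ) ^ 3 ≤ 1.35 ^ n := pow_le_pow_right₀ (by norm_num) hn
  have h2 : (2 * 1.35 : ℝ) ^ n ≤ Real.exp Z := by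
    refine (pow_le_pow_left₀ (by norm_num) e n).trans ?_
    rw [← Real.exp_nat_mul, mul_one]
    exact Real.exp_le_exp.2 h
  rw [mul_pow] at h2
  have h3 : (0 : ℝ) < 2 ^ n := by positivity
  nlinarith

theorem num2 {n P : ℕ} (hn : 1 ≤ n) (hP : 9 ≤ P) {Z c l : ℝ} (h : Z ≤ n + 1) (hc : c ≤ 2 ^ n)
    (l0 : 0 ≤ l) (hl : l ≤ 2 ^ n) : c * 2 ^ n * l ≤ 2 ^ (P * n) * Real.exp (-Z) ^ 2 := by
  have e : Real.exp 2 ≤ 2 ^ 3 := by
    have h1 := Real.exp_one_lt_d9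
    have h2 := Real.exp_pos 1
    rw [show (2 : ℝ) = 1 + 1 by norm_num, Real.exp_add]
    nlinarith
  have h1 : Real.exp Z ^ 2 ≤ 2 ^ (3 * (n + 1)) := by
    rw [pow_mul]
    refine le_trans ?_ (pow_le_pow_left₀ (Real.exp_pos 2).le e (n + 1))
    rw [← Real.exp_nat_mul, ← Real.exp_nat_mul]
    exact Real.exp_le_exp.2 (by push_cast; linarith)
  have h2 : c * 2 ^ n * l ≤ 2 ^ n * 2 ^ n * 2 ^ n := by gcongr
  have h3 : (2 : ℝ) ^ n * 2 ^ n * 2 ^ n * 2 ^ (3 * (n + 1)) ≤ 2 ^ (P * n) := by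
    rw [← pow_add, ← pow_add, ← pow_add]
    exact pow_le_pow_right₀ one_le_two (by nlinarith)
  rw [Real.exp_neg, inv_pow, ← div_eq_mul_inv, le_div_iff₀ (by positivity)]
  exact le_trans (mul_le_mul h2 h1 (by positivity) (by positivity)) h3

/-- a state at the level i -/
def Gd (j N P : ℕ) (f : ℤ → ℝ) (lam : ℕ → ℝ) (i : ℕ) : Prop :=
  ∃ j' ≤ j, ∃ (x : ℤ) (D L : ℕ), 1 ≤ D ∧ Lg N L (2 ^ (P * i)) ∧
    St j' L (pf f x D) (lam i) (2 ^ (P * i))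

theorem core (hS : MS) (hM : MOI) (hD : DOWNH) (j : ℕ) : ∃ n0 E : ℕ, 1 ≤ n0 ∧ 1 ≤ E ∧
    ∀ (P i0 N : ℕ) (lam : ℕ → ℝ) (X : ℝ) (f : ℤ → ℝ), 9 ≤ P → n0 ≤ i0 → 0 ≤ X →
      (∀ x, 0 ≤ f x ∧ f x ≤ Real.exp X) → (∀ i, i0 < i → lam i = 2 ^ i) →
      (∀ i, i0 ≤ i → 1 ≤ lam i ∧ lam i ≤ 2 ^ i) →
      (∀ i, i0 ≤ i → lam i ≤ Real.exp X → ((2 : ℝ) ^ (P * i)) ^ E * (X + 1) ≤ Real.log N) →
      (∃ i, i0 ≤ i ∧ Gd j N P f lam i) →
      ∃ i, i0 ≤ i ∧ ∃ (x : ℤ) (D L : ℕ), 1 ≤ D ∧ Lg N L (((2 : ℝ) ^ (P * i)) ^ E) ∧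
        lam i ≤ 𝔼 v ∈ rg L, f (x + D * v) := by
  obtain ⟨CD, hd⟩ := unif hD j
  obtain ⟨CM, hm⟩ := unif hM j
  obtain ⟨n0, hn0⟩ := ev_pow (CD + 1)
  refine ⟨n0 + CD + CM + 3, CD + 1, by omega, by omega, ?_⟩
  rintro P i0 N lam X f hP hi0 hX hf l1 l2 l3 ⟨i1, g1⟩
  by_contra H
  have H' : ∀ i, i0 ≤ i → ∀ (x : ℤ) (D L : ℕ), 1 ≤ D → Lg N L (((2 : ℝ) ^ (P * i)) ^ (CD + 1)) →
      𝔼 v ∈ rg L, f (x + D * v) ≤ lam i := fun i hi x D L a b =>
    (not_le.1 fun c => H ⟨i, hi, x, D, L, a, b, c⟩).le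
  have b1 : ∀ i, Gd j N P f lam i → lam i ≤ Real.exp X := by
    rintro i ⟨j', -, x, D, L, -, a, b⟩
    by_contra c
    exact hS.2.2.2 j' L _ _ _ (by positivity) a.1 (fun z => (hf _).2.trans (not_le.1 c).le) b
  have b2 : ∀ i, i0 ≤ i ∧ Gd j N P f lam i → i ≤ i0 + ⌈Real.exp X⌉₊ := by
    rintro i ⟨a, b⟩
    rcases a.eq_or_lt with c | c
    · omega
    · have h1 := b1 i b
      rw [l1 i c] at h1
      have : (i : ℝ) ≤ ⌈Real.exp X⌉₊ := ((nat_le i).trans h1).trans (Nat.le_ceil _)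
      have : i ≤ ⌈Real.exp X⌉₊ := by exact_mod_cast this
      omega
  obtain ⟨i, ⟨hi, g⟩, mx⟩ : ∃ i, (i0 ≤ i ∧ Gd j N P f lam i) ∧
      ∀ k, i < k → ¬ Gd j N P f lam k := by
    refine ⟨_, Nat.findGreatest_spec (P := fun i => i0 ≤ i ∧ Gd j N P f lam i) (b2 i1 g1) g1,
      fun k hk c => ?_⟩
    have s := Nat.findGreatest_spec (P := fun i => i0 ≤ i ∧ Gd j N P f lam i) (b2 i1 g1) g1
    have t : i0 ≤ k ∧ Gd j N P f lam k := ⟨s.1.trans hk.le, c⟩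
    exact Nat.findGreatest_is_greatest hk (b2 k t) t
  have lX := b1 i g
  obtain ⟨j', hj, x, D, L, hD1, hL, st⟩ := g
  obtain ⟨C, hC, d⟩ := hd j' hj
  obtain ⟨n, hn⟩ : ∃ n : ℕ, n = 2 ^ (P * i) := ⟨_, rfl⟩
  have en : (2 : ℝ) ^ (P * i) = n := by rw [hn]; push_cast; rfl
  have i2 : 2 ^ i ≤ n := hn ▸ Nat.pow_le_pow_right two_pos (by nlinarith)
  have i3 : i < n := lt_of_lt_of_le Nat.lt_two_pow_self i2
  have ln : lam i ≤ n := (l2 i hi).2.trans (by exact_mod_cast i2)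
  have n1 : (1 : ℝ) ≤ n := (l2 i hi).1.trans ln
  have k1 := l3 i hi lX
  have k2 := H' i hi
  rw [en] at hL st k1 k2
  have tr : ∀ L', Lg L L' ((n : ℝ) ^ C) → Lg N L' ((n : ℝ) ^ (CD + 1)) := fun L' a =>
    (hL.trans a (by positivity)).mono (by
      rw [← pow_succ']; exact pow_le_pow_right₀ n1 (by omega))
  obtain ⟨x', D', L', a1, a2, a3⟩ := d n X (lam i) L (pf f x D)
    (by exact_mod_cast (by omega : C ≤ n)) hX (by
      have h1 : (n : ℝ) * ((n : ℝ) ^ CD * (X + 1)) ≤ n * Real.log L := by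
        rw [← mul_assoc, ← pow_succ']; exact k1.trans hL.2
      refine le_trans ?_ (le_of_mul_le_mul_left h1 (by positivity))
      exact mul_le_mul_of_nonneg_right (pow_le_pow_right₀ n1 hC) (by linarith))
    (fun z => hf _) (l2 i hi).1 ln lX (by
      intro j2 hj2 x2 D2 L2 hD2 hL2 Z hZ x0
      rw [pf_pf]
      obtain ⟨C2, hC2, m⟩ := hm j2 (hj2.trans hj)
      have z1 : n ≤ ⌊Z⌋₊ := Nat.le_floor hZ
      have z2 : (⌊Z⌋₊ : ℝ) ≤ Z := Nat.floor_le (by linarith)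
      have z3 : Z ≤ (⌊Z⌋₊ : ℝ) + 1 := (Nat.lt_floor_add_one Z).le
      generalize ⌊Z⌋₊ = k at z1 z2 z3
      have nk : (n : ℝ) ≤ 2 ^ k := le_trans (by exact_mod_cast z1) (nat_le k)
      have DD : 1 ≤ D * D2 := Nat.mul_pos hD1 hD2
      obtain ⟨g, g1, g2⟩ := m L2 (pf f (x + D * x2) (D * D2)) (2 ^ k) (lam i) (2 ^ (P * k))
        (Real.exp (-Z)) x0 hL2.1 (fun z => (hf _).1) (one_le_pow₀ one_le_two) (l2 i hi).1
        (Real.exp_pos _) (Real.exp_le_one_iff.2 (by linarith))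
        (num2 (by omega) hP z3 (le_trans (by exact_mod_cast (by omega : C2 ≤ n)) nk)
          (by linarith [(l2 i hi).1]) (ln.trans nk))
        (fun y => by
          have := k2 (x + D * x2 + (D * D2 : ℕ) * y) (D * D2) L2 DD (tr L2 hL2)
          refine le_of_eq_of_le (expect_congr rfl fun v _ => ?_) this
          simp only [pf]
          rw [mul_add ((D * D2 : ℕ) : ℤ), ← add_assoc])
        (fun s => mx k (by omega) ⟨j2, hj2.trans hj, _, _, L2, DD, (tr L2 hL2).mono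
          ((hn0 n (by omega)).trans (pow_le_pow_right₀ one_le_two (by nlinarith))), by
            rwa [l1 k (by omega)]⟩)
      exact ⟨g, fun y => ⟨(g1 y).1, (g1 y).2.trans (num1 (by omega) z2)⟩, g2⟩) st
  refine H ⟨i, hi, x + D * x', D * D', L', Nat.mul_pos hD1 a1, by rw [en]; exact tr L' a2, ?_⟩
  refine le_of_le_of_eq a3 (expect_congr rfl fun v _ => ?_)
  exact congrFun (pf_pf f x x' D D') v

theorem inch (hS : MS) (hM : MOI) (hC : CNT) (hD : DOWNH) : INCH := by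
  intro j
  obtain ⟨η, η0, η1, P, i1, hP, c⟩ := hC j
  obtain ⟨n0, E, n1, E1, k⟩ := core hS hM hD j
  obtain ⟨C0, c⟩ := c (i1 + n0) (by omega)
  generalize hi0 : i1 + n0 = i0 at c
  obtain ⟨C1, h1⟩ := pow_unbounded_of_one_lt (((2 : ℝ) ^ (P * i0)) ^ E) (y := 1 + η) (by linarith)
  let lam : ℕ → ℝ := fun i => if i = i0 then 1 + η else 2 ^ i
  have e0 : lam i0 = 1 + η := if_pos rfl
  have e1 : ∀ i, i0 < i → lam i = 2 ^ i := fun i h => if_neg h.ne'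
  have two : ∀ i, 1 ≤ i → (2 : ℝ) ≤ 2 ^ i := fun i h => le_self_pow₀ one_le_two (by omega)
  have e2 : ∀ i, i0 ≤ i → 1 + η ≤ lam i ∧ lam i ≤ 2 ^ i ∧
      ((2 : ℝ) ^ (P * i)) ^ E ≤ lam i ^ (C1 + P * E) := fun i h => by
    have t := two i (by omega)
    rcases h.eq_or_lt with rfl | h
    · rw [e0]
      exact ⟨le_rfl, by linarith, h1.le.trans (pow_le_pow_right₀ (by linarith) (by omega))⟩
    · rw [e1 i h]
      refine ⟨by linarith, le_rfl, ?_⟩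
      rw [← pow_mul, ← pow_mul]
      exact pow_le_pow_right₀ one_le_two (by nlinarith [Nat.zero_le (i * C1)])
  refine ⟨η, η0, C1 + P * E + 1 + C0, fun X α N A hX hN hA hF hα hc => ?_⟩
  have α0 : 0 < α := (Real.exp_pos _).trans_le hα
  have out : ∀ i, i0 ≤ i → ∀ (x : ℤ) (D L : ℕ), 1 ≤ D → Lg N L (((2 : ℝ) ^ (P * i)) ^ E) →
      lam i ≤ 𝔼 v ∈ rg L, ind A α (x + D * v) →
      ∃ (lam : ℝ) (L : ℕ) (A' : Finset ℤ), 1 + η ≤ lam ∧ Lg N L (lam ^ (C1 + P * E + 1 + C0)) ∧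
        A' ⊆ rg L ∧ APF (j + 3) A' ∧ lam * α * L ≤ A'.card := fun i hi x D L a b d => by
    obtain ⟨A', q⟩ := inc_of hF α0 b.1 a d
    exact ⟨lam i, L, A', (e2 i hi).1, b.mono ((e2 i hi).2.2.trans
      (pow_le_pow_right₀ (by linarith [(e2 i hi).1]) (by omega))), q⟩
  obtain ⟨L, hL, d⟩ := c X α N A hX (by
    refine le_trans ?_ hN
    refine le_trans ?_ (le_trans (le_add_of_nonneg_right zero_le_one) (Real.add_one_le_exp _))
    push_cast
    exact mul_le_mul_of_nonneg_right (le_add_of_nonneg_left (by positivity)) (by linarith))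
    hA hF hα hc
  have L2 : ∀ i, i0 ≤ i → Lg N L (2 ^ (P * i)) := fun i h =>
    hL.mono (two _ (Nat.mul_pos (by omega) (by omega)))
  have pf1 : pf (ind A α) 0 1 = ind A α := by funext z; simp [pf]
  have fin : (∃ i, i0 ≤ i ∧ Gd j N P (ind A α) lam i) →
      ∃ (lam : ℝ) (L : ℕ) (A' : Finset ℤ), 1 + η ≤ lam ∧ Lg N L (lam ^ (C1 + P * E + 1 + C0)) ∧
        A' ⊆ rg L ∧ APF (j + 3) A' ∧ lam * α * L ≤ A'.card := fun g => by
    obtain ⟨i, hi, x, D, L', a⟩ := k P i0 N lam X (ind A α) hP (by omega) hX (fun x => by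
        unfold ind
        split_ifs
        · refine ⟨by positivity, ?_⟩
          rw [div_le_iff₀ α0]
          have := mul_le_mul_of_nonneg_left hα (Real.exp_pos X).le
          rwa [← Real.exp_add, add_neg_cancel, Real.exp_zero] at this
        · exact ⟨le_rfl, (Real.exp_pos _).le⟩) e1
      (fun i h => ⟨by linarith [(e2 i h).1], (e2 i h).2.1⟩) (fun i h l => by
        refine le_trans ?_ hN
        have a := (e2 i h).2.2.trans (pow_le_pow_left₀ (by linarith [(e2 i h).1]) l _)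
        refine (mul_le_mul a (Real.add_one_le_exp X) (by linarith) (by positivity)).trans ?_
        rw [← pow_succ, ← Real.exp_nat_mul]
        refine Real.exp_le_exp.2 (mul_le_mul ?_ (by linarith) hX (by positivity))
        exact_mod_cast Nat.le_add_right _ _) g
    exact out i hi x D L' a.1 a.2.1 a.2.2
  rcases d with ⟨x, d⟩ | d | ⟨i, hi, d⟩
  · refine out i0 le_rfl x 1 L le_rfl ((L2 i0 le_rfl).mono
      (le_self_pow₀ (one_le_pow₀ one_le_two) (by omega))) ?_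
    rw [e0]
    simpa using d
  · exact fin ⟨i0, le_rfl, j, le_rfl, 0, 1, L, le_rfl, L2 i0 le_rfl, by rwa [pf1, e0]⟩
  · exact fin ⟨i, hi.le, j, le_rfl, 0, 1, L, le_rfl, L2 i hi.le, by rwa [pf1, e1 i hi]⟩

end

end Vale.Agent.P057H.H20
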