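import Vale.Agent.P057H.Defs
import Vale.Agent.P057L.Inc

/-! The density increment: the maximal level. -/

set_option linter.all false

open Finset
open scoped BigOperators Classical

namespace Vale.Agent.P057H.H37

open Vale.Agent.P057Z Vale.Agent.P057L

noncomputable section

theorem pf_pf (f : ℤ → ℝ) (x x' : ℤ) (D D' : ℕ) :
    pf (pf f x D) x' D' = pf f (x + D * x') (D * D') := by
  funext z
  simp only [pf]
  congr 1
  push_cast
  ring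

theorem pf_one (f : ℤ → ℝ) : pf f 0 1 = f := by
  funext z
  simp [pf]

/-- the models with one constant -/
def MU (j C : ℕ) : Prop := ∀ j' ≤ j, ∀ (L : ℕ) (f : ℤ → ℝ) (lam lam' m ε : ℝ) (x0 : ℤ), 1 ≤ L →
  (∀ x, 0 ≤ f x) → 1 ≤ lam → 1 ≤ lam' → 0 < ε → ε ≤ 1 → C * lam * lam' ≤ m * ε ^ 2 →
  (∀ x : ℤ, 𝔼 v ∈ rg L, f (x + v) ≤ lam') → ¬ St j' L f lam m →
  ∃ g : ℤ → ℝ, (∀ x, 0 ≤ g x ∧ g x ≤ 2 * lam) ∧ Mo j' L f g x0 ε

/-- the descent with one constant -/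
def DU (j C : ℕ) : Prop := ∀ j' ≤ j, ∀ (μ X lam : ℝ) (L : ℕ) (f : ℤ → ℝ), (C : ℝ) ≤ μ → 0 ≤ X →
  μ ^ C * (X + 1) ≤ Real.log L → (∀ x, 0 ≤ f x ∧ f x ≤ Real.exp X) → 1 ≤ lam → lam ≤ μ →
  lam ≤ Real.exp X →
  (∀ j'' ≤ j, ∀ (x : ℤ) (D L' : ℕ), 1 ≤ D → Lg L L' (μ ^ C) → HM j'' L' (pf f x D) μ) →
  St j' L f lam μ →
  ∃ (x : ℤ) (D L' : ℕ), 1 ≤ D ∧ Lg L L' (μ ^ C) ∧ lam ≤ 𝔼 v ∈ rg L', f (x + D * v)

theorem le_sum (C : ℕ → ℕ) {j j' : ℕ} (h : j' ≤ j) : C j' ≤ ∑ i ∈ range (j + 1), C i + 1 :=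
  (single_le_sum (f := C) (fun _ _ => Nat.zero_le _) (mem_range.2 (Nat.lt_succ_of_le h))).trans
    (Nat.le_succ _)

theorem mu (h : MOI) (j : ℕ) : ∃ C, MU j C := by
  choose C hC using h
  refine ⟨∑ i ∈ range (j + 1), C i + 1, fun j' hj L f lam lam' m ε x0 h1 h2 h3 h4 h5 h6 h7 => ?_⟩
  refine hC j' L f lam lam' m ε x0 h1 h2 h3 h4 h5 h6 (le_trans ?_ h7)
  have : (C j' : ℝ) ≤ (∑ i ∈ range (j + 1), C i + 1 : ℕ) := by exact_mod_cast le_sum C hj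
  gcongr

theorem du (h : DOWNH) (j : ℕ) : ∃ C, DU j C := by
  choose C hC using h
  refine ⟨∑ i ∈ range (j + 1), C i + 1,
    fun j' hj μ X lam L f h1 h2 h3 h4 h5 h6 h7 h8 h9 => ?_⟩
  have a := le_sum C hj
  have b : (C j' : ℝ) ≤ (∑ i ∈ range (j + 1), C i + 1 : ℕ) := by exact_mod_cast a
  have c : μ ^ C j' ≤ μ ^ (∑ i ∈ range (j + 1), C i + 1) := pw_le (h5.trans h6) a
  obtain ⟨x, D, L', hD, lg, e⟩ := hC j' μ X lam L f (b.trans h1) h2
    (le_trans (mul_le_mul_of_nonneg_right c (by linarith)) h3) h4 h5 h6 h7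
    (fun j'' hj' x D L' hD lg => h8 j'' (hj'.trans hj) x D L' hD (lg.mono c)) h9
  exact ⟨x, D, L', hD, lg.mono c, e⟩

/-- something happens at level i -/
def Ph (j P N : ℕ) (f : ℤ → ℝ) (i : ℕ) : Prop :=
  ∃ (x : ℤ) (D L : ℕ), 1 ≤ D ∧ Lg N L (2 ^ i) ∧ ((2 : ℝ) ^ i ≤ 𝔼 v ∈ rg L, f (x + D * v) ∨
    ∃ j' ≤ j, St j' L (pf f x D) (2 ^ i) (2 ^ (P * i)))

theorem hm {j P N CM i b : ℕ} {f : ℤ → ℝ} (hM : MU j CM) (hP : 9 ≤ P) (hf : ∀ x, 0 ≤ f x)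
    (hn : ∀ i', i < i' → ¬ Ph j P N f i') (h1 : 16 * CM ≤ i) (h2 : b + 2 ≤ 2 ^ (P * i))
    (h3 : i ≤ b) {j' : ℕ} (hj : j' ≤ j) (x : ℤ) (D L : ℕ) (hD : 1 ≤ D) (lg : Lg N L (2 ^ b)) :
    HM j' L (pf f x D) (2 ^ (P * i)) := by
  intro Z hZ x0
  have Z0 : 0 ≤ Z := le_trans (by positivity) hZ
  obtain ⟨n, n1, n2⟩ := exists_nat_pow_near (Real.one_le_exp Z0) (one_lt_two (α := ℝ))
  have n3 : 2 ^ (P * i) ≤ n := by
    have a := two_pow_le_exp (2 ^ (P * i))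
    have c : Real.exp ((2 ^ (P * i) : ℕ) : ℝ) ≤ Real.exp Z :=
      Real.exp_le_exp.2 (by push_cast; exact hZ)
    have d := (pow_lt_pow_iff_right₀ (one_lt_two (α := ℝ))).1 ((a.trans c).trans_lt n2)
    omega
  obtain ⟨n, rfl⟩ : ∃ m, n = m + 1 := ⟨n - 1, by omega⟩
  have hn' := hn n (by omega)
  have t1 : (1 : ℝ) ≤ 2 ^ n := one_le_pow₀ one_le_two
  have lg' : Lg N L (2 ^ n) := lg.mono (pw_le one_le_two (by omega))
  obtain ⟨g, hg, mo⟩ := hM j' hj L (pf f x D) (2 ^ n) (2 ^ n) (2 ^ (P * n)) (Real.exp (-Z)) x0 lg.1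
    (fun _ => hf _) t1 t1 (Real.exp_pos _) (Real.exp_le_one_iff.2 (by linarith)) (by
      have a : ((2 : ℝ) ^ n) ^ 9 ≤ 2 ^ (P * n) := by
        rw [← pow_mul]
        exact pw_le one_le_two (by nlinarith)
      have c : (16 * CM : ℝ) ≤ 2 ^ n := by
        have : 16 * CM ≤ 2 ^ n := le_trans (by omega) (Nat.lt_two_pow_self (n := n)).le
        exact_mod_cast this
      have d : 1 ≤ 4 * 2 ^ n * Real.exp (-Z) := by
        have := mul_le_mul_of_nonneg_right n2.le (Real.exp_pos (-Z)).le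
        rw [← Real.exp_add, add_neg_cancel, Real.exp_zero] at this
        refine this.trans (le_of_eq ?_)
        ring
      generalize (2 : ℝ) ^ n = t at t1 a c d
      generalize Real.exp (-Z) = ε at d
      have e1 : 1 ≤ (4 * t * ε) ^ 2 := one_le_pow₀ d
      have e2 : t ^ 3 ≤ t ^ 7 := pw_le t1 (by norm_num)
      have e3 : (CM : ℝ) * t * t ≤ t ^ 3 / 16 := by nlinarith [mul_nonneg (by linarith : 0 ≤ t) (by linarith : 0 ≤ t)]
      have e4 : t ^ 7 / 16 ≤ t ^ 9 * ε ^ 2 := by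
        have := mul_le_mul_of_nonneg_left e1 (by positivity : 0 ≤ t ^ 7 / 16)
        refine (le_of_eq (mul_one _).symm).trans (this.trans (le_of_eq ?_))
        ring
      have e5 := mul_le_mul_of_nonneg_right a (sq_nonneg ε)
      linarith)
    (fun y => by
      by_contra h
      refine hn' ⟨x + D * y, D, L, hD, lg', Or.inl ((not_le.1 h).le.trans (le_of_eq ?_))⟩
      refine expect_congr rfl fun v _ => ?_
      simp only [pf]
      congr 1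
      ring)
    fun h => hn' ⟨x, D, L, hD, lg', Or.inr ⟨j', hj, h⟩⟩
  exact ⟨g, fun y => ⟨(hg y).1, (hg y).2.trans (le_trans (le_of_eq (by ring)) n1)⟩, mo⟩

theorem fin {j P N CM CD i : ℕ} {f : ℤ → ℝ} {X lam : ℝ} (hM : MU j CM) (hD : DU j CD) (hP : 9 ≤ P)
    (hX : 0 ≤ X) (hf : ∀ x, 0 ≤ f x ∧ f x ≤ Real.exp X) (hn : ∀ i', i < i' → ¬ Ph j P N f i')
    (h1 : 16 * CM + CD + (1 + P * CD) + 2 ≤ i) (l1 : 1 ≤ lam) (l2 : lam ≤ 2 ^ i)
    (l3 : lam ≤ Real.exp X) (hN : (2 : ℝ) ^ ((1 + P * CD) * i) * (X + 1) ≤ Real.log N)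
    {j' : ℕ} (hj : j' ≤ j) (x : ℤ) (D L : ℕ) (D1 : 1 ≤ D) (lg : Lg N L (2 ^ i))
    (st : St j' L (pf f x D) lam (2 ^ (P * i))) :
    ∃ (x : ℤ) (D L : ℕ), 1 ≤ D ∧ Lg N L (2 ^ ((1 + P * CD) * i)) ∧
      lam ≤ 𝔼 v ∈ rg L, f (x + D * v) := by
  have e : (2 : ℝ) ^ ((1 + P * CD) * i) = 2 ^ i * (2 ^ (P * i)) ^ CD := by
    rw [← pow_mul, ← pow_add]
    congr 1
    ring
  have i1 : i < 2 ^ i := Nat.lt_two_pow_self
  have i2 : 2 ^ i * 2 ^ i ≤ 2 ^ (P * i) := by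
    rw [← pow_add]
    exact Nat.pow_le_pow_right (by norm_num) (by nlinarith)
  have i3 : (1 + P * CD) * i + 2 ≤ 2 ^ (P * i) := by
    refine le_trans ?_ i2
    generalize 1 + P * CD = a at h1 ⊢
    have : (a + 2) * i ≤ 2 ^ i * 2 ^ i := Nat.mul_le_mul (by omega) i1.le
    nlinarith
  have i4 : (2 : ℝ) ^ i ≤ 2 ^ (P * i) := pw_le one_le_two (by nlinarith)
  have t0 : (0 : ℝ) < 2 ^ i := by positivity
  obtain ⟨x', D', L', hD', lg', h⟩ := hD j' hj (2 ^ (P * i)) X lam L (pf f x D)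
    (le_trans (by exact_mod_cast (show CD ≤ 2 ^ i by omega)) i4) hX
    (by
      rw [e, mul_assoc] at hN
      exact le_of_mul_le_mul_left (hN.trans lg.2) t0)
    (fun _ => hf _) l1 (l2.trans i4) l3 (fun j'' hj' y E L' hE lg' => by
      rw [pf_pf]
      exact hm hM hP (fun x => (hf x).1) hn (by omega) i3
        (Nat.le_mul_of_pos_left _ (by omega)) hj' _ _ _
        (Nat.mul_pos D1 hE) (by rw [e]; exact lg.trans lg' t0.le)) st
  refine ⟨x + D * x', D * D', L', Nat.mul_pos D1 hD', by rw [e]; exact lg.trans lg' t0.le,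
    h.trans (le_of_eq (expect_congr rfl fun v _ => ?_))⟩
  simp only [pf]
  congr 1
  push_cast
  ring

theorem inch (hS : MS) (hM : MOI) (hC : CNT) (hD : DOWNH) : INCH := by
  intro j
  obtain ⟨CM, hM⟩ := mu hM j
  obtain ⟨CD, hD⟩ := du hD j
  obtain ⟨η, η0, η1, P, i1, hP, hC⟩ := hC j
  obtain ⟨i0, k1, k2⟩ : ∃ i0, i1 ≤ i0 ∧ 16 * CM + CD + (1 + P * CD) + 2 ≤ i0 :=
    ⟨i1 + (16 * CM + CD + (1 + P * CD) + 2), by omega, by omega⟩
  obtain ⟨C0, hC⟩ := hC i0 k1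
  obtain ⟨n0, hn0⟩ := pow_unbounded_of_one_lt ((2 : ℝ) ^ ((1 + P * CD) * i0))
    (by linarith : 1 < 1 + η)
  refine ⟨η, η0, n0 + C0 + (1 + P * CD) * (i0 + 1) + 1, fun X α N A hX hN hA hF hα hc => ?_⟩
  have α0 : 0 < α := (Real.exp_pos _).trans_le hα
  have hf : ∀ x, 0 ≤ ind A α x ∧ ind A α x ≤ Real.exp X := fun x => by
    unfold ind
    split_ifs
    · refine ⟨by positivity, ?_⟩
      rw [div_le_iff₀ α0]
      have := mul_le_mul_of_nonneg_left hα (Real.exp_pos X).le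
      rwa [← Real.exp_add, add_neg_cancel, Real.exp_zero] at this
    · exact ⟨le_rfl, (Real.exp_pos _).le⟩
  have stl : ∀ {j' L : ℕ} {x : ℤ} {D : ℕ} {lam m : ℝ}, 0 < m → 1 ≤ L →
      St j' L (pf (ind A α) x D) lam m → lam ≤ Real.exp X := fun hm hL h => by
    by_contra k
    exact hS.2.2.2 _ _ _ _ _ hm hL (fun y => (hf _).2.trans (not_le.1 k).le) h
  have big : ∀ i : ℕ, (2 : ℝ) ^ i ≤ Real.exp ((i0 + 1) * (X + 1)) →
      (2 : ℝ) ^ ((1 + P * CD) * i) * (X + 1) ≤ Real.log N := fun i h => by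
    refine le_trans ?_ hN
    have a : (2 : ℝ) ^ ((1 + P * CD) * i) ≤
        Real.exp (((1 + P * CD : ℕ) : ℝ) * ((i0 + 1) * (X + 1))) := by
      rw [Real.exp_nat_mul, mul_comm, pow_mul]
      exact pow_le_pow_left₀ (by positivity) h _
    have b : X + 1 ≤ Real.exp (X + 1) := by linarith [Real.add_one_le_exp (X + 1)]
    refine (mul_le_mul a b (by linarith) (Real.exp_pos _).le).trans ?_
    rw [← Real.exp_add]
    refine Real.exp_le_exp.2 ?_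
    push_cast
    nlinarith [mul_nonneg (by positivity : (0 : ℝ) ≤ n0 + C0) (by linarith : 0 ≤ X + 1)]
  have out : ∀ (lam Y : ℝ), 1 + η ≤ lam → Y ≤ lam ^ (n0 + C0 + (1 + P * CD) * (i0 + 1) + 1) →
      (∃ (x : ℤ) (D L : ℕ), 1 ≤ D ∧ Lg N L Y ∧ lam ≤ 𝔼 v ∈ rg L, ind A α (x + D * v)) →
      ∃ (lam : ℝ) (L : ℕ) (A' : Finset ℤ), 1 + η ≤ lam ∧
        Lg N L (lam ^ (n0 + C0 + (1 + P * CD) * (i0 + 1) + 1)) ∧ A' ⊆ rg L ∧
        APF (j + 3) A' ∧ lam * α * L ≤ A'.card := by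
    rintro lam Y h1 h2 ⟨x, D, L, hD, lg, h⟩
    obtain ⟨A', a, b, c⟩ := inc_of hF α0 lg.1 hD h
    exact ⟨lam, L, A', h1, lg.mono h2, a, b, c⟩
  have bd : ∀ i, Ph j P N (ind A α) i → (2 : ℝ) ^ i ≤ Real.exp X := by
    rintro i ⟨x, D, L, hD, lg, h | ⟨j', -, h⟩⟩
    · refine h.trans (expect_le ⟨0, ?_⟩ fun v _ => (hf _).2)
      rw [rg, mem_Ico]
      have := lg.1
      omega
    · exact stl (by positivity) lg.1 h
  by_cases ex : ∃ i, i0 < i ∧ Ph j P N (ind A α) i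
  · obtain ⟨B, hB⟩ := pow_unbounded_of_one_lt (Real.exp X) (one_lt_two (α := ℝ))
    have b2 : ∀ i, Ph j P N (ind A α) i → i ≤ B := fun i h =>
      ((pow_lt_pow_iff_right₀ (one_lt_two (α := ℝ))).1 ((bd i h).trans_lt hB)).le
    obtain ⟨i', h1, h2⟩ := ex
    have h3 := Nat.le_findGreatest (b2 i' h2) h2
    have h4 := Nat.findGreatest_spec (b2 i' h2) h2
    have h5 : ∀ i, Nat.findGreatest (Ph j P N (ind A α)) B < i → ¬ Ph j P N (ind A α) i :=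
      fun i hi h => Nat.findGreatest_is_greatest hi (b2 i h) h
    generalize Nat.findGreatest (Ph j P N (ind A α)) B = i at h3 h4 h5
    have t1 : (1 : ℝ) ≤ 2 ^ i := one_le_pow₀ one_le_two
    have t2 : (2 : ℝ) ≤ 2 ^ i := le_pw one_le_two (by omega)
    have t3 := bd i h4
    refine out (2 ^ i) (2 ^ ((1 + P * CD) * i)) (by linarith) (by
      rw [mul_comm, pow_mul]
      exact pw_le t1 (le_trans (Nat.le_mul_of_pos_right _ (by omega : 0 < i0 + 1)) (by omega))) ?_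
    obtain ⟨x, D, L, D1, lg, h | ⟨j', hj, h⟩⟩ := h4
    · exact ⟨x, D, L, D1, lg.mono (pw_le one_le_two (Nat.le_mul_of_pos_left _ (by omega))), h⟩
    · refine fin hM hD hP hX hf h5 (by omega) t1 le_rfl t3 (big i (t3.trans ?_)) hj x D L D1 lg h
      refine Real.exp_le_exp.2 ?_
      nlinarith [mul_nonneg (by positivity : (0 : ℝ) ≤ i0) (by linarith : 0 ≤ X + 1)]
  · have h5 : ∀ i, i0 < i → ¬ Ph j P N (ind A α) i := fun i hi h => ex ⟨i, hi, h⟩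
    obtain ⟨L, lg, h⟩ := hC X α N A hX (by
      refine le_trans ?_ hN
      refine le_trans (by linarith [Real.add_one_le_exp (C0 * (X + 1))]) (Real.exp_le_exp.2
        (show (C0 : ℝ) * (X + 1) ≤ _ from mul_le_mul_of_nonneg_right ?_ (by linarith)))
      exact_mod_cast (by omega)) hA hF hα hc
    have t2 : (2 : ℝ) ≤ 2 ^ i0 := le_pw one_le_two (by omega)
    refine out (1 + η) (2 ^ ((1 + P * CD) * i0)) le_rfl
      (hn0.le.trans (pw_le (by linarith) (by omega))) ?_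
    rcases h with ⟨x, h⟩ | h | ⟨i, hi, h⟩
    · refine ⟨x, 1, L, le_rfl, lg.mono (t2.trans (pw_le one_le_two
        (Nat.le_mul_of_pos_left _ (by omega)))), ?_⟩
      simpa using h
    · rw [← pf_one (ind A α)] at h
      refine fin hM hD hP hX hf h5 k2 (by linarith) (by linarith) (stl (by positivity) lg.1 h)
        (big i0 ((two_pow_le_exp i0).trans ?_)) le_rfl 0 1 L le_rfl (lg.mono t2) h
      refine Real.exp_le_exp.2 ?_
      nlinarith [mul_nonneg (by positivity : (0 : ℝ) ≤ i0) hX]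
    · rw [← pf_one (ind A α)] at h
      exact absurd ⟨0, 1, L, le_rfl, lg.mono (le_pw one_le_two (by omega)),
        Or.inr ⟨j, le_rfl, h⟩⟩ (h5 i hi)

end

end Vale.Agent.P057H.H37
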