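import Vale.Agent.P057H.Defs
import Vale.Agent.P057L.Inc

/-! The density increment from the counting lemma and the descent. -/

set_option linter.all false

open Finset
open scoped BigOperators Classical

namespace Vale.Agent.P057H.H92

open Vale.Agent.P057Z Vale.Agent.P057L Vale.Agent.P057H

noncomputable section

theorem inch_pf (f : ℤ → ℝ) (x x' : ℤ) (D D' : ℕ) :
    pf (pf f x D) x' D' = pf f (x + D * x') (D * D') := by
  funext z
  simp only [pf]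
  congr 1
  push_cast
  ring

theorem inch_moi (h : MOI) (j : ℕ) : ∃ C : ℕ, ∀ j' ≤ j, ∀ (L : ℕ) (f : ℤ → ℝ) (lam m ε : ℝ)
    (x0 : ℤ), 1 ≤ L → (∀ x, 0 ≤ f x) → 1 ≤ lam → 0 < ε → ε ≤ 1 → C * lam * lam ≤ m * ε ^ 2 →
    (∀ x : ℤ, 𝔼 v ∈ rg L, f (x + v) ≤ lam) → ¬ St j' L f lam m →
    ∃ g : ℤ → ℝ, (∀ x, 0 ≤ g x ∧ g x ≤ 2 * lam) ∧ Mo j' L f g x0 ε := by
  choose C hC using h
  refine ⟨∑ i ∈ range (j + 1), C i, fun j' hj L f lam m ε x0 hL hf h1 e0 e1 hc hm hs => ?_⟩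
  have a : C j' ≤ ∑ i ∈ range (j + 1), C i :=
    single_le_sum (f := C) (fun _ _ => Nat.zero_le _) (mem_range.2 (by omega))
  have a' : (C j' : ℝ) ≤ ((∑ i ∈ range (j + 1), C i : ℕ) : ℝ) := by exact_mod_cast a
  refine hC j' L f lam lam m ε x0 hL hf h1 h1 e0 e1 (le_trans ?_ hc) hm hs
  have : 0 ≤ lam * lam := by positivity
  nlinarith

theorem inch_down (h : DOWNH) (j : ℕ) : ∃ C : ℕ, ∀ j1 ≤ j, ∀ (μ X lam : ℝ) (L : ℕ) (f : ℤ → ℝ),
    (C : ℝ) ≤ μ → 0 ≤ X → μ ^ C * (X + 1) ≤ Real.log L → (∀ x, 0 ≤ f x ∧ f x ≤ Real.exp X) →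
    1 ≤ lam → lam ≤ μ → lam ≤ Real.exp X →
    (∀ j' ≤ j, ∀ (x : ℤ) (D L' : ℕ), 1 ≤ D → Lg L L' (μ ^ C) → HM j' L' (pf f x D) μ) →
    St j1 L f lam μ →
    ∃ (x : ℤ) (D L' : ℕ), 1 ≤ D ∧ Lg L L' (μ ^ C) ∧ lam ≤ 𝔼 v ∈ rg L', f (x + D * v) := by
  choose C hC using h
  refine ⟨∑ i ∈ range (j + 1), C i, fun j1 hj μ X lam L f hμ hX hL hf h1 h2 h3 hH hs => ?_⟩
  have a : C j1 ≤ ∑ i ∈ range (j + 1), C i :=
    single_le_sum (f := C) (fun _ _ => Nat.zero_le _) (mem_range.2 (by omega))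
  have a' : (C j1 : ℝ) ≤ ((∑ i ∈ range (j + 1), C i : ℕ) : ℝ) := by exact_mod_cast a
  have b : μ ^ C j1 ≤ μ ^ (∑ i ∈ range (j + 1), C i) := pw_le (h1.trans h2) a
  obtain ⟨x, D, L', d, lg, H⟩ := hC j1 μ X lam L f (a'.trans hμ) hX
    (le_trans (mul_le_mul_of_nonneg_right b (by linarith)) hL) hf h1 h2 h3
    (fun j' hj' x D L' d lg => hH j' (hj'.trans hj) x D L' d (lg.mono b)) hs
  exact ⟨x, D, L', d, lg.mono b, H⟩

theorem inch_n1 {Z : ℝ} {i : ℕ} (hi : 3 ≤ i) (hZ : (i : ℝ) ≤ Z) : 2 * (2 : ℝ) ^ i ≤ Real.exp Z := by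
  obtain ⟨n, rfl⟩ : ∃ n, i = n + 3 := ⟨i - 3, by omega⟩
  refine le_trans ?_ (Real.exp_le_exp.2 hZ)
  have a := two_pow_le_exp n
  have b : (27 / 10 : ℝ) ≤ Real.exp 1 := by linarith [Real.exp_one_gt_d9]
  have c : (27 / 10 : ℝ) ^ 3 ≤ Real.exp 3 := by
    have := pow_le_pow_left₀ (by norm_num) b 3
    rwa [← Real.exp_nat_mul, mul_one] at this
  push_cast
  rw [Real.exp_add, pow_add]
  have d : (0 : ℝ) < 2 ^ n := by positivity
  have e : (2 : ℝ) ^ n * (27 / 10) ^ 3 ≤ Real.exp n * Real.exp 3 :=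
    mul_le_mul a c (by norm_num) (Real.exp_pos _).le
  nlinarith

theorem inch_n2 {Z : ℝ} {i C P : ℕ} (hi : 16 * C ≤ i) (hP : 9 ≤ P) (hZ : Z ≤ i + 1) :
    (C : ℝ) * 2 ^ i * 2 ^ i ≤ 2 ^ (P * i) * Real.exp (-Z) ^ 2 := by
  have a : Real.exp Z ≤ 4 * 2 ^ (2 * i) := by
    refine (Real.exp_le_exp.2 hZ).trans ?_
    have b : Real.exp 1 ≤ 4 := by linarith [Real.exp_one_lt_d9]
    have c := pow_le_pow_left₀ (Real.exp_pos 1).le b (i + 1)
    rw [← Real.exp_nat_mul, mul_one] at c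
    push_cast at c
    refine c.trans (le_of_eq ?_)
    rw [pow_succ, pow_mul]
    norm_num [mul_comm]
  have b : (16 * C : ℝ) ≤ 2 ^ i := by
    have : i < 2 ^ i := Nat.lt_two_pow_self
    exact_mod_cast hi.trans this.le
  have c : (2 : ℝ) ^ (7 * i) ≤ 2 ^ (P * i) := pw_le (by norm_num) (Nat.mul_le_mul_right _ (by omega))
  have E0 := Real.exp_pos Z
  have d : Real.exp (-Z) ^ 2 = 1 / Real.exp Z ^ 2 := by rw [Real.exp_neg, inv_pow, one_div]
  rw [d, mul_one_div, le_div_iff₀ (by positivity)]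
  refine le_trans ?_ c
  have e : Real.exp Z ^ 2 ≤ (4 * 2 ^ (2 * i)) ^ 2 := pow_le_pow_left₀ E0.le a 2
  have t0 : (0 : ℝ) < 2 ^ i := by positivity
  have e1 : (2 : ℝ) ^ (2 * i) = (2 ^ i) ^ 2 := by rw [← pow_mul, mul_comm]
  have e2 : (2 : ℝ) ^ (7 * i) = (2 ^ i) ^ 7 := by rw [← pow_mul, mul_comm]
  rw [e1] at e
  rw [e2]
  generalize (2 : ℝ) ^ i = t at *
  calc (C : ℝ) * t * t * Real.exp Z ^ 2 ≤ C * t * t * (4 * t ^ 2) ^ 2 :=
        mul_le_mul_of_nonneg_left e (by positivity)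
    _ = (16 * C) * t ^ 6 := by ring
    _ ≤ t * t ^ 6 := mul_le_mul_of_nonneg_right b (by positivity)
    _ = t ^ 7 := by ring

/-- a level is reached on some long progression -/
def Gd (j N : ℕ) (f : ℤ → ℝ) (lam m : ℝ) : Prop :=
  ∃ (x : ℤ) (D L : ℕ), 1 ≤ D ∧ Lg N L (2 * m) ∧
    (lam ≤ 𝔼 v ∈ rg L, f (x + D * v) ∨ ∃ j' ≤ j, St j' L (pf f x D) lam m)

theorem inch_bd (hS : MS) {j N : ℕ} {f : ℤ → ℝ} {lam m E : ℝ} (hm : 0 < m) (hf : ∀ x, f x ≤ E)
    (h : Gd j N f lam m) : lam ≤ E := by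
  obtain ⟨x, D, L, d, lg, H | ⟨j', _, H⟩⟩ := h
  · refine H.trans (expect_le ?_ fun v _ => hf _)
    refine ⟨0, ?_⟩
    have := lg.1
    simp only [rg, mem_Ico]
    omega
  · by_contra hc
    exact hS.2.2.2 j' L _ lam m hm lg.1 (fun z => (hf _).trans (not_le.1 hc).le) H

theorem inch (hS : MS) (hM : MOI) (hC : CNT) (hD : DOWNH) : INCH := by
  intro j
  obtain ⟨η, η0, η1, P, i1, hP, h1⟩ := hC j
  obtain ⟨Cm, hm⟩ := inch_moi hM j
  obtain ⟨Cd, hd⟩ := inch_down hD j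
  obtain ⟨i0, b1, b2, b3, b4⟩ : ∃ i0, i1 ≤ i0 ∧ 16 * Cm ≤ i0 ∧ Cd + 1 ≤ i0 ∧ 3 ≤ i0 :=
    ⟨i1 + 16 * Cm + Cd + 3, by omega, by omega, by omega, by omega⟩
  obtain ⟨Cc, hc⟩ := h1 i0 b1
  obtain ⟨C1, hC1⟩ := pow_unbounded_of_one_lt (2 * ((2 : ℝ) ^ (P * i0)) ^ (Cd + 1))
    (by linarith : 1 < 1 + η)
  obtain ⟨C, c1, c2, c3, c4⟩ : ∃ C, C1 ≤ C ∧ Cc ≤ C ∧ P * (Cd + 1) + 1 ≤ C ∧
      (Cd + 1) * (P * (i0 + 1)) + 1 ≤ C :=
    ⟨C1 + Cc + (P * (Cd + 1) + 1) + ((Cd + 1) * (P * (i0 + 1)) + 1), by omega, by omega, by omega,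
      by omega⟩
  refine ⟨η, η0, C, fun X α N A hX hN hA hF hα hcard => ?_⟩
  have α0 : 0 < α := (Real.exp_pos _).trans_le hα
  have hf : ∀ x, 0 ≤ ind A α x ∧ ind A α x ≤ Real.exp X := fun x => by
    unfold ind
    split_ifs
    · refine ⟨by positivity, ?_⟩
      rw [div_le_iff₀ α0]
      have := mul_le_mul_of_nonneg_left hα (Real.exp_pos X).le
      rwa [← Real.exp_add, add_neg_cancel, Real.exp_zero] at this
    · exact ⟨le_rfl, (Real.exp_pos _).le⟩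
  generalize hfe : ind A α = f at hf
  let lm : ℕ → ℝ := fun i => if i = i0 then 1 + η else 2 ^ i
  let good : ℕ → Prop := fun i => i0 ≤ i ∧ Gd j N f (lm i) (2 ^ (P * i))
  have m1 : ∀ i : ℕ, (1 : ℝ) ≤ 2 ^ (P * i) := fun i => one_le_pow₀ (by norm_num)
  have lm0 : lm i0 = 1 + η := if_pos rfl
  have lm1 : ∀ i, i0 < i → lm i = 2 ^ i := fun i hi => if_neg (by omega)
  have p0 : pf f 0 1 = f := by
    funext z
    simp [pf]
  have ex : ∃ i, good i := by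
    have a : (Cc : ℝ) * (X + 1) ≤ Real.log N := by
      refine le_trans ?_ hN
      have a1 : (Cc : ℝ) ≤ C := by exact_mod_cast c2
      have a2 := Real.add_one_le_exp ((C : ℝ) * (X + 1))
      nlinarith
    obtain ⟨L, lg, H⟩ := hc X α N A hX a hA hF hα hcard
    rw [hfe] at H
    have lg' : ∀ i : ℕ, Lg N L (2 * 2 ^ (P * i)) := fun i => lg.mono (by linarith [m1 i])
    rcases H with ⟨x, H⟩ | H | ⟨i, hi, H⟩
    · refine ⟨i0, le_rfl, x, 1, L, le_rfl, lg' _, Or.inl ?_⟩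
      rw [lm0]
      simpa using H
    · refine ⟨i0, le_rfl, 0, 1, L, le_rfl, lg' _, Or.inr ⟨j, le_rfl, ?_⟩⟩
      rwa [lm0, p0]
    · refine ⟨i, hi.le, 0, 1, L, le_rfl, lg' _, Or.inr ⟨j, le_rfl, ?_⟩⟩
      rwa [lm1 i hi, p0]
  have bd : ∀ i, good i → lm i ≤ Real.exp X := fun i h =>
    inch_bd hS (by positivity) (fun x => (hf x).2) h.2
  have bd2 : ∀ i, good i → i ≤ i0 + ⌈Real.exp X⌉₊ := fun i h => by
    rcases h.1.eq_or_lt with e | e
    · omega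
    · have a := bd i h
      rw [lm1 i e] at a
      have b : (i : ℝ) ≤ 2 ^ i := by exact_mod_cast (Nat.lt_two_pow_self (n := i)).le
      have c : (i : ℝ) ≤ ⌈Real.exp X⌉₊ := (b.trans a).trans (Nat.le_ceil _)
      have : i ≤ ⌈Real.exp X⌉₊ := by exact_mod_cast c
      omega
  obtain ⟨i, gi, mx⟩ : ∃ i, good i ∧ ∀ k, i < k → ¬ good k := by
    obtain ⟨i, hi⟩ := ex
    exact ⟨Nat.findGreatest good (i0 + ⌈Real.exp X⌉₊), Nat.findGreatest_spec (bd2 i hi) hi,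
      fun k hk g => Nat.findGreatest_is_greatest hk (bd2 k g) g⟩
  have hi := gi.1
  have l1 : 1 + η ≤ lm i := by
    rcases hi.eq_or_lt with e | e
    · rw [← e, lm0]
    · rw [lm1 i e]
      have : (2 : ℝ) ^ 1 ≤ 2 ^ i := pw_le (by norm_num) (by omega)
      linarith
  have l2 : lm i ≤ 2 ^ (P * i) := by
    have a : (2 : ℝ) ^ i ≤ 2 ^ (P * i) := pw_le (by norm_num) (Nat.le_mul_of_pos_left _ (by omega))
    rcases hi.eq_or_lt with e | e
    · have : (2 : ℝ) ^ 1 ≤ 2 ^ i := pw_le (by norm_num) (by omega)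
      rw [← e, lm0]
      rw [← e] at a this
      linarith
    · rwa [lm1 i e]
  have l3 : 2 * ((2 : ℝ) ^ (P * i)) ^ (Cd + 1) ≤ lm i ^ C := by
    rcases hi.eq_or_lt with e | e
    · rw [← e, lm0]
      exact hC1.le.trans (pw_le (by linarith) c1)
    · rw [lm1 i e, ← pow_mul, ← pow_mul, ← pow_succ']
      refine pw_le (by norm_num) ?_
      have a : i * (P * (Cd + 1) + 1) ≤ i * C := Nat.mul_le_mul_left _ c3
      have b : i * (P * (Cd + 1) + 1) = P * i * (Cd + 1) + i := by ring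
      omega
  have l4 : (2 : ℝ) ^ (P * i) ≤ Real.exp ((P * (i0 + 1) : ℕ) * (X + 1)) := by
    have P0 : (0 : ℝ) ≤ P := by positivity
    have I0 : (0 : ℝ) ≤ i0 := by positivity
    rcases hi.eq_or_lt with e | e
    · rw [← e]
      refine (two_pow_le_exp _).trans (Real.exp_le_exp.2 ?_)
      push_cast
      have : 0 ≤ (P : ℝ) * (i0 + 1) * X := by positivity
      nlinarith
    · have a := bd i gi
      rw [lm1 i e] at a
      have b := pow_le_pow_left₀ (by positivity) a P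
      rw [← pow_mul, ← Real.exp_nat_mul, mul_comm i] at b
      refine b.trans (Real.exp_le_exp.2 ?_)
      push_cast
      have : 0 ≤ (P : ℝ) * i0 * (X + 1) := by positivity
      nlinarith
  have fin : ∀ (x : ℤ) (D L : ℕ), 1 ≤ D → Lg N L (2 * ((2 : ℝ) ^ (P * i)) ^ (Cd + 1)) →
      lm i ≤ 𝔼 v ∈ rg L, f (x + D * v) → ∃ (lam : ℝ) (L : ℕ) (A' : Finset ℤ), 1 + η ≤ lam ∧
        Lg N L (lam ^ C) ∧ A' ⊆ rg L ∧ APF (j + 3) A' ∧ lam * α * L ≤ A'.card := by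
    intro x D L d lg H
    rw [← hfe] at H
    obtain ⟨A', a, b, c⟩ := inc_of hF α0 lg.1 d H
    exact ⟨lm i, L, A', l1, lg.mono l3, a, b, c⟩
  have ii : i < 2 ^ (P * i) :=
    Nat.lt_two_pow_self.trans_le (Nat.pow_le_pow_right (by norm_num) (Nat.le_mul_of_pos_left _ (by omega)))
  have i2 : i * (Cd + 1) ≤ 2 ^ (P * i) := by
    have a : i ≤ 2 ^ i := Nat.lt_two_pow_self.le
    have b : i * (Cd + 1) ≤ 2 ^ i * 2 ^ i := Nat.mul_le_mul a (by omega)
    refine b.trans ?_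
    rw [← pow_add]
    refine Nat.pow_le_pow_right (by norm_num) ?_
    have : 2 * i ≤ P * i := Nat.mul_le_mul_right _ (by omega)
    omega
  have bdi := bd i gi
  obtain ⟨-, x, D, L, d, lg, H | ⟨j1, hj1, H⟩⟩ := gi
  · refine fin x D L d (lg.mono ?_) H
    have := le_pw (m1 i) (show 1 ≤ Cd + 1 by omega)
    linarith
  have mi := m1 i
  have tr : ∀ L' : ℕ, Lg L L' ((2 ^ (P * i)) ^ Cd) →
      Lg N L' (2 * ((2 : ℝ) ^ (P * i)) ^ (Cd + 1)) := fun L' h => by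
    have := lg.trans h (by positivity)
    rwa [mul_assoc, ← pow_succ'] at this
  obtain ⟨x', D', L', d', lg', H'⟩ := hd j1 hj1 (2 ^ (P * i)) X (lm i) L (pf f x D)
    (by
      have : Cd ≤ 2 ^ (P * i) := by omega
      exact_mod_cast this) hX
    (by
      have a : (2 * 2 ^ (P * i)) * (((2 : ℝ) ^ (P * i)) ^ Cd * (X + 1)) ≤
          (2 * 2 ^ (P * i)) * Real.log L := by
        refine le_trans ?_ (hN.trans lg.2)
        have a1 := pow_le_pow_left₀ (by positivity) l4 (Cd + 1)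
        rw [← Real.exp_nat_mul] at a1
        have a2 : 2 * (X + 1) ≤ Real.exp (X + 1) := by
          have := Real.add_one_le_exp X
          have e2 : (2 : ℝ) ≤ Real.exp 1 := by linarith [Real.add_one_le_exp (1 : ℝ)]
          rw [Real.exp_add]
          nlinarith
        have a3 := mul_le_mul a1 a2 (by linarith) (Real.exp_pos _).le
        rw [← Real.exp_add] at a3
        have a4 : (((Cd + 1) * (P * (i0 + 1)) + 1 : ℕ) : ℝ) ≤ C := by exact_mod_cast c4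
        have a5 := mul_le_mul_of_nonneg_right a4 (by linarith : 0 ≤ X + 1)
        refine le_trans (le_of_eq ?_) (a3.trans (Real.exp_le_exp.2 (le_trans (le_of_eq ?_) a5)))
        · ring
        · push_cast
          ring
      exact le_of_mul_le_mul_left a (by positivity))
    (fun z => hf _) (by linarith) l2 bdi
    (by
      intro j' hj' x' D' L' d' lg' Z hZ x0
      rw [inch_pf]
      have Z0 : 0 ≤ Z := by linarith
      have k1 : 2 ^ (P * i) ≤ ⌊Z⌋₊ := Nat.le_floor (by exact_mod_cast hZ)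
      have k2 : (⌊Z⌋₊ : ℝ) ≤ Z := Nat.floor_le Z0
      have k3 : Z ≤ ⌊Z⌋₊ + 1 := (Nat.lt_floor_add_one Z).le
      generalize ⌊Z⌋₊ = k at k1 k2 k3
      have ng := mx k (by omega)
      have lgk : Lg N L' (2 * 2 ^ (P * k)) := by
        refine (tr L' lg').mono ?_
        rw [← pow_mul]
        have : (2 : ℝ) ^ (P * i * (Cd + 1)) ≤ 2 ^ (P * k) := by
          refine pw_le (by norm_num) ?_
          rw [mul_assoc]
          exact Nat.mul_le_mul_left _ (i2.trans k1)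
        linarith
      have lk := lm1 k (by omega)
      obtain ⟨g, g1, g2⟩ := hm j' hj' L' (pf f (x + D * x') (D * D')) (2 ^ k) (2 ^ (P * k))
        (Real.exp (-Z)) x0 lg'.1 (fun z => (hf _).1) (one_le_pow₀ (by norm_num)) (Real.exp_pos _)
        (Real.exp_le_one_iff.2 (by linarith)) (inch_n2 (by omega) hP k3)
        (fun y => by
          by_contra hc
          refine ng ⟨by omega, x + D * x' + (D * D' : ℕ) * y, D * D', L', Nat.mul_pos d d', lgk,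
            Or.inl ?_⟩
          rw [lk]
          refine (not_le.1 hc).le.trans (le_of_eq (expect_congr rfl fun v _ => ?_))
          simp only [pf]
          congr 1
          ring)
        (fun hc => ng ⟨by omega, x + D * x', D * D', L', Nat.mul_pos d d', lgk,
          Or.inr ⟨j', hj', by rwa [lk]⟩⟩)
      exact ⟨g, fun z => ⟨(g1 z).1, (g1 z).2.trans (inch_n1 (by omega) k2)⟩, g2⟩) H
  refine fin (x + D * x') (D * D') L' (Nat.mul_pos d d') (tr L' lg') ?_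
  refine H'.trans (le_of_eq (expect_congr rfl fun v _ => ?_))
  simp only [pf]
  congr 1
  push_cast
  ring

end

end Vale.Agent.P057H.H92
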