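import Vale.Agent.P057L.Num
import Vale.Agent.P057L.Win
import Vale.Agent.P057Z.Km.Bb

/-! From a lower bound on a Bohr set to a lower bound for the Laplace weight. -/

set_option linter.all false

open Finset
open scoped BigOperators

namespace Vale.Agent.P057H.LapG

open Vale.Agent.P057Z Vale.Agent.P057L Vale.Agent.P057Z.Km Vale.Agent.P057Z.Km.Bb

variable {Q : ℕ} [Fact Q.Prime] {r : ℕ}

theorem rne {T : ℕ} (hT : 1 ≤ T) : (rg T).Nonempty := by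
  rw [← card_pos, Win.c1]
  exact hT

theorem wt (ξ : Fin r → ZMod Q) (s z : ℤ) :
    (s : ZMod Q) • ξ + (-(z : ZMod Q)) • ξ = ((s - z : ℤ) : ZMod Q) • ξ := by
  rw [← add_smul]; push_cast; rw [sub_eq_add_neg]

/-- the mass of the Laplace weight -/
theorem mass (ξ : Fin r → ZMod Q) {T m : ℕ} {ρ : ℝ} (hT : 1 ≤ T) (hm : 1 ≤ m) (hρ : 0 < ρ)
    (hr : (r : ℝ) ≤ ρ * m) : Real.exp (-1) ≤ (m : ℝ) ^ r *
      𝔼 z ∈ rg T, 𝔼 s ∈ rg T, lap ρ (((s - z : ℤ) : ZMod Q) • ξ) := by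
  classical
  have h := sq_le_pairs (rg T) fun x : ℤ => (fun i => cell hm (((x : ZMod Q) • ξ) i) : Fin r → Fin m)
  have hc : (0 : ℝ) < #(rg T) := by exact_mod_cast (rne hT).card_pos
  have h2 : Real.exp (-1) * ∑ x ∈ rg T, ∑ y ∈ rg T,
      (if (fun i => cell hm (((x : ZMod Q) • ξ) i) : Fin r → Fin m) =
        (fun i => cell hm (((y : ZMod Q) • ξ) i)) then (1 : ℝ) else 0) ≤
      ∑ z ∈ rg T, ∑ s ∈ rg T, lap ρ (((s - z : ℤ) : ZMod Q) • ξ) := by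
    rw [mul_sum]
    refine sum_le_sum fun x _ => ?_
    rw [mul_sum]
    refine sum_le_sum fun y _ => ?_
    split_ifs with hxy
    · have f1 := l1_le_of_cell hm hxy.symm (s := ρ) (by simpa using hr)
      rw [← sub_smul, ← Int.cast_sub] at f1
      rw [mul_one]
      exact le_lap hρ f1
    · rw [mul_zero]
      exact lap_nonneg _ _
  simp only [expect_eq_sum_div_card]
  rw [← sum_div, div_div, ← mul_div_assoc, le_div_iff₀ (by positivity)]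
  have h3 : (Fintype.card (Fin r → Fin m) : ℝ) = (m : ℝ) ^ r := by simp
  rw [h3] at h
  have h4 : (0 : ℝ) ≤ (m : ℝ) ^ r := by positivity
  have h5 := mul_le_mul_of_nonneg_left h2 h4
  have h6 := mul_le_mul_of_nonneg_left h (Real.exp_pos (-1)).le
  nlinarith

/-- off the Bohr set the weight is small -/
theorem tail {ρ ρ0 : ℝ} (hρ : 0 < ρ) {u : Fin r → ZMod Q} (h : ¬ ∀ i, nm (u i) ≤ ρ0) :
    lap ρ u ≤ Real.exp (-(ρ0 / ρ)) := by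
  push Not at h
  obtain ⟨i, hi⟩ := h
  have : nm (u i) ≤ l1 u :=
    single_le_sum (f := fun i => nm (u i)) (fun _ _ => by unfold nm; positivity) (mem_univ i)
  unfold lap
  rw [Real.exp_le_exp, ← neg_div]
  exact div_le_div_of_nonneg_right (by linarith) hρ.le

/-- the double average -/
theorem lap2 (ξ : Fin r → ZMod Q) {T m : ℕ} {ρ ρ0 κ B : ℝ} (Φ : ℤ → ℝ) (hT : 1 ≤ T) (hm : 1 ≤ m)
    (hρ : 0 < ρ) (hr : (r : ℝ) ≤ ρ * m) (hκ : 0 ≤ κ) (hB : 0 ≤ B)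
    (h1 : ∀ t : ℤ, |t| < T → -B ≤ Φ t)
    (h2 : ∀ t : ℤ, |t| < T → (∀ i, nm ((t : ZMod Q) * ξ i) ≤ ρ0) → κ ≤ Φ t)
    (h3 : 6 * (κ + B) * (m : ℝ) ^ r * Real.exp (-(ρ0 / ρ)) ≤ κ) :
    κ / (6 * (m : ℝ) ^ r) ≤
      𝔼 z ∈ rg T, 𝔼 s ∈ rg T, lap ρ (((s - z : ℤ) : ZMod Q) • ξ) * Φ (s - z) := by
  have M := mass ξ hT hm hρ hr
  have m0 : (0 : ℝ) < (m : ℝ) ^ r := by have : (0 : ℝ) < m := by exact_mod_cast hm
                                        positivity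
  have e1 : (1 : ℝ) / 3 ≤ Real.exp (-1) := by
    rw [Real.exp_neg, one_div]
    exact inv_anti₀ (Real.exp_pos _) (by linarith [Real.exp_one_lt_d9])
  have a : 𝔼 z ∈ rg T, 𝔼 s ∈ rg T, (κ * lap ρ (((s - z : ℤ) : ZMod Q) • ξ) -
      (κ + B) * Real.exp (-(ρ0 / ρ))) ≤
      𝔼 z ∈ rg T, 𝔼 s ∈ rg T, lap ρ (((s - z : ℤ) : ZMod Q) • ξ) * Φ (s - z) := by
    refine expect_le_expect fun z hz => expect_le_expect fun s hs => ?_
    have hz' := mem_Ico.1 hz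
    have hs' := mem_Ico.1 hs
    have ht : |s - z| < (T : ℤ) := abs_lt.2 ⟨by omega, by omega⟩
    have l0 := lap_nonneg ρ (((s - z : ℤ) : ZMod Q) • ξ)
    have E0 := Real.exp_pos (-(ρ0 / ρ))
    by_cases hb : ∀ i, nm ((((s - z : ℤ) : ZMod Q) • ξ) i) ≤ ρ0
    · have := h2 _ ht hb
      nlinarith [mul_le_mul_of_nonneg_left this l0, mul_nonneg (add_nonneg hκ hB) E0.le]
    · have b1 := tail hρ hb
      have b2 := h1 _ ht
      nlinarith [mul_le_mul_of_nonneg_left b2 l0,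
        mul_le_mul_of_nonneg_left b1 (add_nonneg hκ hB)]
  refine le_trans ?_ a
  simp only [expect_sub_distrib, ← mul_expect, expect_const (rne hT)]
  generalize 𝔼 z ∈ rg T, 𝔼 s ∈ rg T, lap ρ (((s - z : ℤ) : ZMod Q) • ξ) = A at M
  rw [div_le_iff₀ (by positivity)]
  nlinarith [mul_le_mul_of_nonneg_left (e1.trans M) hκ]

/-- one centre -/
theorem lapg (ξ : Fin r → ZMod Q) {T m : ℕ} {ρ ρ0 κ B : ℝ} (Φ : ℤ → ℝ) (hT : 1 ≤ T) (hm : 1 ≤ m)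
    (hρ : 0 < ρ) (hr : (r : ℝ) ≤ ρ * m) (hκ : 0 ≤ κ) (hB : 0 ≤ B)
    (h1 : ∀ t : ℤ, |t| < T → -B ≤ Φ t)
    (h2 : ∀ t : ℤ, |t| < T → (∀ i, nm ((t : ZMod Q) * ξ i) ≤ ρ0) → κ ≤ Φ t)
    (h3 : 6 * (κ + B) * (m : ℝ) ^ r * Real.exp (-(ρ0 / ρ)) ≤ κ) :
    ∃ z ∈ rg T, κ / (6 * (m : ℝ) ^ r) ≤
      𝔼 s ∈ rg T, lap ρ ((s : ZMod Q) • ξ + (-(z : ZMod Q)) • ξ) * Φ (s - z) := by
  obtain ⟨z, hz, h⟩ := exists_le_of_le_expect (rne hT) (lap2 ξ Φ hT hm hρ hr hκ hB h1 h2 h3)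
  exact ⟨z, hz, by simpa only [wt] using h⟩

/-- selection of one parameter and one centre -/
theorem sel {α : Type} (P : Finset α) (hP : P.Nonempty) (ξ : Fin r → ZMod Q) {T m : ℕ}
    {ρ ρ0 κ θ : ℝ} (G : α → ℤ → ℝ) (hT : 1 ≤ T) (hm : 1 ≤ m) (hρ : 0 < ρ) (hr : (r : ℝ) ≤ ρ * m)
    (hκ : 0 ≤ κ) (hθ : 0 ≤ θ) (h1 : ∀ p t, 0 ≤ G p t)
    (h2 : ∀ t : ℤ, |t| < T → (∀ i, nm ((t : ZMod Q) * ξ i) ≤ ρ0) → θ + κ ≤ 𝔼 p ∈ P, G p t)
    (h3 : 6 * (κ + θ) * (m : ℝ) ^ r * Real.exp (-(ρ0 / ρ)) ≤ κ) :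
    ∃ p ∈ P, ∃ z ∈ rg T, κ / (6 * (m : ℝ) ^ r) ≤
      exc (lap ρ) ξ ((-(z : ZMod Q)) • ξ) T (fun s => G p (s - z)) θ := by
  obtain ⟨z, hz, h⟩ := lapg ξ (fun t => 𝔼 p ∈ P, (G p t - θ)) hT hm hρ hr hκ hθ
    (fun t _ => le_expect hP fun p _ => by linarith [h1 p t])
    (fun t a b => by rw [expect_sub_distrib, expect_const hP]; linarith [h2 t a b]) h3
  simp only [mul_expect] at h
  rw [expect_comm] at h
  obtain ⟨p, hp, h⟩ := exists_le_of_le_expect hP h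
  exact ⟨p, hp, z, hz, h⟩

/-- the numbers -/
theorem num {Y ρ0 κ B : ℝ} (hY : 10 ≤ Y) (hr : (r : ℝ) ≤ Y) (h0 : Real.exp (-Y) ≤ ρ0)
    (h1 : ρ0 ≤ 1) (hκ : Real.exp (-Y) ≤ κ) (hκ1 : κ ≤ Real.exp Y) (hB : B ≤ Real.exp Y) :
    ∃ (m : ℕ) (ρ : ℝ), 1 ≤ m ∧ 0 < ρ ∧ ρ ≤ 1 ∧ Real.exp (-Y ^ 2) ≤ ρ ∧ (r : ℝ) ≤ ρ * m ∧
      6 * (κ + B) * (m : ℝ) ^ r * Real.exp (-(ρ0 / ρ)) ≤ κ ∧
      Real.exp (-Y ^ 3) ≤ κ / (6 * (m : ℝ) ^ r) := by
  have E0 := Real.exp_pos Y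
  have E1 : Y + 1 ≤ Real.exp Y := Real.add_one_le_exp Y
  have κ0 := Real.exp_pos (-Y)
  have κE : Real.exp (-Y) * Real.exp Y = 1 := by rw [← Real.exp_add]; simp
  have ρ0' : 0 < ρ0 := κ0.trans_le h0
  have y3 : 0 < Y ^ 3 := by positivity
  have y4 : Y ^ 3 ≤ Real.exp (3 * Y) := by
    rw [show 3 * Y = (3 : ℕ) * Y by norm_num, Real.exp_nat_mul]
    exact pow_le_pow_left₀ (by linarith) (by linarith) 3
  have m1 : (⌈Real.exp (5 * Y)⌉₊ : ℝ) ≤ Real.exp (6 * Y) := by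
    have := (Nat.ceil_lt_add_one (Real.exp_pos (5 * Y)).le).le
    rw [show 6 * Y = Y + 5 * Y by ring, Real.exp_add]
    nlinarith [Real.one_le_exp (by linarith : 0 ≤ 5 * Y)]
  have m2 : (⌈Real.exp (5 * Y)⌉₊ : ℝ) ^ r ≤ Real.exp (6 * Y ^ 2) := by
    refine (pow_le_pow_left₀ (Nat.cast_nonneg _) m1 r).trans ?_
    rw [← Real.exp_nat_mul]
    exact Real.exp_le_exp.2 (by nlinarith)
  have m0 : 1 ≤ ⌈Real.exp (5 * Y)⌉₊ := Nat.one_le_iff_ne_zero.2 (Nat.ceil_pos.2 (Real.exp_pos _)).ne'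
  have m3 : (0 : ℝ) < (⌈Real.exp (5 * Y)⌉₊ : ℝ) ^ r := by
    have : (0 : ℝ) < ⌈Real.exp (5 * Y)⌉₊ := by exact_mod_cast m0
    positivity
  have q1 : Real.exp (-(4 * Y)) ≤ ρ0 / Y ^ 3 := by
    rw [le_div_iff₀ y3]
    refine le_trans ((mul_le_mul_of_nonneg_left y4 (Real.exp_pos _).le).trans (le_of_eq ?_)) h0
    rw [← Real.exp_add]; congr 1; ring
  refine ⟨⌈Real.exp (5 * Y)⌉₊, ρ0 / Y ^ 3, m0, by positivity, ?_,
    (Real.exp_le_exp.2 (by nlinarith)).trans q1, ?_, ?_, ?_⟩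
  · rw [div_le_one y3]
    exact h1.trans (one_le_pow₀ (by linarith))
  · refine le_trans ?_ (mul_le_mul q1 (Nat.le_ceil _) (Real.exp_pos _).le (by positivity))
    rw [← Real.exp_add, show -(4 * Y) + 5 * Y = Y by ring]
    linarith
  · rw [show ρ0 / (ρ0 / Y ^ 3) = Y ^ 3 by field_simp]
    refine le_trans ?_ hκ
    calc _ ≤ Real.exp Y * Real.exp Y * Real.exp Y * Real.exp (6 * Y ^ 2) * Real.exp (-Y ^ 3) := by
          refine mul_le_mul_of_nonneg_right (mul_le_mul ?_ m2 m3.le (by positivity))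
            (Real.exp_pos _).le
          nlinarith [mul_pos E0 E0]
      _ ≤ _ := by
          simp only [← Real.exp_add]
          exact Real.exp_le_exp.2 (by nlinarith)
  · rw [le_div_iff₀ (by positivity)]
    refine le_trans ?_ hκ
    calc _ ≤ Real.exp (-Y ^ 3) * (Real.exp Y * Real.exp (6 * Y ^ 2)) := by
          refine mul_le_mul_of_nonneg_left (mul_le_mul (by linarith) m2 m3.le E0.le)
            (Real.exp_pos _).le
      _ ≤ _ := by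
          simp only [← Real.exp_add]
          exact Real.exp_le_exp.2 (by nlinarith)

end Vale.Agent.P057H.LapG
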