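import Vale.Agent.P057H.WndH18
import Vale.Agent.P057L.Num

/-! The model on the integers. -/

set_option linter.all false

open Finset
open scoped BigOperators Classical

namespace Vale.Agent.P057H.H18

open Vale.Agent.P057Z Vale.Agent.P057L

theorem sum_inj {α β : Type} [Fintype α] (e : α → β) (he : Function.Injective e) (S : Finset β)
    (hS : ∀ y ∈ S, ∃ x, e x = y) (φ : β → ℝ) :
    ∑ x, (if e x ∈ S then φ (e x) else 0) = ∑ y ∈ S, φ y := by
  rw [← sum_filter]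
  refine sum_bij (fun x _ => e x) (fun x hx => (mem_filter.1 hx).2) (fun x _ y _ h => he h)
    (fun y hy => ?_) (fun _ _ => rfl)
  obtain ⟨x, rfl⟩ := hS y hy
  exact ⟨x, mem_filter.2 ⟨mem_univ _, hy⟩, rfl⟩

/-- the lift of a point -/
def lw {j M : ℕ} (W : Fin j → ZMod M) : Pt j 1 := fun i _ => ((W i).val : ℤ)

/-- the lift of a sample -/
def lo {j M : ℕ} (c : ℤ) (ω : Oc j M) : Pt j 1 × ℤ × ℤ :=
  (lw ω.1, (ω.2.1.val : ℤ) - c, (ω.2.2.val : ℤ) - c)

theorem lo_inj {j M : ℕ} [NeZero M] (c : ℤ) : Function.Injective (lo (j := j) (M := M) c) := by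
  intro ω ω' h
  simp only [lo, Prod.mk.injEq, sub_left_inj, Nat.cast_inj] at h
  refine Prod.ext (funext fun i => ZMod.val_injective M ?_)
    (Prod.ext (ZMod.val_injective M h.2.1) (ZMod.val_injective M h.2.2))
  have := congrFun (congrFun h.1 i) 0
  exact Nat.cast_injective (R := ℤ) this

theorem val_cast {M : ℕ} [NeZero M] {t : ℤ} (h0 : 0 ≤ t) (h1 : t < M) :
    (((t : ZMod M).val : ℕ) : ℤ) = t := by
  rw [ZMod.val_intCast, Int.emod_eq_of_lt h0 h1]

theorem sc_lo {j M : ℕ} [NeZero M] (c : ℤ) (S : Finset (Fin j)) (ω : Oc j M) :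
    sc S ω = ((ss S (lo c ω).1 + (lo c ω).2.1 + (lo c ω).2.2 + 2 * c : ℤ) : ZMod M) := by
  simp only [sc, ss, lo, lw]
  push_cast
  simp only [ZMod.natCast_val, ZMod.cast_id', id]
  ring

theorem ss_rng {j L : ℕ} {W : Pt j 1} (hW : W ∈ bp j 1 L) (S : Finset (Fin j)) :
    0 ≤ ss S W ∧ ss S W ≤ j * L := by
  simp only [bp, bz, rg, Fintype.mem_piFinset, mem_Ico] at hW
  refine ⟨sum_nonneg fun i _ => (hW i 0).1, ?_⟩
  have h1 := sum_le_card_nsmul S (fun i => W i 0) (L : ℤ) fun i _ => (hW i 0).2.le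
  have h2 : (S.card : ℤ) ≤ j := by exact_mod_cast (card_le_univ S).trans (by simp)
  rw [nsmul_eq_mul] at h1
  exact h1.trans (mul_le_mul_of_nonneg_right h2 (Nat.cast_nonneg _))

theorem trans_mo (j L M : ℕ) [NeZero M] (hM : M = (2 * j + 18) * L) (f : ℤ → ℝ) (x0 : ℤ)
    (g : ZMod M → ℝ) (ε : ℝ)
    (h : Nc j M (fun x => per f (x0 - 8 * L) ((j + 16) * L) M x - g x) ε) :
    Mo j L f (fun x => g ((x - (x0 - 8 * L) : ℤ) : ZMod M)) x0
      ((2 * j + 18) ^ (j + 2) * ε) := by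
  intro a b H ha hb hH
  have hMz : (M : ℤ) = (2 * j + 18) * L := by rw [hM]; push_cast; ring
  have hL0 : (0 : ℤ) ≤ L := Nat.cast_nonneg _
  have hj0 : (0 : ℤ) ≤ j * L := by positivity
  have k := h (fun W y => if lw W ∈ bp j 1 L ∧ (y.val : ℤ) - 4 * L ∈ sy (4 * L) then
      a (lw W) ((y.val : ℤ) - 4 * L) else 0)
    (fun W v => if (v.val : ℤ) - 4 * L ∈ sy (4 * L) then b (lw W) ((v.val : ℤ) - 4 * L) else 0)
    (fun S x => H S ((x.val : ℤ) - 8 * L))
    (fun W y => by split_ifs; exacts [ha _ _, by simp])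
    (fun W y => by split_ifs; exacts [hb _ _, by simp]) (fun S x => hH _ _)
  set φ : Pt j 1 × ℤ × ℤ → ℝ := fun p => a p.1 p.2.1 * b p.1 p.2.2 *
      (∏ S ∈ (univ : Finset (Finset (Fin j))).erase univ, H S (ss S p.1 + p.2.1 + p.2.2)) *
      (f (x0 + ss univ p.1 + p.2.1 + p.2.2) -
        g ((x0 + ss univ p.1 + p.2.1 + p.2.2 - (x0 - 8 * L) : ℤ) : ZMod M)) with hφ
  have e1 := sum_inj (lo (j := j) (M := M) (4 * L)) (lo_inj _)
    (bp j 1 L ×ˢ sy (4 * L) ×ˢ sy (4 * L)) (by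
      rintro ⟨W, y, v⟩ hp
      simp only [mem_product, bp, bz, rg, sy, Fintype.mem_piFinset, mem_Ico, mem_Ioo] at hp
      obtain ⟨h1, h2, h3⟩ := hp
      push_cast at h2 h3
      refine ⟨(fun i => ((W i 0 : ℤ) : ZMod M), ((y + 4 * L : ℤ) : ZMod M),
        ((v + 4 * L : ℤ) : ZMod M)), ?_⟩
      simp only [lo, Prod.mk.injEq]
      refine ⟨funext fun i => funext fun l => ?_, ?_, ?_⟩
      · rw [Subsingleton.elim l 0]
        exact val_cast (h1 i 0).1 (by have := (h1 i 0).2; nlinarith)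
      · rw [val_cast (by omega) (by nlinarith)]
        ring
      · rw [val_cast (by omega) (by nlinarith)]
        ring) φ
  rw [sum_product] at e1
  simp only [sum_product] at e1
  have hc : (Fintype.card (Oc j M) : ℝ) = (2 * j + 18) ^ (j + 2) * (L : ℝ) ^ (j + 2) := by
    simp only [Oc, Fintype.card_prod, Fintype.card_pi, prod_const, ZMod.card, card_univ,
      Fintype.card_fin]
    rw [hM]
    push_cast
    rw [mul_pow]
    ring
  have hc0 : (0 : ℝ) < Fintype.card (Oc j M) := by exact_mod_cast Fintype.card_pos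
  rw [Fintype.expect_eq_sum_div_card, abs_div, abs_of_pos hc0, div_le_iff₀ hc0, hc] at k
  refine le_trans (le_of_eq (congrArg abs ?_)) (k.trans (le_of_eq (by ring)))
  refine e1.symm.trans (sum_congr rfl fun ω _ => ?_)
  by_cases hω : lo (4 * L) ω ∈ bp j 1 L ×ˢ sy (4 * L) ×ˢ sy (4 * L)
  · rw [if_pos hω]
    obtain ⟨h1, h2⟩ := mem_product.1 hω
    obtain ⟨h2, h3⟩ := mem_product.1 h2
    rw [if_pos ⟨h1, h2⟩, if_pos (by exact h3)]
    simp only [sy, mem_Ioo] at h2 h3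
    push_cast at h2 h3
    have hv : ∀ S : Finset (Fin j), (((sc S ω).val : ℕ) : ℤ) = ss S (lo (4 * L) ω).1 +
        (lo (4 * L) ω).2.1 + (lo (4 * L) ω).2.2 + 2 * (4 * L) := by
      intro S
      have := ss_rng h1 S
      rw [sc_lo (4 * L) S ω]
      exact val_cast (by omega) (by nlinarith)
    have hp : per f (x0 - 8 * L) ((j + 16) * L) M (sc univ ω) =
        f (x0 + ss univ (lo (4 * L) ω).1 + (lo (4 * L) ω).2.1 + (lo (4 * L) ω).2.2) := by
      have h4 := hv univ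
      have := ss_rng h1 univ
      unfold per
      rw [if_pos (by zify; nlinarith), h4]
      exact congrArg f (by ring)
    have hg : ((x0 + ss univ (lo (4 * L) ω).1 + (lo (4 * L) ω).2.1 + (lo (4 * L) ω).2.2 -
        (x0 - 8 * L) : ℤ) : ZMod M) = sc univ ω := by
      rw [sc_lo (4 * L) univ ω]
      exact congrArg _ (by ring)
    have hH' : ∀ S : Finset (Fin j), (((sc S ω).val : ℕ) : ℤ) - 8 * L = ss S (lo (4 * L) ω).1 +
        (lo (4 * L) ω).2.1 + (lo (4 * L) ω).2.2 := fun S => by rw [hv S]; ring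
    simp only [hφ, hp, hg, hH']
    rfl
  · rw [if_neg hω]
    by_cases h1 : lw ω.1 ∈ bp j 1 L ∧ (ω.2.1.val : ℤ) - 4 * L ∈ sy (4 * L)
    · have h2 : ¬ (ω.2.2.val : ℤ) - 4 * L ∈ sy (4 * L) := fun h2 =>
        hω (mem_product.2 ⟨h1.1, mem_product.2 ⟨h1.2, h2⟩⟩)
      rw [if_neg h2]
      simp
    · rw [if_neg h1]
      simp

theorem per_mean (M M0 L : ℕ) [NeZero M] (f : ℤ → ℝ) (x0 : ℤ) (B : ℝ) (hL : 1 ≤ L)
    (hf : ∀ x, 0 ≤ f x) (h : M0 + L ≤ M) (hP : ∀ x : ℤ, 𝔼 v ∈ rg L, f (x + v) ≤ B) :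
    𝔼 x, per f x0 M0 M x ≤ B := by
  have hr : (rg L).Nonempty := ⟨0, by simp [rg]; omega⟩
  have e1 : 𝔼 x, per f x0 M0 M x = 𝔼 x, 𝔼 v ∈ rg L, per f x0 M0 M (x + (v : ℤ)) := by
    rw [expect_comm]
    have : ∀ v : ℤ, 𝔼 x, per f x0 M0 M (x + (v : ℤ)) = 𝔼 x, per f x0 M0 M x := fun v =>
      Fintype.expect_equiv (Equiv.addRight (v : ZMod M)) _ _ (fun _ => rfl)
    simp only [this]
    exact (expect_const hr _).symm
  rw [e1]
  refine expect_le univ_nonempty fun x _ => ?_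
  obtain ⟨x1, hx⟩ := lift M M0 L f x0 hf h x
  refine le_trans (expect_le_expect fun v hv => ?_) (hP x1)
  simp only [rg, mem_Ico] at hv
  exact hx v hv.1 hv.2

theorem moi (hZ : ZH) (hW : WND) : MOI := by
  intro j
  obtain ⟨K, hK⟩ : ∃ K : ℕ, K = (2 * j + 18) ^ (j + 2) := ⟨_, rfl⟩
  have hK1 : (1 : ℝ) ≤ K := by
    rw [hK]
    exact_mod_cast Nat.one_le_pow _ _ (by omega)
  refine ⟨64 * K ^ 2, fun L f lam lam' m ε x0 hL hf hl hl' hε hε1 hC hP hS => ?_⟩
  haveI : NeZero ((2 * j + 18) * L) := ⟨by positivity⟩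
  push_cast at hC
  have hK0 : (0 : ℝ) < K := by linarith
  have hll : 1 ≤ lam * lam' := one_le_mul_of_one_le_of_one_le hl hl'
  have hK2 : (1 : ℝ) ≤ K ^ 2 := one_le_pow₀ hK1
  have he2 : ε ^ 2 ≤ ε := by nlinarith
  have hme : 64 * (K : ℝ) ^ 2 ≤ m * ε ^ 2 := by nlinarith
  have hm0 : 0 < m := by
    by_contra hn
    push Not at hn
    nlinarith [sq_nonneg ε]
  have hme1 : m * ε ^ 2 ≤ m * ε := mul_le_mul_of_nonneg_left he2 hm0.le
  have hme2 : m * ε ≤ m := by nlinarith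
  have hm : 64 ≤ m := by nlinarith
  set n : ℕ := ⌊16 * lam * lam' / (ε / K) ^ 2⌋₊ + 1 with hn
  have hε' : 0 < ε / K := div_pos hε hK0
  have n1 : 16 * lam * lam' < n * (ε / K) ^ 2 := by
    rw [← div_lt_iff₀ (by positivity), hn]
    push_cast
    exact Nat.lt_floor_add_one _
  have n2 : (n : ℝ) ≤ m / 2 := by
    have a1 : (⌊16 * lam * lam' / (ε / K) ^ 2⌋₊ : ℝ) ≤ 16 * lam * lam' / (ε / K) ^ 2 :=
      Nat.floor_le (by positivity)
    have a2 : 16 * lam * lam' / (ε / K) ^ 2 ≤ m / 4 := by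
      rw [div_le_iff₀ (by positivity), div_pow, div_mul_div_comm, le_div_iff₀ (by positivity)]
      nlinarith
    rw [hn]
    push_cast
    linarith
  have n3 : 2 ^ n * m * lam' ≤ Real.exp m := by
    have a1 : (2 : ℝ) ^ n ≤ Real.exp (m / 2) := (two_pow_le_exp n).trans (Real.exp_le_exp.2 n2)
    have a2 : m / 4 ≤ Real.exp (m / 4) := by linarith [Real.add_one_le_exp (m / 4)]
    have a3 : lam' ≤ m / 16 := by
      have : 64 * lam' ≤ 64 * (K : ℝ) ^ 2 * lam * lam' := by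
        have : (1 : ℝ) ≤ K ^ 2 * lam := one_le_mul_of_one_le_of_one_le hK2 hl
        nlinarith
      linarith
    have a4 : m * lam' ≤ Real.exp (m / 2) := by
      have : Real.exp (m / 2) = Real.exp (m / 4) * Real.exp (m / 4) := by
        rw [← Real.exp_add]; ring_nf
      rw [this]
      nlinarith [mul_le_mul a2 a2 (by linarith) (Real.exp_pos _).le]
    have : Real.exp m = Real.exp (m / 2) * Real.exp (m / 2) := by
      rw [← Real.exp_add]; ring_nf
    rw [this, mul_assoc]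
    exact mul_le_mul a1 a4 (by positivity) (Real.exp_pos _).le
  have n4 : 2 ≤ ε / K / 4 * m := by
    rw [div_div, div_mul_eq_mul_div, le_div_iff₀ (by positivity)]
    nlinarith
  have hV : ¬ Vc j ((2 * j + 18) * L)
      (per f (x0 - 8 * L) ((j + 16) * L) ((2 * j + 18) * L)) lam (ε / K / 4) n := fun hV =>
    hS (hW j _ _ L n f _ lam lam' _ m hL (le_of_eq (by ring)) hf (by linarith) hl' (by linarith) hP
      n4 n3 hV)
  obtain ⟨g, hg, hN⟩ := hZ j ((2 * j + 18) * L) _ lam 1 (ε / K) (ε / K / 4) lam' n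
    (fun x => by unfold per; split_ifs; exacts [hf _, le_rfl])
    (per_mean _ _ L f _ lam' hL hf (by nlinarith) hP) (by linarith) one_pos le_rfl hε' n1
    (le_of_eq (by ring)) hV
  refine ⟨fun x => g ((x - (x0 - 8 * L) : ℤ) : ZMod ((2 * j + 18) * L)),
    fun x => ⟨(hg _).1, (hg _).2.trans (le_of_eq (by ring))⟩, ?_⟩
  have h := trans_mo j L _ rfl f x0 g (ε / K) hN
  have e : (2 * (j : ℝ) + 18) ^ (j + 2) * (ε / K) = ε := by
    have : (2 * (j : ℝ) + 18) ^ (j + 2) = K := by rw [hK]; push_cast; ring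
    rw [this]
    field_simp
  rwa [e] at h

end Vale.Agent.P057H.H18
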