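import Vale.Agent.P057H.Defs

/-! The model on the integers from the cyclic model. -/

set_option linter.all false

open Finset
open scoped BigOperators Classical

namespace Vale.Agent.P057H.H83

open Vale.Agent.P057Z Vale.Agent.P057L Vale.Agent.P057H

noncomputable section

theorem sum_rg (L : ℕ) (h : ℤ → ℝ) : ∑ v ∈ rg L, h v = ∑ t ∈ range L, h (t : ℤ) := by
  refine sum_nbij' (fun v => v.toNat) (fun t => (t : ℤ)) ?_ ?_ ?_ ?_ ?_
  · intro v hv
    simp only [rg, mem_Ico, mem_coe, mem_range] at hv ⊢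
    omega
  · intro t ht
    simp only [rg, mem_Ico, mem_coe, mem_range] at ht ⊢
    omega
  · intro v hv
    simp only [rg, mem_Ico, mem_coe] at hv
    show ((v.toNat : ℕ) : ℤ) = v
    omega
  · intro t _
    show ((t : ℤ)).toNat = t
    omega
  · intro v hv
    simp only [rg, mem_Ico] at hv
    show h v = h ((v.toNat : ℕ) : ℤ)
    rw [Int.toNat_of_nonneg hv.1]

theorem card_rg (L : ℕ) : (rg L).card = L := by simp [rg]

theorem sum_blk (L : ℕ) (hL : 1 ≤ L) (f : ℤ → ℝ) (B : ℝ)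
    (h : ∀ x : ℤ, 𝔼 v ∈ rg L, f (x + v) ≤ B) (x : ℤ) (K : ℕ) :
    ∑ t ∈ range (K * L), f (x + t) ≤ K * L * B := by
  have hp : (0 : ℝ) < L := by exact_mod_cast hL
  induction K with
  | zero => simp
  | succ K ih =>
    have h1 := h (x + (K * L : ℕ))
    rw [expect_eq_sum_div_card, card_rg, div_le_iff₀ hp,
      sum_rg L (fun v => f (x + (K * L : ℕ) + v))] at h1
    rw [Nat.succ_mul, sum_range_add]
    have e : ∑ t ∈ range L, f (x + ((K * L + t : ℕ) : ℤ)) =
        ∑ t ∈ range L, f (x + (K * L : ℕ) + t) :=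
      sum_congr rfl fun t _ => by rw [Nat.cast_add, add_assoc]
    rw [e]
    push_cast at h1 ih ⊢
    nlinarith

theorem sum_zm (M : ℕ) [NeZero M] (h : ℕ → ℝ) : ∑ x : ZMod M, h x.val = ∑ t ∈ range M, h t := by
  refine sum_nbij' (fun x => x.val) (fun t => (t : ZMod M)) ?_ ?_ ?_ ?_ ?_
  · intro x _
    exact mem_coe.2 (mem_range.2 (ZMod.val_lt x))
  · intro t _
    exact mem_coe.2 (mem_univ _)
  · intro x _
    exact ZMod.natCast_zmod_val x
  · intro t ht
    exact ZMod.val_cast_of_lt (mem_range.1 (mem_coe.1 ht))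
  · intro x _
    rfl

theorem mean_per (L K M : ℕ) [NeZero M] (hL : 1 ≤ L) (hM : K * L ≤ M) (f : ℤ → ℝ) (B : ℝ)
    (hB : 0 ≤ B) (h : ∀ x : ℤ, 𝔼 v ∈ rg L, f (x + v) ≤ B) (x : ℤ) :
    𝔼 z, per f x (K * L) M z ≤ B := by
  have hp : (0 : ℝ) < M := by exact_mod_cast Nat.pos_of_ne_zero (NeZero.ne M)
  rw [expect_eq_sum_div_card, card_univ, ZMod.card, div_le_iff₀ hp]
  have e : ∑ z : ZMod M, per f x (K * L) M z =
      ∑ t ∈ range M, if t < K * L then f (x + t) else 0 :=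
    sum_zm M (fun t => if t < K * L then f (x + t) else 0)
  have e2 : (range M).filter (fun t => t < K * L) = range (K * L) := by
    ext t
    simp only [mem_filter, mem_range]
    omega
  rw [e, ← sum_filter, e2]
  have h2 : ((K * L : ℕ) : ℝ) ≤ M := by exact_mod_cast hM
  have h3 := sum_blk L hL f B h x K
  push_cast at h2
  nlinarith

variable {j : ℕ}

/-- the lift of a point of the torus -/
def lw {M : ℕ} (W : Fin j → ZMod M) : Pt j 1 := fun i _ => ((W i).val : ℤ)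

theorem ss_bd {L : ℕ} {W : Pt j 1} (hW : W ∈ bp j 1 L) (S : Finset (Fin j)) :
    0 ≤ ss S W ∧ ss S W ≤ j * L := by
  have h : ∀ i, 0 ≤ W i 0 ∧ W i 0 < L := fun i => by
    have := Fintype.mem_piFinset.1 (Fintype.mem_piFinset.1 hW i) 0
    simpa only [rg, mem_Ico] using this
  refine ⟨sum_nonneg fun i _ => (h i).1, ?_⟩
  have h1 : ss S W ≤ S.card • (L : ℤ) := sum_le_card_nsmul _ _ _ fun i _ => (h i).2.le
  have h2 : S.card ≤ j := by simpa using card_le_univ S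
  rw [nsmul_eq_mul] at h1
  have h3 : (S.card : ℤ) * L ≤ j * L := by
    have : (S.card : ℤ) ≤ j := by exact_mod_cast h2
    exact mul_le_mul_of_nonneg_right this (by positivity)
  exact h1.trans h3

theorem sc_eq {M : ℕ} [NeZero M] (S : Finset (Fin j)) (ω : Oc j M) :
    sc S ω = ((ss S (lw ω.1) + ω.2.1.val + ω.2.2.val : ℤ) : ZMod M) := by
  simp only [sc, ss, lw, Int.cast_add, Int.cast_sum, Int.cast_natCast, ZMod.natCast_zmod_val]

theorem val_int {M : ℕ} [NeZero M] (z : ℤ) (h0 : 0 ≤ z) (h1 : z < M) :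
    (((z : ZMod M).val : ℕ) : ℤ) = z := by
  rw [ZMod.val_intCast, Int.emod_eq_of_lt h0 h1]

theorem lift (L M : ℕ) [NeZero M] (hL : 1 ≤ L) (hM : (j + 16) * L ≤ M) (f : ℤ → ℝ) (x0 : ℤ)
    (g : ZMod M → ℝ) (ε : ℝ)
    (h : Nc j M (fun x => per f (x0 - 8 * L) ((j + 16) * L) M x - g x) ε)
    (a b : Pt j 1 → ℤ → ℝ) (H : Finset (Fin j) → ℤ → ℝ) (ha : ∀ W y, |a W y| ≤ 1)
    (hb : ∀ W v, |b W v| ≤ 1) (hH : ∀ S x, |H S x| ≤ 1) :
    |∑ W ∈ bp j 1 L, ∑ y ∈ sy (4 * L), ∑ v ∈ sy (4 * L), a W y * b W v *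
      (∏ S ∈ (univ : Finset (Finset (Fin j))).erase univ, H S (ss S W + y + v)) *
      (f (x0 + ss univ W + y + v) -
        g ((x0 + ss univ W + y + v - (x0 - 8 * L) : ℤ) : ZMod M))| ≤ ε * (M : ℝ) ^ (j + 2) := by
  have hp : (0 : ℝ) < M := by exact_mod_cast Nat.pos_of_ne_zero (NeZero.ne M)
  have hMz : ((j : ℤ) + 16) * L ≤ M := by exact_mod_cast hM
  have hjL : (0 : ℤ) ≤ j * L := by positivity
  have h1 := h (fun W y => if lw W ∈ bp j 1 L ∧ (y.val : ℤ) - 4 * L ∈ sy (4 * L) then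
      a (lw W) (y.val - 4 * L) else 0)
    (fun W v => if (v.val : ℤ) - 4 * L ∈ sy (4 * L) then b (lw W) (v.val - 4 * L) else 0)
    (fun S x => H S (x.val - 8 * L))
    (fun W y => by split_ifs <;> [exact ha _ _; simp])
    (fun W v => by split_ifs <;> [exact hb _ _; simp]) (fun S x => hH _ _)
  have hc : (Fintype.card (Oc j M) : ℝ) = (M : ℝ) ^ (j + 2) := by
    simp only [Oc, Fintype.card_prod, Fintype.card_pi, ZMod.card, prod_const, card_univ,
      Fintype.card_fin]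
    push_cast
    ring
  rw [expect_eq_sum_div_card, card_univ, hc, abs_div, abs_of_pos (pow_pos hp _),
    div_le_iff₀ (pow_pos hp _)] at h1
  refine le_trans (le_of_eq ?_) h1
  congr 1
  set Φ : Pt j 1 × ℤ × ℤ → ℝ := fun p => a p.1 p.2.1 * b p.1 p.2.2 *
      (∏ S ∈ (univ : Finset (Finset (Fin j))).erase univ, H S (ss S p.1 + p.2.1 + p.2.2)) *
      (f (x0 + ss univ p.1 + p.2.1 + p.2.2) -
        g ((x0 + ss univ p.1 + p.2.1 + p.2.2 - (x0 - 8 * L) : ℤ) : ZMod M)) with hΦ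
  set l : Oc j M → Pt j 1 × ℤ × ℤ := fun ω =>
    (lw ω.1, (ω.2.1.val : ℤ) - 4 * L, (ω.2.2.val : ℤ) - 4 * L) with hl
  set bx : Finset (Pt j 1 × ℤ × ℤ) := bp j 1 L ×ˢ sy (4 * L) ×ˢ sy (4 * L) with hbx
  have e1 : ∑ p ∈ bx, Φ p = ∑ W ∈ bp j 1 L, ∑ y ∈ sy (4 * L), ∑ v ∈ sy (4 * L), Φ (W, y, v) := by
    rw [hbx, sum_product]
    exact sum_congr rfl fun W _ => sum_product _ _ _
  refine e1.symm.trans ?_
  have e2 : ∑ ω ∈ univ.filter (fun ω => l ω ∈ bx), Φ (l ω) = ∑ p ∈ bx, Φ p := by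
    refine sum_bij (fun ω _ => l ω) (fun ω hω => (mem_filter.1 hω).2) ?_ ?_ (fun _ _ => rfl)
    · intro ω _ ω' _ e
      have e' : l ω = l ω' := e
      simp only [hl, Prod.mk.injEq, sub_left_inj, Nat.cast_inj] at e'
      refine Prod.ext (funext fun i => ?_) (Prod.ext ?_ ?_)
      · have := congrFun (congrFun e'.1 i) 0
        simp only [lw, Nat.cast_inj] at this
        exact ZMod.val_injective M this
      · exact ZMod.val_injective M e'.2.1
      · exact ZMod.val_injective M e'.2.2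
    · intro p hp'
      have hq := hp'
      simp only [hbx, mem_product, sy, mem_Ioo] at hq
      obtain ⟨q1, q2, q3⟩ := hq
      push_cast at q2 q3
      have hLz : (1 : ℤ) ≤ L := by exact_mod_cast hL
      have e : l (fun i => ((p.1 i 0 : ℤ) : ZMod M), ((p.2.1 + 4 * L : ℤ) : ZMod M),
          ((p.2.2 + 4 * L : ℤ) : ZMod M)) = p := by
        refine Prod.ext (funext fun i => funext fun c => ?_) (Prod.ext ?_ ?_)
        · have := Fintype.mem_piFinset.1 (Fintype.mem_piFinset.1 q1 i) 0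
          simp only [rg, mem_Ico] at this
          obtain rfl : c = 0 := Subsingleton.elim _ _
          exact val_int _ this.1 (by nlinarith)
        · show ((((p.2.1 + 4 * L : ℤ) : ZMod M).val : ℕ) : ℤ) - 4 * L = p.2.1
          rw [val_int _ (by linarith) (by nlinarith)]
          ring
        · show ((((p.2.2 + 4 * L : ℤ) : ZMod M).val : ℕ) : ℤ) - 4 * L = p.2.2
          rw [val_int _ (by linarith) (by nlinarith)]
          ring
      exact ⟨_, mem_filter.2 ⟨mem_univ _, by rw [e]; exact hp'⟩, e⟩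
  rw [← e2, sum_filter]
  refine sum_congr rfl fun ω _ => ?_
  by_cases hω : l ω ∈ bx
  · rw [if_pos hω]
    have hq := hω
    simp only [hbx, hl, mem_product] at hq
    obtain ⟨q1, q2, q3⟩ := hq
    have hv : ∀ S : Finset (Fin j), (((sc S ω).val : ℕ) : ℤ) =
        ss S (lw ω.1) + ω.2.1.val + ω.2.2.val ∧
        ss S (lw ω.1) + ω.2.1.val + ω.2.2.val < ((j : ℤ) + 16) * L := fun S => by
      have b1 := ss_bd q1 S
      have r2 := q2
      have r3 := q3
      simp only [sy, mem_Ioo] at r2 r3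
      push_cast at r2 r3
      have b2 : ss S (lw ω.1) + ω.2.1.val + ω.2.2.val < ((j : ℤ) + 16) * L := by nlinarith
      refine ⟨?_, b2⟩
      rw [sc_eq]
      exact val_int _ (by have := b1.1; positivity) (by linarith)
    have hP : ∏ S ∈ (univ : Finset (Finset (Fin j))).erase univ, H S ((sc S ω).val - 8 * L) =
        ∏ S ∈ (univ : Finset (Finset (Fin j))).erase univ,
          H S (ss S (lw ω.1) + ((ω.2.1.val : ℤ) - 4 * L) + ((ω.2.2.val : ℤ) - 4 * L)) :=
      prod_congr rfl fun S _ => by rw [(hv S).1]; congr 1; ring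
    have hlt : (sc univ ω).val < (j + 16) * L := by
      have := (hv univ).2
      rw [← (hv univ).1] at this
      exact_mod_cast this
    have hf : per f (x0 - 8 * L) ((j + 16) * L) M (sc univ ω) =
        f (x0 + ss univ (lw ω.1) + ((ω.2.1.val : ℤ) - 4 * L) + ((ω.2.2.val : ℤ) - 4 * L)) := by
      simp only [per]
      rw [if_pos hlt, (hv univ).1]
      congr 1
      ring
    have hg : sc univ ω = ((x0 + ss univ (lw ω.1) + ((ω.2.1.val : ℤ) - 4 * L) +
        ((ω.2.2.val : ℤ) - 4 * L) - (x0 - 8 * L) : ℤ) : ZMod M) := by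
      rw [sc_eq]
      congr 1
      ring
    simp only [hΦ, hl]
    rw [if_pos ⟨q1, q2⟩, if_pos q3, hP, hf, ← hg]
  · rw [if_neg hω]
    simp only [hbx, hl, mem_product] at hω
    by_cases c1 : lw ω.1 ∈ bp j 1 L ∧ (ω.2.1.val : ℤ) - 4 * L ∈ sy (4 * L)
    · have c2 : ¬ (ω.2.2.val : ℤ) - 4 * L ∈ sy (4 * L) := fun c => hω ⟨c1.1, c1.2, c⟩
      simp only [if_neg c2, mul_zero, zero_mul]
    · simp only [if_neg c1, zero_mul]

theorem num (K lam lam' m ε : ℝ) (hK : 1 ≤ K) (h1 : 1 ≤ lam) (h2 : 1 ≤ lam') (h3 : 0 < ε)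
    (h4 : ε ≤ 1) (h : 128 * K ^ 2 * lam * lam' ≤ m * ε ^ 2) :
    1 ≤ m ∧ 16 * lam * lam' < (⌊m / 2⌋₊ : ℝ) * (ε / K) ^ 2 ∧ 4 * (2 / m) ≤ ε / K * 1 ∧
      2 ^ ⌊m / 2⌋₊ * m * lam' ≤ Real.exp m := by
  have hK2 : 1 ≤ K ^ 2 := one_le_pow₀ hK
  have hKK : K ≤ K ^ 2 := by nlinarith
  have hll : 1 ≤ lam * lam' := one_le_mul_of_one_le_of_one_le h1 h2
  have hl2 : lam' ≤ lam * lam' := by nlinarith
  have e2 : 0 < ε ^ 2 := by positivity
  have e3 : ε ^ 2 ≤ ε := by nlinarith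
  have g0 : 128 * K ^ 2 * (lam * lam') ≤ m * ε ^ 2 := by linarith
  have g1 : 128 * K ^ 2 ≤ m * ε ^ 2 := by nlinarith
  have hm0 : 0 < m := by
    by_contra c
    push Not at c
    nlinarith
  have g2 : m * ε ^ 2 ≤ m * ε := mul_le_mul_of_nonneg_left e3 hm0.le
  have g3 : m * ε ≤ m := by nlinarith
  have hm : 128 ≤ m := by nlinarith
  have g4 : 128 * lam' ≤ m := by nlinarith
  have hn : m / 4 ≤ (⌊m / 2⌋₊ : ℝ) := by
    have := Nat.lt_floor_add_one (m / 2)
    linarith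
  have hn2 : (⌊m / 2⌋₊ : ℝ) ≤ m / 2 := Nat.floor_le (by linarith)
  refine ⟨by linarith, ?_, ?_, ?_⟩
  · have k0 : 0 < K ^ 2 := by positivity
    rw [div_pow, ← mul_div_assoc, lt_div_iff₀ k0]
    have : m / 4 * ε ^ 2 ≤ (⌊m / 2⌋₊ : ℝ) * ε ^ 2 := mul_le_mul_of_nonneg_right hn e2.le
    have k1 : 0 < K ^ 2 * (lam * lam') := by positivity
    nlinarith
  · rw [mul_one, ← mul_div_assoc, div_le_div_iff₀ hm0 (by linarith)]
    nlinarith
  · have t1 : (2 : ℝ) ^ ⌊m / 2⌋₊ ≤ Real.exp (m / 2) := by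
      calc (2 : ℝ) ^ ⌊m / 2⌋₊ ≤ Real.exp 1 ^ ⌊m / 2⌋₊ :=
            pow_le_pow_left₀ (by norm_num) (by have := Real.add_one_le_exp 1; linarith) _
        _ = Real.exp (⌊m / 2⌋₊ : ℝ) := by rw [← Real.exp_nat_mul, mul_one]
        _ ≤ _ := Real.exp_le_exp.2 hn2
    have t2 : m * lam' ≤ Real.exp (m / 2) := by
      have := Real.quadratic_le_exp_of_nonneg (show 0 ≤ m / 2 by linarith)
      nlinarith
    calc 2 ^ ⌊m / 2⌋₊ * m * lam' = 2 ^ ⌊m / 2⌋₊ * (m * lam') := by ring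
      _ ≤ Real.exp (m / 2) * Real.exp (m / 2) :=
          mul_le_mul t1 t2 (by positivity) (Real.exp_pos _).le
      _ = Real.exp m := by rw [← Real.exp_add, add_halves]

theorem moi (hZ : ZH) (hW : WND) : MOI := by
  intro j
  refine ⟨128 * ((2 * j + 18) ^ (j + 2)) ^ 2, ?_⟩
  intro L f lam lam' m ε x0 hL hf h1 h2 h3 h4 h hP hS
  set K : ℝ := (2 * j + 18) ^ (j + 2) with hKd
  have hK : 1 ≤ K := one_le_pow₀ (by have : (0 : ℝ) ≤ j := Nat.cast_nonneg j; linarith)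
  obtain ⟨n1, n2, n3, n4⟩ := num K lam lam' m ε hK h1 h2 h3 h4 (by
    push_cast at h
    exact h)
  haveI : NeZero ((2 * j + 18) * L) := ⟨by positivity⟩
  have hM : (j + 16) * L + (j + 2) * L ≤ (2 * j + 18) * L := le_of_eq (by ring)
  have hM' : (j + 16) * L ≤ (2 * j + 18) * L := le_trans (Nat.le_add_right _ _) hM
  have hV : ¬ Vc j ((2 * j + 18) * L) (per f (x0 - 8 * L) ((j + 16) * L) ((2 * j + 18) * L)) lam
      (2 / m) ⌊m / 2⌋₊ := fun hv =>
    hS (hW j _ _ L _ f _ lam lam' (2 / m) m hL hM hf (by linarith) h2 n1 hP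
      (by rw [div_mul_cancel₀ _ (by linarith)]) n4 hv)
  obtain ⟨g, g1, g2⟩ := hZ j _ _ lam 1 (ε / K) (2 / m) lam' _
    (fun x => by simp only [per]; split_ifs <;> [exact hf _; exact le_rfl])
    (mean_per L (j + 16) _ hL hM' f lam' (by linarith) hP _) (by linarith) one_pos le_rfl
    (by positivity) n2 n3 hV
  refine ⟨fun x => g ((x - (x0 - 8 * L) : ℤ) : ZMod ((2 * j + 18) * L)), fun x => ?_, ?_⟩
  · have := g1 ((x - (x0 - 8 * L) : ℤ) : ZMod ((2 * j + 18) * L))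
    exact ⟨this.1, by linarith [this.2]⟩
  · intro a b H ha hb hH
    refine (lift L _ hL hM' f x0 g (ε / K) g2 a b H ha hb hH).trans (le_of_eq ?_)
    have k0 : K ≠ 0 := by linarith
    push_cast
    rw [mul_pow, ← hKd]
    field_simp

end

end Vale.Agent.P057H.H83
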