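import Vale.Agent.P057H.SmaH35a
import Vale.Agent.P057Z.Ke.Pop
import Mathlib.NumberTheory.Bertrand

/-! Row SMA: smoothing. -/

set_option linter.all false

open Finset
open scoped BigOperators Classical

namespace Vale.Agent.P057H.H35

open Vale.Agent.P057Z Vale.Agent.P057L

theorem rg_ne {N : ℕ} (h : 1 ≤ N) : (rg N).Nonempty := ⟨0, mem_rg.2 ⟨le_rfl, by exact_mod_cast h⟩⟩

theorem sq_exp {x : ℝ} (h : 0 ≤ x) : x ^ 2 / 2 ≤ Real.exp x := by
  simpa using Real.pow_div_factorial_le_exp x h 2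

/-- the centre and the tail of the weight -/
theorem wt {Q r T : ℕ} [Fact Q.Prime] (ξ : Fin r → ZMod Q) (hT : 1 ≤ T) {V Y : ℝ} (hV : 48 ≤ V)
    (hr : (r : ℝ) ≤ 2 * V) (y0 : 0 < Y) (hY : Y ≤ V) : ∃ x ∈ rg T,
      Real.exp (-(7 * V ^ 2)) ≤
        𝔼 s ∈ rg T, lap (Real.exp (-(2 * V))) ((s : ZMod Q) • ξ + -((x : ZMod Q) • ξ)) ∧
      ∀ s : ℤ, (¬ ∀ i, nm (((s - x : ℤ) : ZMod Q) * ξ i) ≤ Real.exp (-V)) →
        lap (Real.exp (-(2 * V))) ((s : ZMod Q) • ξ + -((x : ZMod Q) • ξ)) * Y ≤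
          Real.exp (-(7 * V ^ 2)) := by
  obtain ⟨x, hx, h⟩ := Ke.pop_one (rg T) (fun s : ℤ => (s : ZMod Q) • ξ) (rg_ne hT)
    (Real.exp_pos (-(2 * V))) (Real.exp_le_one_iff.2 (by linarith))
  rw [Fintype.card_fin] at h
  have r0 : (0 : ℝ) ≤ r := Nat.cast_nonneg _
  have e1 := sq_exp (x := V) (by linarith)
  refine ⟨x, hx, le_trans ?_ (by simpa only [sub_eq_add_neg] using h), fun s hs => ?_⟩
  · have a1 : Real.exp (-(3 * V)) ≤ Real.exp (-(2 * V)) / (3 * (r + 1)) := by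
      rw [le_div_iff₀ (by positivity), show -(2 * V) = -(3 * V) + V by ring, Real.exp_add]
      exact mul_le_mul_of_nonneg_left (by nlinarith) (Real.exp_nonneg _)
    have a2 : Real.exp (-(6 * V ^ 2)) ≤ Real.exp (-(3 * V)) ^ r := by
      rw [← Real.exp_nat_mul, Real.exp_le_exp]; nlinarith
    have a3 : Real.exp (-(7 * V ^ 2)) * 3 ≤ Real.exp (-(6 * V ^ 2)) := by
      rw [show -(6 * V ^ 2) = -(7 * V ^ 2) + V ^ 2 by ring, Real.exp_add]
      exact mul_le_mul_of_nonneg_left (by nlinarith [Real.add_one_le_exp (V ^ 2)])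
        (Real.exp_nonneg _)
    rw [le_div_iff₀ (by norm_num)]
    exact a3.trans (a2.trans (pow_le_pow_left₀ (Real.exp_nonneg _) a1 r))
  · push Not at hs
    obtain ⟨i, hi⟩ := hs
    have a1 : Real.exp (-V) ≤ l1 ((s : ZMod Q) • ξ + -((x : ZMod Q) • ξ)) := by
      refine hi.le.trans (le_trans (le_of_eq ?_) (Ke.nm_le_l1 _ i))
      congr 1
      simp only [Pi.add_apply, Pi.neg_apply, Pi.smul_apply, smul_eq_mul]
      push_cast
      ring
    have a2 : Real.exp V * Real.exp (-(2 * V)) = Real.exp (-V) := by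
      rw [← Real.exp_add]; congr 1; ring
    have a3 : V ^ 3 / 6 ≤ Real.exp V := by
      simpa [Nat.factorial] using Real.pow_div_factorial_le_exp V (by linarith) 3
    have a4 : lap (Real.exp (-(2 * V))) ((s : ZMod Q) • ξ + -((x : ZMod Q) • ξ)) ≤
        Real.exp (-(8 * V ^ 2)) := by
      unfold lap
      rw [Real.exp_le_exp, neg_div, neg_le_neg_iff, le_div_iff₀ (Real.exp_pos _)]
      refine le_trans (mul_le_mul_of_nonneg_right (by nlinarith) (Real.exp_nonneg _))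
        (a2.le.trans a1)
    rw [show -(7 * V ^ 2) = -(8 * V ^ 2) + V ^ 2 by ring, Real.exp_add]
    exact mul_le_mul a4 (by nlinarith [Real.add_one_le_exp (V ^ 2)]) y0.le (Real.exp_nonneg _)

theorem blk {L : ℕ} (hL : 1 ≤ L) {f : ℤ → ℝ} {lam : ℝ} (h : ∀ x : ℤ, 𝔼 v ∈ rg L, f (x + v) ≤ lam)
    (d c : ℤ) (n : ℕ) : ∑ v ∈ Ico c (c + n * L), f (d + v) ≤ n * (L * lam) := by
  induction n with
  | zero => simp
  | succ n ih =>
    have p : (0 : ℤ) ≤ n * L := by positivity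
    rw [← Ico_union_Ico_eq_Ico (b := c + n * L) (by omega) (by push_cast; nlinarith),
      sum_union (Ico_disjoint_Ico_consecutive _ _ _)]
    have e : ∑ v ∈ Ico (c + n * L) (c + ((n + 1 : ℕ) : ℤ) * L), f (d + v) =
        ∑ v ∈ rg L, f (d + c + n * L + v) := by
      refine sum_nbij' (fun v => v - (c + n * L)) (fun v => c + n * L + v) (fun v hv => ?_)
        (fun v hv => ?_) (fun v _ => by ring) (fun v _ => by ring) fun v _ => by congr 1; ring
      · have := mem_Ico.1 hv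
        push_cast at this
        exact mem_rg.2 ⟨by linarith, by linarith⟩
      · have := mem_rg.1 hv
        exact mem_Ico.2 ⟨by linarith, by push_cast; linarith⟩
    have k := h (d + c + n * L)
    have L0 : (0 : ℝ) < L := by exact_mod_cast hL
    rw [expect_eq_sum_div_card, card_rg, div_le_iff₀ L0] at k
    rw [e]
    push_cast
    linarith

theorem win {L : ℕ} (hL : 1 ≤ L) {f : ℤ → ℝ} {lam : ℝ} (f0 : ∀ x, 0 ≤ f x)
    (h : ∀ x : ℤ, 𝔼 v ∈ rg L, f (x + v) ≤ lam) (d y : ℤ) :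
    ∑ v ∈ sy (4 * L), f (d + (y + v)) ≤ 8 * (L * lam) := by
  simp only [← add_assoc]
  refine le_trans (sum_le_sum_of_subset_of_nonneg (fun v hv => ?_) fun _ _ _ => f0 _)
    (by simpa using blk hL h (d + y) (-(4 * L)) 8)
  have := mem_Ioo.1 hv
  push_cast at this
  exact mem_Ico.2 (by omega)

theorem win2 {L : ℕ} {g : ℤ → ℝ} (g0 : ∀ x, 0 ≤ g x) (d : ℤ) {y : ℤ} (hy : y ∈ rg L) :
    ∑ z ∈ Ico (-(L : ℤ)) (3 * L), g (d + z) ≤ ∑ v ∈ sy (4 * L), g (d + (y + v)) := by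
  rw [← sum_image (s := sy (4 * L)) (g := fun v => y + v) (f := fun z => g (d + z))
    fun a _ b _ h => by simpa using h]
  refine sum_le_sum_of_subset_of_nonneg (fun z hz => mem_image.2 ⟨z - y, ?_, by ring⟩)
    fun _ _ _ => g0 _
  have := mem_Ico.1 hz
  have := mem_rg.1 hy
  exact mem_Ioo.2 (by push_cast; omega)

theorem num (j C : ℕ) (μ : ℝ) (h : ((6 * (C + 1) + 2 ^ j + 200 : ℕ) : ℝ) ≤ μ) :
    200 ≤ μ ∧ 2 ^ j + 4 ≤ μ ∧ (C : ℝ) ≤ μ ^ 3 ∧ ∃ V : ℝ, (μ ^ 3) ^ C ≤ V ∧ μ ^ 3 ≤ V ∧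
      7 * V ^ 2 ≤ μ ^ (6 * (C + 1) + 2 ^ j + 200) := by
  push_cast at h
  have h1 : (0 : ℝ) ≤ C := Nat.cast_nonneg _
  have h2 : (0 : ℝ) < 2 ^ j := by positivity
  have h3 : 1 ≤ μ := by linarith
  have h4 : μ ≤ μ ^ 3 := le_self_pow₀ h3 (by norm_num)
  refine ⟨by linarith, by linarith, by linarith, (μ ^ 3) ^ (C + 1),
    pow_le_pow_right₀ (by linarith) (by omega), le_self_pow₀ (by linarith) (by omega), ?_⟩
  calc 7 * ((μ ^ 3) ^ (C + 1)) ^ 2 = μ ^ (6 * (C + 1)) * 7 := by ring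
    _ ≤ μ ^ (6 * (C + 1)) * μ := mul_le_mul_of_nonneg_left (by linarith) (by positivity)
    _ = μ ^ (6 * (C + 1) + 1) := (pow_succ _ _).symm
    _ ≤ _ := pow_le_pow_right₀ h3 (by generalize 2 ^ j = n; omega)

theorem fin (μ lam L N E A1 A2 A3 G : ℝ) (m : 200 ≤ μ) (l1 : 1 ≤ lam) (l2 : lam ≤ μ) (hL : 0 < L)
    (hN : 0 ≤ N) (E0 : 0 ≤ E) (hE : E * (12 * μ) ≤ L * N) (h1 : -E ≤ A1)
    (h2 : -((G + 4 * L * N) * (2 / μ ^ 3)) ≤ A2) (h3 : A3 ≤ 4 * L * N * (2 / μ ^ 3))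
    (hG : G ≤ 8 * (L * lam) * N + E) :
    -(L * N / (2 * μ)) ≤ A1 + A2 - (lam + 1) * A3 := by
  have m0 : 0 < μ := by linarith
  have p : 0 ≤ L * N := mul_nonneg hL.le hN
  have q0 : 0 ≤ 2 / μ ^ 3 := by positivity
  have q1 : 2 / μ ^ 3 ≤ 1 := by
    rw [div_le_one (by positivity)]
    nlinarith [sq_nonneg μ, mul_pos m0 m0]
  have e1 : E ≤ L * N / (12 * μ) := (le_div_iff₀ (by positivity)).2 hE
  have a1 : (lam + 1) * A3 ≤ (μ + 1) * (4 * L * N * (2 / μ ^ 3)) :=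
    (mul_le_mul_of_nonneg_left h3 (by linarith)).trans
      (mul_le_mul_of_nonneg_right (by linarith) (by positivity))
  have a2 : (G + 4 * L * N) * (2 / μ ^ 3) ≤ (8 * μ + 4) * (L * N) * (2 / μ ^ 3) + E := by
    have : G + 4 * L * N ≤ (8 * μ + 4) * (L * N) + E := by nlinarith
    nlinarith [mul_le_mul_of_nonneg_right this q0]
  have a3 : (12 * μ + 8) * (2 / μ ^ 3) ≤ 1 / (3 * μ) := by
    rw [← mul_div_assoc, div_le_div_iff₀ (by positivity) (by positivity)]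
    nlinarith [mul_pos m0 m0]
  have a4 := mul_le_mul_of_nonneg_left a3 p
  have a5 : L * N / (2 * μ) = L * N / (12 * μ) + L * N / (12 * μ) + L * N * (1 / (3 * μ)) := by
    field_simp; ring
  nlinarith

theorem numE (j : ℕ) {μ L c N : ℝ} (n1 : 200 ≤ μ) (p2 : (2 : ℝ) ^ j * μ + 4 * μ ≤ μ ^ 2)
    (L0 : 0 < L) (cΛ : c ≤ Real.exp (2 ^ j * μ)) (den : Real.exp (-μ) * L ^ (j + 1) / 2 ≤ N) :
    c * (Real.exp (-μ ^ 2) * L ^ (j + 2)) * (12 * μ) ≤ L * N := by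
  have m0 : 0 < μ := by linarith
  have k1 : Real.exp (2 ^ j * μ) * Real.exp (-μ ^ 2) * (24 * μ) ≤ Real.exp (-μ) := by
    rw [← Real.exp_add, show -μ = (2 ^ j * μ + -μ ^ 2) + (μ ^ 2 - 2 ^ j * μ - μ) by ring,
      Real.exp_add (2 ^ j * μ + -μ ^ 2)]
    refine mul_le_mul_of_nonneg_left (le_trans ?_ (Real.exp_le_exp.2
      (show 3 * μ ≤ _ by linarith))) (Real.exp_nonneg _)
    nlinarith [sq_exp (x := 3 * μ) (by linarith)]
  calc c * (Real.exp (-μ ^ 2) * L ^ (j + 2)) * (12 * μ) ≤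
        Real.exp (2 ^ j * μ) * (Real.exp (-μ ^ 2) * L ^ (j + 2)) * (12 * μ) := by gcongr
    _ = Real.exp (2 ^ j * μ) * Real.exp (-μ ^ 2) * (24 * μ) * (L * L ^ (j + 1) / 2) := by ring
    _ ≤ Real.exp (-μ) * (L * L ^ (j + 1) / 2) := by gcongr
    _ = L * (Real.exp (-μ) * L ^ (j + 1) / 2) := by ring
    _ ≤ _ := by gcongr

theorem gb {ι : Type} {L : ℕ} (L1 : 1 ≤ L) {f g : ℤ → ℝ} {lam E : ℝ} (f0 : ∀ x, 0 ≤ f x)
    (g0 : ∀ x, 0 ≤ g x) (hm : ∀ x : ℤ, 𝔼 v ∈ rg L, f (x + v) ≤ lam) (U : Finset ι)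
    (a : ι → Finset ℤ) (ha : ∀ W, a W ⊆ rg L) (d : ι → ℤ)
    (A4 : |∑ W ∈ U, ∑ y ∈ a W, ∑ v ∈ sy (4 * L), 1 * (f (d W + (y + v)) - g (d W + (y + v)))| ≤ E) :
    ∑ W ∈ U, (a W).card * ∑ z ∈ Ico (-(L : ℤ)) (3 * L), g (d W + z) ≤
      8 * (L * lam) * ∑ W ∈ U, ((a W).card : ℝ) + E := by
  have k1 : ∑ W ∈ U, (a W).card * ∑ z ∈ Ico (-(L : ℤ)) (3 * L), g (d W + z) ≤
      ∑ W ∈ U, ∑ y ∈ a W, ∑ v ∈ sy (4 * L), g (d W + (y + v)) :=
    sum_le_sum fun W _ => by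
      rw [← nsmul_eq_mul]
      exact card_nsmul_le_sum _ _ _ fun y hy => win2 g0 _ (ha W hy)
  have k2 : ∑ W ∈ U, ∑ y ∈ a W, ∑ v ∈ sy (4 * L), f (d W + (y + v)) ≤
      8 * (L * lam) * ∑ W ∈ U, ((a W).card : ℝ) := by
    rw [mul_sum]
    refine sum_le_sum fun W _ => ?_
    refine (sum_le_card_nsmul _ _ _ fun y _ => win L1 f0 hm _ y).trans (le_of_eq ?_)
    rw [nsmul_eq_mul]
    ring
  have k3 := (abs_le.1 A4).1
  simp only [one_mul, sum_sub_distrib] at k3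
  linarith

theorem iS {L : ℕ} {P : ℤ → Prop} {v : ℤ} (hv : v ∈ rg L) (c : ℝ) :
    io (v ∈ (rg L).filter P) * c = if P v then c else 0 := by
  by_cases k : P v
  · rw [io_pos (mem_filter.2 ⟨hv, k⟩), one_mul, if_pos k]
  · rw [io_neg fun h => k (mem_filter.1 h).2, zero_mul, if_neg k]

theorem tg {Λ : Type} (L T : ℕ) (a : Finset ℤ) (υ : ℤ → Λ) (lp : ℤ → ℝ) (x : ℤ) (φ : ℤ → ℝ)
    (P : ℤ → Λ → Prop) : ∑ y ∈ a, 𝔼 v ∈ rg L, (𝔼 s ∈ rg T, lp s *
      if P v (υ (y + v - x + s)) then φ (y + v - x + s) else 0) / 𝔼 s ∈ rg T, lp s =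
      (DD L T a (fun u => (rg L).filter fun v => P v u) υ
        (fun s => lp s / (T * 𝔼 s ∈ rg T, lp s)) x φ +
        PP L a (fun u => (rg L).filter fun v => P v u) υ φ 0) / L := by
  rw [DD, sub_add_cancel]
  simp only [PP, mul_sum]
  rw [sum_comm, sum_div]
  refine sum_congr rfl fun y _ => ?_
  rw [expect_eq_sum_div_card, card_rg, sum_comm]
  congr 1
  refine sum_congr rfl fun v hv => ?_
  rw [expect_eq_sum_div_card, card_rg, sum_div, sum_div]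
  refine sum_congr rfl fun s _ => ?_
  rw [iS hv, show y + v + (s - x) = y + v - x + s by ring]
  ring

theorem dn {ι : Type} (K : Finset ι) (a : ι → Finset ℤ) {c : ℝ} (c0 : 0 ≤ c) :
    ∑ W ∈ K, ((a W).card : ℝ) ≤
      ∑ W ∈ K.filter fun W => c ≤ (a W).card, ((a W).card : ℝ) + K.card * c := by
  rw [← sum_filter_add_sum_filter_not K fun W => c ≤ (a W).card]
  refine add_le_add le_rfl ((sum_le_card_nsmul _ _ c fun W h => ?_).trans ?_)
  · exact (not_le.1 (mem_filter.1 h).2).le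
  · rw [nsmul_eq_mul]
    exact mul_le_mul_of_nonneg_right (Nat.cast_le.2 (card_filter_le _ _)) c0

theorem sma (hW : WAP) : SMA := by
  intro j
  obtain ⟨Cw, hW⟩ := hW
  refine ⟨6 * (Cw + 1) + 2 ^ j + 200,
    fun μ lam L f x0 Λ1 Λ2 _ _ Ω B Υ F hμ hL f0 l1 l2 hm hH hS => ?_⟩
  obtain ⟨n1, n2, n3, V, v1, v2, v3⟩ := num j Cw μ hμ
  generalize μ ^ (6 * (Cw + 1) + 2 ^ j + 200) = Yb at hL v3 ⊢
  have m0 : 0 < μ := by linarith
  have m1 : μ ≤ μ ^ 2 := le_self_pow₀ (by linarith) (by norm_num)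
  have m2 : μ ^ 2 + μ ^ 2 ≤ μ ^ 3 := by nlinarith [mul_pos m0 m0]
  have v4 : 48 ≤ V := by linarith
  have v5 : 16 * V ≤ Yb := by nlinarith
  have L0 : (0 : ℝ) < L := by
    rcases Nat.eq_zero_or_pos L with rfl | h
    · rw [Nat.cast_zero, Real.log_zero] at hL
      linarith
    · exact_mod_cast h
  have L1 : 1 ≤ L := by exact_mod_cast L0
  obtain ⟨g, g0, hg⟩ := hH (μ ^ 2) m1 x0
  obtain ⟨Q, hQ, q1, q2⟩ := Nat.exists_prime_lt_and_le_two_mul (8 * L) (by omega)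
  haveI : Fact Q.Prime := ⟨hQ⟩
  obtain ⟨R, T, r1, t1, t2, t3, hA⟩ := hW (μ ^ 3) L Q n3 (by linarith) q1.le (by omega)
  let a : Pt j 1 → Finset ℤ := fun W => (rg L).filter fun y => (W, y) ∈ Ω
  let S : Pt j 1 → (Finset (Fin j) → Λ2) → Finset ℤ := fun W u =>
    (rg L).filter fun v => F (B W v) u
  let U : Finset (Pt j 1) := (bp j 1 L).filter fun W => Real.exp (-μ) * L / 2 ≤ (a W).card
  have ha : ∀ W, a W ⊆ rg L := fun W => filter_subset _ _
  have hs : ∀ W u, S W u ⊆ rg L := fun W u => filter_subset _ _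
  have hU : U ⊆ bp j 1 L := filter_subset _ _
  have p2 : (2 : ℝ) ^ j * μ + 4 * μ ≤ μ ^ 2 := by nlinarith
  have cΛ : (Fintype.card (Finset (Fin j) → Λ2) : ℝ) ≤ Real.exp (2 ^ j * μ) := by
    rw [Fintype.card_fun, Fintype.card_finset, Fintype.card_fin]
    push_cast
    refine (pow_le_pow_left₀ (Nat.cast_nonneg _) hS.c2 _).trans (le_of_eq ?_)
    rw [← Real.exp_nat_mul]
    push_cast
    rfl
  have e2 : ∀ x : ℝ, 1 ≤ x → 2 ≤ Real.exp x := fun x h => by linarith [Real.add_one_le_exp x]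
  have big : ∀ W ∈ U, Real.exp (-μ ^ 3) * L ≤ (a W).card := fun W hW => by
    refine le_trans ?_ (mem_filter.1 hW).2
    rw [le_div_iff₀ two_pos, mul_right_comm]
    refine mul_le_mul_of_nonneg_right ?_ L0.le
    rw [show -μ = -μ ^ 3 + (μ ^ 3 - μ) by ring, Real.exp_add]
    exact mul_le_mul_of_nonneg_left (e2 _ (by linarith)) (Real.exp_nonneg _)
  have ne : ∀ W ∈ U, (a W).Nonempty := fun W hW => by
    have := (mul_pos (Real.exp_pos _) L0).trans_le (big W hW)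
    exact card_pos.1 (by exact_mod_cast this)
  let Gd : Pt j 1 → (ℤ → ℝ) → ℤ → Prop := fun W w t =>
    |∑ z ∈ Ico (-(L : ℤ)) (3 * L), w z * (kk (a W) (S W (lb Υ W z)) (z - t) -
      kk (a W) (S W (lb Υ W z)) z)| ≤ (∑ z ∈ Ico (-(L : ℤ)) (3 * L), w z) / μ ^ 3
  have ex : ∀ W, ∃ ξ : Fin (R + R) → ZMod Q, W ∈ U → ∀ t : ℤ, |t| ≤ T →
      (∀ i, nm ((t : ZMod Q) * ξ i) ≤ Real.exp (-V)) →
      Gd W (fun z => g (x0 + ss univ W + z) + 1) t ∧ Gd W (fun _ => 1) t := by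
    intro W
    by_cases hW : W ∈ U
    swap
    · exact ⟨0, fun h => absurd h hW⟩
    have c := cΛ.trans (Real.exp_le_exp.2 (show _ ≤ μ ^ 3 by linarith))
    obtain ⟨ξ1, h1⟩ := hA _ (a W) (S W) (lb Υ W) (fun z => g (x0 + ss univ W + z) + 1) c (ha W)
      (big W hW) (hs W) fun s => ⟨by linarith [(g0 (x0 + ss univ W + s)).1], by
        have k1 := (g0 (x0 + ss univ W + s)).2
        have k2 := e2 (μ ^ 2) (by linarith)
        have k3 : Real.exp (μ ^ 2) * Real.exp (μ ^ 2) ≤ Real.exp (μ ^ 3) := by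
          rw [← Real.exp_add]; exact Real.exp_le_exp.2 m2
        nlinarith⟩
    obtain ⟨ξ2, h2⟩ := hA _ (a W) (S W) (lb Υ W) (fun _ => 1) c (ha W)
      (big W hW) (hs W) fun s => ⟨le_rfl, Real.one_le_exp (by positivity)⟩
    have k : Real.exp (-V) ≤ Real.exp (-(μ ^ 3) ^ Cw) := Real.exp_le_exp.2 (by linarith)
    refine ⟨Fin.append ξ1 ξ2, fun _ t ht h => ⟨h1 t ht fun i => ?_, h2 t ht fun i => ?_⟩⟩
    · simpa only [Fin.append_left] using (h (Fin.castAdd R i)).trans k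
    · simpa only [Fin.append_right] using (h (Fin.natAdd R i)).trans k
  choose ξ hξ using ex
  have y0 : 0 < μ ^ 3 := by positivity
  choose x hx hZ hτ using fun W => wt (ξ W) t1 v4 (by push_cast; linarith) y0 v2
  set ρ := Real.exp (-(2 * V)) with hρ
  let lp : Pt j 1 → ℤ → ℝ := fun W s => lap ρ ((s : ZMod Q) • ξ W + -((x W : ZMod Q) • ξ W))
  have T0 : (0 : ℝ) < T := by exact_mod_cast t1
  have Z0 : ∀ W, 0 < 𝔼 s ∈ rg T, lp W s := fun W => (Real.exp_pos _).trans_le (hZ W)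
  let β : Pt j 1 → ℤ → ℝ := fun W s => lp W s / (T * 𝔼 s ∈ rg T, lp W s)
  have b0 : ∀ W s, 0 ≤ β W s := fun W s =>
    div_nonneg (Ke.lap_pos _ _).le (mul_pos T0 (Z0 W)).le
  have b1 : ∀ W, ∑ s ∈ rg T, β W s = 1 := fun W => by
    have := card_mul_expect (rg T) (lp W)
    rw [card_rg] at this
    rw [← sum_div, ← this]
    exact div_self (mul_pos T0 (Z0 W)).ne'
  have dd : ∀ W ∈ U, ∀ w : ℤ → ℝ, (∀ s, 0 ≤ w s) → (∀ t : ℤ, |t| ≤ T →
      (∀ i, nm ((t : ZMod Q) * ξ W i) ≤ Real.exp (-V)) → Gd W w t) →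
      |DD L T (a W) (S W) (lb Υ W) (β W) (x W) w| ≤
        (a W).card * (∑ z ∈ Ico (-(L : ℤ)) (3 * L), w z) * (2 / μ ^ 3) := fun W hW w w0 h =>
    DD_le (ha W) (ne W hW) (hs W) t2 (b0 W) (b1 W) (hx W) w0 y0
      (fun s => ∀ i, nm (((s - x W : ℤ) : ZMod Q) * ξ W i) ≤ Real.exp (-V))
      (fun s hs k => h _ (abs_sub_rg le_rfl hs (hx W)) k) fun s _ k => by
        have k1 := (hτ W s k).trans (hZ W)
        have k2 : β W s * T = lp W s / 𝔼 s ∈ rg T, lp W s := by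
          have := (Z0 W).ne'
          simp only [β]
          field_simp
        rw [k2, div_le_div_iff₀ (Z0 W) y0, one_mul]
        exact k1
  let Ω' := Ω.filter fun p => p.1 ∈ U
  have fib : ∀ G : Pt j 1 × ℤ → ℝ, ∑ p ∈ Ω', G p = ∑ W ∈ U, ∑ y ∈ a W, G (W, y) := fun G =>
    sum_finset_product Ω' U a fun p => ⟨fun h => ⟨(mem_filter.1 h).2, mem_filter.2
      ⟨(mem_product.1 (hS.sub (mem_filter.1 h).1)).2, (mem_filter.1 h).1⟩⟩,
      fun h => mem_filter.2 ⟨(mem_filter.1 h.2).2, h.1⟩⟩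
  have cN : (Ω'.card : ℝ) = ∑ W ∈ U, ((a W).card : ℝ) := by simpa using fib fun _ => 1
  have den : Real.exp (-μ) * (L : ℝ) ^ (j + 1) / 2 ≤ Ω'.card := by
    have k1 : (Ω.card : ℝ) = ∑ W ∈ bp j 1 L, ((a W).card : ℝ) := by
      simpa using sum_finset_product (f := fun _ => (1 : ℝ)) Ω (bp j 1 L) a fun p =>
        ⟨fun h => ⟨(mem_product.1 (hS.sub h)).1, mem_filter.2 ⟨(mem_product.1 (hS.sub h)).2, h⟩⟩,
          fun h => (mem_filter.1 h.2).2⟩
    have k2 := dn (bp j 1 L) a (c := Real.exp (-μ) * L / 2) (by positivity)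
    have k3 : (bp j 1 L).card = L ^ j := by simp [bp, bz, card_rg]
    rw [← cN, k3, ← k1] at k2
    have k4 := hS.den
    push_cast at k2
    rw [pow_succ] at k4 ⊢
    linarith
  have yb : ∀ {t : ℝ}, t ≤ 16 * V → Real.exp (-Yb) ≤ Real.exp (-t) := fun h =>
    Real.exp_le_exp.2 (by linarith)
  refine ⟨T, Q, R + R, inferInstance, ρ, Ω', ξ, fun W => -((x W : ZMod Q) • ξ W), x,
    ⟨by push_cast; linarith, yb (by linarith), Real.exp_le_one_iff.2 (by linarith), t1, t2,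
      t3.trans (mul_le_mul_of_nonneg_left (Real.exp_le_exp.2 (by linarith)) T0.le), by omega, ?_,
      (filter_subset _ _).trans hS.sub, ?_, hx,
      fun W => (Real.exp_le_exp.2 (by linarith)).trans (hZ W), ?_⟩⟩
  · have : (Q : ℝ) ≤ 2 * (8 * L) := by exact_mod_cast q2
    nlinarith [Real.add_one_le_exp Yb]
  · refine le_trans ?_ den
    rw [le_div_iff₀ two_pos, mul_right_comm]
    refine mul_le_mul_of_nonneg_right ?_ (by positivity)
    rw [show -μ = -Yb + (Yb - μ) by ring, Real.exp_add]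
    exact mul_le_mul_of_nonneg_left (e2 _ (by linarith)) (Real.exp_nonneg _)
  let φ : Pt j 1 → ℤ → ℝ := fun W s => f (x0 + ss univ W + s) - lam
  have base : ∀ W, (a W).card * (L / μ) ≤ PP L (a W) (S W) (lb Υ W) (φ W) 0 := fun W => by
    rw [← nsmul_eq_mul]
    refine card_nsmul_le_sum _ _ _ fun y hy => ?_
    have k := hS.ex (W, y) (mem_filter.1 hy).2
    rw [expect_eq_sum_div_card, card_rg, le_div_iff₀ L0] at k
    refine le_trans (le_of_eq (by ring)) (k.trans (le_of_eq (sum_congr rfl fun v hv => ?_)))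
    rw [iS hv, add_zero]
    simp only [φ, add_assoc]
  have tgt := fun W => tg L T (a W) (lb Υ W) (lp W) (x W) (φ W) fun v u => F (B W v) u
  set E : ℝ := Fintype.card (Finset (Fin j) → Λ2) * (Real.exp (-μ ^ 2) * (L : ℝ) ^ (j + 2))
    with hE
  have A1 := test hg hS.tc U hU a ha (fun W => Dv T (S W) (β W) (x W))
    fun W => Dv_abs (b0 W) (b1 W) (x W)
  have A4 := test hg hS.tc U hU a ha (fun _ _ _ => 1) fun _ _ _ => abs_one.le
  rw [← hE] at A1 A4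
  have cI : ((Ico (-(L : ℤ)) (3 * L)).card : ℝ) = 4 * L := by
    rw [Int.card_Ico, show (3 * L - -L : ℤ) = ((4 * L : ℕ) : ℤ) by push_cast; ring,
      Int.toNat_natCast]
    push_cast
    rfl
  have key := fin μ lam L Ω'.card E
    (∑ W ∈ U, DD L T (a W) (S W) (lb Υ W) (β W) (x W)
      fun s => f (x0 + ss univ W + s) - g (x0 + ss univ W + s))
    (∑ W ∈ U, DD L T (a W) (S W) (lb Υ W) (β W) (x W) fun s => g (x0 + ss univ W + s) + 1)
    (∑ W ∈ U, DD L T (a W) (S W) (lb Υ W) (β W) (x W) fun _ => 1)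
    (∑ W ∈ U, (a W).card * ∑ z ∈ Ico (-(L : ℤ)) (3 * L), g (x0 + ss univ W + z))
    n1 l1 l2 L0 (Nat.cast_nonneg _) (by positivity) ?_ ?_ ?_ ?_ ?_
  · rw [fib]
    refine le_trans ?_ (le_of_eq (sum_congr rfl fun W _ => tgt W).symm)
    rw [← sum_div, le_div_iff₀ L0, sum_add_distrib,
      sum_congr rfl fun W _ => DD_lin (β W) (x W)
        (fun s => f (x0 + ss univ W + s) - g (x0 + ss univ W + s))
        (fun s => g (x0 + ss univ W + s) + 1) (fun _ => 1) (φ W) (lam + 1)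
        fun s => by simp only [φ]; ring,
      sum_sub_distrib, sum_add_distrib, ← mul_sum]
    have k := sum_le_sum fun W (_ : W ∈ U) => base W
    rw [← sum_mul, ← cN] at k
    have k2 : (Ω'.card : ℝ) * (L / μ) = Ω'.card / (2 * μ) * L + L * Ω'.card / (2 * μ) := by
      field_simp; ring
    linarith
  · exact numE j n1 p2 L0 cΛ den
  · rw [sum_congr rfl fun W _ => DD_sy (hs W) t2 (β W) (hx W) _]
    exact (abs_le.1 A1).1
  · rw [cN, mul_sum, ← sum_add_distrib, sum_mul, ← sum_neg_distrib]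
    refine sum_le_sum fun W hW => ?_
    have k := (abs_le.1 (dd W hW _ (fun s => by linarith [(g0 (x0 + ss univ W + s)).1])
      fun t ht h => (hξ W hW t ht h).1)).1
    rw [sum_add_distrib, sum_const, nsmul_eq_mul, cI] at k
    exact le_trans (le_of_eq (by ring)) k
  · rw [cN, mul_sum, sum_mul]
    refine sum_le_sum fun W hW => ?_
    have k := (abs_le.1 (dd W hW _ (fun s => zero_le_one) fun t ht h => (hξ W hW t ht h).2)).2
    rw [sum_const, nsmul_eq_mul, cI] at k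
    exact k.trans (le_of_eq (by ring))
  · rw [cN]
    exact gb L1 f0 (fun z => (g0 z).1) hm U a ha (fun W => x0 + ss univ W) A4

end Vale.Agent.P057H.H35
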