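import Vale.Agent.P057H.Defs

/-! Row SMA, first part: sums over one fibre and the tests. -/

set_option linter.all false

open Finset
open scoped BigOperators Classical

namespace Vale.Agent.P057H.H35

open Vale.Agent.P057Z Vale.Agent.P057L

noncomputable section

theorem mem_rg {N : ℕ} {x : ℤ} : x ∈ rg N ↔ 0 ≤ x ∧ x < N := mem_Ico

theorem card_rg (N : ℕ) : (rg N).card = N := by simp [rg]

theorem shift (L : ℕ) (I : Finset ℤ) (c : ℤ) (ψ : ℤ → ℝ) (h0 : ∀ v, v ∉ rg L → ψ v = 0)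
    (hI : ∀ v ∈ rg L, v + c ∈ I) : ∑ v ∈ rg L, ψ v = ∑ z ∈ I, ψ (z - c) := by
  rw [← sum_image (s := I) (g := fun z => z - c) (f := ψ) fun a _ b _ h => by simpa using h]
  exact sum_subset (fun v hv => mem_image.2 ⟨v + c, hI v hv, by ring⟩) fun v _ hv => h0 v hv

/-- the indicator -/
def io (p : Prop) : ℝ := if p then 1 else 0

theorem io_pos {p : Prop} (h : p) : io p = 1 := if_pos h

theorem io_neg {p : Prop} (h : ¬ p) : io p = 0 := if_neg h

theorem io_bd (p : Prop) : 0 ≤ io p ∧ io p ≤ 1 := by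
  unfold io; split_ifs <;> norm_num

theorem io_abs (p : Prop) : |io p| ≤ 1 := abs_le.2 ⟨by linarith [io_bd p], (io_bd p).2⟩

theorem io_mul (p : Prop) (x : ℝ) : io p * x = if p then x else 0 := by
  unfold io; split_ifs <;> simp

variable {Λ : Type} (L T : ℕ) (a : Finset ℤ) (S : Λ → Finset ℤ) (υ : ℤ → Λ)

/-- the shifted sum over one fibre -/
def PP (h : ℤ → ℝ) (t : ℤ) : ℝ :=
  ∑ y ∈ a, ∑ v ∈ rg L, io (v ∈ S (υ (y + v + t))) * h (y + v + t)

/-- the effect of the smoothing -/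
def DD (β : ℤ → ℝ) (x : ℤ) (h : ℤ → ℝ) : ℝ :=
  ∑ s ∈ rg T, β s * PP L a S υ h (s - x) - PP L a S υ h 0

/-- the smoothed face -/
def Dv (β : ℤ → ℝ) (x : ℤ) (u : Λ) (v : ℤ) : ℝ :=
  ∑ s ∈ rg T, β s * io (v - (s - x) ∈ S u) - io (v - 0 ∈ S u)

variable {L T a S υ}

theorem PP_lin (h1 h2 h3 h : ℤ → ℝ) (c : ℝ) (e : ∀ s, h s = h1 s + h2 s - c * h3 s) (t : ℤ) :
    PP L a S υ h t = PP L a S υ h1 t + PP L a S υ h2 t - c * PP L a S υ h3 t := by
  simp only [PP, mul_sum, ← sum_add_distrib, ← sum_sub_distrib]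
  refine sum_congr rfl fun y _ => sum_congr rfl fun v _ => ?_
  rw [e]; ring

theorem DD_lin (β : ℤ → ℝ) (x : ℤ) (h1 h2 h3 h : ℤ → ℝ) (c : ℝ)
    (e : ∀ s, h s = h1 s + h2 s - c * h3 s) :
    DD L T a S υ β x h = DD L T a S υ β x h1 + DD L T a S υ β x h2 - c * DD L T a S υ β x h3 := by
  simp only [DD, PP_lin h1 h2 h3 h c e, mul_add, mul_sub, sum_add_distrib, sum_sub_distrib, mul_sum]
  have : ∀ s, β s * (c * PP L a S υ h3 (s - x)) = c * (β s * PP L a S υ h3 (s - x)) :=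
    fun s => by ring
  simp only [this]
  ring

theorem PP_kk (ha : a ⊆ rg L) (hn : a.Nonempty) (hS : ∀ l, S l ⊆ rg L) (h : ℤ → ℝ) {t : ℤ}
    (ht : |t| ≤ L) : PP L a S υ h t =
      a.card * ∑ s ∈ Ico (-(L : ℤ)) (3 * L), h s * kk a (S (υ s)) (s - t) := by
  have c0 : (a.card : ℝ) ≠ 0 := by exact_mod_cast hn.card_pos.ne'
  have e : ∀ y ∈ a, ∑ v ∈ rg L, io (v ∈ S (υ (y + v + t))) * h (y + v + t) =
      ∑ s ∈ Ico (-(L : ℤ)) (3 * L), io (s - t - y ∈ S (υ s)) * h s := by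
    intro y hy
    have := mem_rg.1 (ha hy)
    have := abs_le.1 ht
    rw [shift L (Ico (-(L : ℤ)) (3 * L)) (y + t) _
      (fun v hv => by rw [io_neg fun k => hv (hS _ k), zero_mul])
      fun v hv => by have := mem_rg.1 hv; exact mem_Ico.2 (by omega)]
    refine sum_congr rfl fun s _ => ?_
    rw [show y + (s - (y + t)) + t = s by ring, show s - (y + t) = s - t - y by ring]
  rw [PP, sum_congr rfl e, sum_comm, mul_sum]
  refine sum_congr rfl fun s _ => ?_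
  rw [kk, ← sum_mul, card_filter]
  push_cast
  have : ∑ y ∈ a, io (s - t - y ∈ S (υ s)) =
      ∑ y ∈ a, (if s - t - y ∈ S (υ s) then (1 : ℝ) else 0) :=
    sum_congr rfl fun y _ => by unfold io; split_ifs <;> rfl
  rw [this]
  field_simp

theorem PP_sy (hS : ∀ l, S l ⊆ rg L) (h : ℤ → ℝ) {t : ℤ} (ht : |t| ≤ L) : PP L a S υ h t =
    ∑ y ∈ a, ∑ v ∈ sy (4 * L), io (v - t ∈ S (υ (y + v))) * h (y + v) := by
  refine sum_congr rfl fun y _ => ?_
  have := abs_le.1 ht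
  rw [shift L (sy (4 * L)) t _ (fun v hv => by rw [io_neg fun k => hv (hS _ k), zero_mul])
    fun v hv => by have := mem_rg.1 hv; exact mem_Ioo.2 (by push_cast; omega)]
  refine sum_congr rfl fun s _ => ?_
  rw [show y + (s - t) + t = y + s by ring]

theorem abs_sub_rg (hT : T ≤ L) {s x : ℤ} (hs : s ∈ rg T) (hx : x ∈ rg T) : |s - x| ≤ L := by
  have := mem_rg.1 hs
  have := mem_rg.1 hx
  exact abs_le.2 (by omega)

theorem DD_sy (hS : ∀ l, S l ⊆ rg L) (hT : T ≤ L) (β : ℤ → ℝ) {x : ℤ} (hx : x ∈ rg T)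
    (h : ℤ → ℝ) : DD L T a S υ β x h =
      ∑ y ∈ a, ∑ v ∈ sy (4 * L), Dv T S β x (υ (y + v)) v * h (y + v) := by
  rw [DD, PP_sy hS h (t := 0) (by simp),
    sum_congr rfl fun s hs => by rw [PP_sy hS h (abs_sub_rg hT hs hx)]]
  simp only [Dv, mul_sum, sub_mul, sum_sub_distrib, sum_mul]
  congr 1
  rw [sum_comm]
  refine sum_congr rfl fun y _ => ?_
  rw [sum_comm]
  exact sum_congr rfl fun v _ => sum_congr rfl fun s _ => by ring

theorem Dv_abs {β : ℤ → ℝ} (h0 : ∀ s, 0 ≤ β s) (h1 : ∑ s ∈ rg T, β s = 1) (x : ℤ) (u : Λ)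
    (v : ℤ) : |Dv T S β x u v| ≤ 1 := by
  have a1 : 0 ≤ ∑ s ∈ rg T, β s * io (v - (s - x) ∈ S u) :=
    sum_nonneg fun s _ => mul_nonneg (h0 s) (io_bd _).1
  have a2 : ∑ s ∈ rg T, β s * io (v - (s - x) ∈ S u) ≤ 1 :=
    (sum_le_sum fun s _ => mul_le_of_le_one_right (h0 s) (io_bd _).2).trans h1.le
  have a3 := io_bd (v - 0 ∈ S u)
  exact abs_le.2 ⟨by unfold Dv; linarith, by unfold Dv; linarith⟩

theorem kk_bd (A : Finset ℤ) (s : ℤ) : 0 ≤ kk a A s ∧ kk a A s ≤ 1 :=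
  ⟨by unfold kk; positivity,
    div_le_one_of_le₀ (Nat.cast_le.2 (card_filter_le _ _)) (Nat.cast_nonneg _)⟩

theorem DD_le (ha : a ⊆ rg L) (hn : a.Nonempty) (hS : ∀ l, S l ⊆ rg L) (hT : T ≤ L) {β : ℤ → ℝ}
    (h0 : ∀ s, 0 ≤ β s) (h1 : ∑ s ∈ rg T, β s = 1) {x : ℤ} (hx : x ∈ rg T) {w : ℤ → ℝ}
    (hw : ∀ s, 0 ≤ w s) {Y : ℝ} (hY : 0 < Y) (G : ℤ → Prop)
    (hG : ∀ s ∈ rg T, G s → |∑ z ∈ Ico (-(L : ℤ)) (3 * L),
      w z * (kk a (S (υ z)) (z - (s - x)) - kk a (S (υ z)) z)| ≤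
        (∑ z ∈ Ico (-(L : ℤ)) (3 * L), w z) / Y)
    (hτ : ∀ s ∈ rg T, ¬ G s → β s * T ≤ 1 / Y) :
    |DD L T a S υ β x w| ≤ a.card * (∑ z ∈ Ico (-(L : ℤ)) (3 * L), w z) * (2 / Y) := by
  set M := ∑ z ∈ Ico (-(L : ℤ)) (3 * L), w z with hM
  have M0 : 0 ≤ M := sum_nonneg fun z _ => hw z
  have T0 : (0 : ℝ) < T := by
    have := mem_rg.1 hx
    exact_mod_cast (by omega : 0 < T)
  have e : DD L T a S υ β x w = a.card * ∑ s ∈ rg T, β s * ∑ z ∈ Ico (-(L : ℤ)) (3 * L),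
      w z * (kk a (S (υ z)) (z - (s - x)) - kk a (S (υ z)) z) := by
    rw [DD, ← one_mul (PP L a S υ w 0), ← h1, sum_mul, ← sum_sub_distrib, mul_sum]
    refine sum_congr rfl fun s hs => ?_
    rw [PP_kk ha hn hS w (abs_sub_rg hT hs hx), PP_kk ha hn hS w (t := 0) (by simp)]
    simp only [sub_zero, mul_sub, sum_sub_distrib]
    ring
  have b : ∀ s ∈ rg T, |β s * ∑ z ∈ Ico (-(L : ℤ)) (3 * L),
      w z * (kk a (S (υ z)) (z - (s - x)) - kk a (S (υ z)) z)| ≤ β s * (M / Y) + M / Y / T := by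
    intro s hs
    have p1 : 0 ≤ M / Y := div_nonneg M0 hY.le
    have p2 : 0 ≤ M / Y / T := div_nonneg p1 T0.le
    rw [abs_mul, abs_of_nonneg (h0 s)]
    by_cases k : G s
    · exact (mul_le_mul_of_nonneg_left (hG s hs k) (h0 s)).trans (le_add_of_nonneg_right p2)
    · have q : |∑ z ∈ Ico (-(L : ℤ)) (3 * L),
          w z * (kk a (S (υ z)) (z - (s - x)) - kk a (S (υ z)) z)| ≤ M := by
        refine (abs_sum_le_sum_abs _ _).trans (sum_le_sum fun z _ => ?_)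
        have := kk_bd (a := a) (S (υ z)) (z - (s - x))
        have := kk_bd (a := a) (S (υ z)) z
        rw [abs_mul, abs_of_nonneg (hw z)]
        exact mul_le_of_le_one_right (hw z) (abs_le.2 ⟨by linarith, by linarith⟩)
      have q2 : β s ≤ 1 / Y / T := (le_div_iff₀ T0).2 (hτ s hs k)
      refine (mul_le_mul q2 q (abs_nonneg _) (by positivity)).trans ?_
      rw [show 1 / Y / T * M = M / Y / T by ring]
      exact le_add_of_nonneg_left (mul_nonneg (h0 s) p1)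
  rw [e, abs_mul, Nat.abs_cast, mul_assoc]
  refine mul_le_mul_of_nonneg_left (((abs_sum_le_sum_abs _ _).trans (sum_le_sum b)).trans
    (le_of_eq ?_)) (Nat.cast_nonneg _)
  rw [sum_add_distrib, ← sum_mul, h1, sum_const, card_rg, nsmul_eq_mul]
  field_simp
  ring

/-- label dependent faces are sums of tests -/
theorem test {j : ℕ} {f g : ℤ → ℝ} {x0 : ℤ} {ε : ℝ} (hM : Mo j L f g x0 ε) {Λ2 : Type}
    [Fintype Λ2] {Υ : Finset (Fin j) → ℤ → Λ2} (hT : Tc Υ) (U : Finset (Pt j 1)) (hU : U ⊆ bp j 1 L)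
    (A : Pt j 1 → Finset ℤ) (hA : ∀ W, A W ⊆ rg L)
    (D : Pt j 1 → (Finset (Fin j) → Λ2) → ℤ → ℝ) (hD : ∀ W u v, |D W u v| ≤ 1) :
    |∑ W ∈ U, ∑ y ∈ A W, ∑ v ∈ sy (4 * L), D W (lb Υ W (y + v)) v *
      (f (x0 + ss univ W + (y + v)) - g (x0 + ss univ W + (y + v)))| ≤
      Fintype.card (Finset (Fin j) → Λ2) * (ε * (L : ℝ) ^ (j + 2)) := by
  have k := fun u : Finset (Fin j) → Λ2 => hM (fun W y => io (W ∈ U ∧ y ∈ A W))
    (fun W v => D W u v * io (Υ univ 0 = u univ)) (fun S x => io (Υ S x = u S))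
    (fun _ _ => io_abs _)
    (fun W v => by rw [abs_mul]; exact mul_le_one₀ (hD _ _ _) (abs_nonneg _) (io_abs _))
    fun _ _ => io_abs _
  refine le_trans (le_of_eq ?_) (((abs_sum_le_sum_abs _ univ).trans
    (sum_le_sum fun u _ => k u)).trans (by rw [sum_const, card_univ, nsmul_eq_mul]))
  congr 1
  have pt : ∀ (W : Pt j 1) (y v : ℤ), ∑ u : Finset (Fin j) → Λ2, io (W ∈ U ∧ y ∈ A W) *
      (D W u v * io (Υ univ 0 = u univ)) * (∏ S ∈ (univ : Finset (Finset (Fin j))).erase univ,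
        io (Υ S (ss S W + y + v) = u S)) *
      (f (x0 + ss univ W + y + v) - g (x0 + ss univ W + y + v)) = io (W ∈ U ∧ y ∈ A W) *
      (D W (lb Υ W (y + v)) v *
        (f (x0 + ss univ W + (y + v)) - g (x0 + ss univ W + (y + v)))) := by
    intro W y v
    rw [sum_eq_single (lb Υ W (y + v))]
    · have e1 : io (Υ univ 0 = lb Υ W (y + v) univ) = 1 := io_pos (hT _ _)
      have e2 : ∀ S ∈ (univ : Finset (Finset (Fin j))).erase univ,
          io (Υ S (ss S W + y + v) = lb Υ W (y + v) S) = 1 := fun S _ =>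
        io_pos (by rw [lb, add_assoc])
      rw [e1, prod_eq_one e2, add_assoc (x0 + ss univ W)]
      ring
    · intro u _ hu
      obtain ⟨S, hS⟩ := Function.ne_iff.1 hu
      by_cases e : S = univ
      · subst e
        rw [io_neg (p := Υ univ 0 = u univ) fun k => hS (k.symm.trans (hT _ _))]
        ring
      · rw [prod_eq_zero (mem_erase.2 ⟨e, mem_univ S⟩)
          (io_neg fun k => hS (by rw [← k, lb, add_assoc]))]
        ring
    · exact fun h => absurd (mem_univ _) h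
  rw [sum_comm (s := univ)]
  rw [sum_congr rfl fun W _ => sum_comm (s := univ)]
  rw [sum_congr rfl fun W _ => sum_congr rfl fun y _ => sum_comm (s := univ)]
  simp only [pt, ← mul_sum]
  rw [← sum_subset hU fun W _ hW => sum_eq_zero fun y _ => by
    rw [io_neg fun k => hW k.1, zero_mul]]
  refine sum_congr rfl fun W hW => ?_
  rw [← sum_subset (s₁ := A W) (s₂ := sy (4 * L)) (fun y hy => by
    have := mem_rg.1 (hA W hy)
    exact mem_Ioo.2 (by push_cast; omega)) fun y _ hy => by rw [io_neg fun k => hy k.2, zero_mul]]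
  exact sum_congr rfl fun y hy => by rw [io_pos ⟨hW, hy⟩, one_mul]

end

end Vale.Agent.P057H.H35
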