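import Vale.Agent.P057H.SmaH60a
import Mathlib.NumberTheory.Bertrand

/-! Smoothing, second proof. -/

set_option linter.all false

open Finset
open scoped BigOperators Classical

namespace Vale.Agent.P057H.H60

open Vale.Agent.P057Z Vale.Agent.P057L

noncomputable section

theorem avg {T : ℕ} (hT : 1 ≤ T) (l Δ : ℤ → ℝ) (good : ℤ → Prop) {Z c Y τ : ℝ} (hZ : 0 < Z)
    (hc : 0 ≤ c) (hY : 0 < Y) (τ0 : 0 ≤ τ) (l0 : ∀ s, 0 ≤ l s) (l1 : ∑ s ∈ rg T, l s = T * Z)
    (h1 : ∀ s ∈ rg T, good s → -(c / Y) ≤ Δ s) (h2 : ∀ s ∈ rg T, -c ≤ Δ s)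
    (h3 : ∀ s ∈ rg T, ¬ good s → l s ≤ τ) (h4 : τ * Y ≤ Z) :
    -(2 * c / Y) ≤ ∑ s ∈ rg T, l s / (T * Z) * Δ s := by
  have hT' : (0 : ℝ) < T := by exact_mod_cast hT
  have a : ∑ s ∈ rg T, (-(c / Y) * l s - c * τ) ≤ ∑ s ∈ rg T, l s * Δ s := sum_le_sum fun s hs => by
    have p := l0 s
    have q : 0 ≤ c / Y := by positivity
    by_cases g : good s
    · nlinarith [mul_le_mul_of_nonneg_left (h1 s hs g) p, mul_nonneg hc τ0]
    · nlinarith [mul_le_mul_of_nonneg_left (h2 s hs) p, mul_le_mul_of_nonneg_left (h3 s hs g) hc,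
        mul_nonneg q p]
  rw [sum_sub_distrib, ← mul_sum, l1, sum_const, Win.c1, nsmul_eq_mul] at a
  simp only [div_mul_eq_mul_div]
  rw [← sum_div, le_div_iff₀ (by positivity)]
  refine le_trans ?_ a
  have b : τ ≤ Z / Y := (le_div_iff₀ hY).2 h4
  have e : -(2 * c / Y) * (T * Z) = -(c / Y) * (T * Z) - T * (c * (Z / Y)) := by ring
  rw [e]
  gcongr

/-- two weights -/
theorem two (I : Finset ℤ) (g K K' : ℤ → ℝ) {lam : ℝ} (hl : 0 ≤ lam) (g0 : ∀ s, 0 ≤ g s)
    (k : ∀ s, 0 ≤ K s ∧ K s ≤ 1) (k' : ∀ s, 0 ≤ K' s ∧ K' s ≤ 1) :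
    -(∑ s ∈ I, (g s + 1) + (lam + 1) * ∑ s ∈ I, (1 : ℝ)) ≤
      ∑ s ∈ I, (g s - lam) * K' s - ∑ s ∈ I, (g s - lam) * K s ∧
    ∀ Y : ℝ, |∑ s ∈ I, (g s + 1) * (K' s - K s)| ≤ (∑ s ∈ I, (g s + 1)) / Y →
      |∑ s ∈ I, (1 : ℝ) * (K' s - K s)| ≤ (∑ s ∈ I, (1 : ℝ)) / Y →
      -((∑ s ∈ I, (g s + 1) + (lam + 1) * ∑ s ∈ I, (1 : ℝ)) / Y) ≤
        ∑ s ∈ I, (g s - lam) * K' s - ∑ s ∈ I, (g s - lam) * K s := by
  constructor
  · rw [mul_sum, ← sum_add_distrib, ← sum_neg_distrib, ← sum_sub_distrib]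
    exact sum_le_sum fun s _ => by
      nlinarith [g0 s, k s, k' s, mul_nonneg (g0 s) (k' s).1, mul_nonneg hl (k s).1,
        mul_le_mul_of_nonneg_left (k s).2 (g0 s), mul_le_mul_of_nonneg_left (k' s).2 hl]
  · intro Y h1 h2
    have e : ∑ s ∈ I, (g s - lam) * K' s - ∑ s ∈ I, (g s - lam) * K s =
        ∑ s ∈ I, (g s + 1) * (K' s - K s) - (lam + 1) * ∑ s ∈ I, (1 : ℝ) * (K' s - K s) := by
      rw [mul_sum, ← sum_sub_distrib, ← sum_sub_distrib]
      exact sum_congr rfl fun s _ => by ring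
    rw [e, add_div, mul_div_assoc]
    nlinarith [(abs_le.1 h1).1, mul_le_mul_of_nonneg_left (abs_le.1 h2).2 (by linarith : 0 ≤ lam + 1)]

theorem num {μ Y n L P E ε A0 A1 B0 B1 Mw : ℝ} (hμ : 100 ≤ μ) (hY : μ ^ 4 = Y) (hn : 0 ≤ n)
    (hL : 0 < L) (hP : P ≤ 2 * Real.exp μ * n * L) (hE : E * Real.exp (2 * μ) ≤ P) (hε : ε ≤ E)
    (h0 : n * L / μ ≤ A0) (h1 : |A0 - B0| ≤ E) (h2 : B0 - 2 * Mw / Y ≤ B1) (h3 : |A1 - B1| ≤ E)
    (h4 : Mw ≤ 20 * μ * L * n + ε) : n * L / (2 * μ) ≤ A1 := by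
  have m0 : 0 < μ := by linarith
  have e0 := Real.exp_pos μ
  have e1 : 50 * μ ≤ Real.exp μ := by
    have := Real.quadratic_le_exp_of_nonneg m0.le
    nlinarith
  have nL : 0 ≤ n * L / μ := by positivity
  have E0 : 0 ≤ E := (abs_nonneg _).trans h1
  have e2 : E ≤ n * L / μ / 25 := by
    rw [two_mul, Real.exp_add] at hE
    have a : E * Real.exp μ ≤ 2 * n * L := le_of_mul_le_mul_right (by nlinarith) e0
    rw [div_div, le_div_iff₀ (by positivity)]
    nlinarith [mul_le_mul_of_nonneg_left e1 E0]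
  have y1 : 10000 * μ ^ 2 ≤ Y := by rw [← hY]; nlinarith [sq_nonneg μ, mul_le_mul hμ hμ (by norm_num) m0.le]
  have y0 : 0 < Y := lt_of_lt_of_le (by positivity) y1
  have e3 : 2 * Mw / Y ≤ n * L / μ / 5 := by
    rw [div_le_iff₀ y0]
    have a : 20 * μ * L * n = 20 * μ ^ 2 * (n * L / μ) := by field_simp
    have b : (1 : ℝ) ≤ μ ^ 2 := by nlinarith
    nlinarith [mul_le_mul_of_nonneg_left y1 nL, mul_le_mul_of_nonneg_left b nL]
  have e4 : n * L / (2 * μ) = n * L / μ / 2 := by rw [div_div, mul_comm μ]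
  linarith [(abs_le.1 h1).2, (abs_le.1 h3).1]

theorem cst {A : ℝ} (hA : 100 ≤ A) {r : ℕ} (hr : (r : ℝ) ≤ 2 * A) : ∃ m : ℕ, 1 ≤ m ∧
    (r : ℝ) ≤ Real.exp (-(3 * A)) * m ∧ (m : ℝ) ^ r ≤ Real.exp (10 * A ^ 2) ∧
    Real.exp (-(Real.exp (-A) / Real.exp (-(3 * A)))) * Real.exp (4 * A) ≤
      Real.exp (-(1 + 10 * A ^ 2)) := by
  have a0 : 0 < A := by linarith
  have e1 : 2 * A ≤ Real.exp A := by
    have := Real.quadratic_le_exp_of_nonneg a0.le
    nlinarith
  have e4 := Real.exp_pos (4 * A)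
  refine ⟨⌈Real.exp (4 * A)⌉₊, Nat.one_le_ceil_iff.2 e4, ?_, ?_, ?_⟩
  · refine hr.trans (e1.trans ?_)
    have : Real.exp A = Real.exp (-(3 * A)) * Real.exp (4 * A) := by
      rw [← Real.exp_add]; congr 1; ring
    rw [this]
    exact mul_le_mul_of_nonneg_left (Nat.le_ceil _) (Real.exp_pos _).le
  · have b : (⌈Real.exp (4 * A)⌉₊ : ℝ) ≤ Real.exp (5 * A) := by
      have c := (Nat.ceil_lt_add_one e4.le).le
      have d : Real.exp (5 * A) = Real.exp (4 * A) * Real.exp A := by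
        rw [← Real.exp_add]; congr 1; ring
      have f : 1 ≤ Real.exp (4 * A) := Real.one_le_exp (by linarith)
      nlinarith
    refine (pow_le_pow_left₀ (by positivity) b r).trans ?_
    rw [← Real.exp_nat_mul, Real.exp_le_exp]
    nlinarith
  · rw [← Real.exp_sub, ← Real.exp_add, Real.exp_le_exp, show -A - -(3 * A) = A + A by ring,
      Real.exp_add]
    have c := Real.quadratic_le_exp_of_nonneg a0.le
    have d : 50 * A ≤ Real.exp A := by nlinarith
    nlinarith [mul_le_mul d d (by linarith) (Real.exp_pos A).le]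

set_option maxHeartbeats 3200000 in
/-- **smoothing** -/
theorem sma (hW : WAP) : SMA := by
  obtain ⟨C0, hW⟩ := hW
  intro j
  refine ⟨8 * C0 + 2 ^ j + 100, ?_⟩
  intro μ lam L f x0 Λ1 Λ2 _ _ Ω B Υ F hC hL f0 l1 lμ hm hH S
  push_cast at hC
  have c0 : (0 : ℝ) ≤ C0 := by positivity
  have c1 : (1 : ℝ) ≤ 2 ^ j := one_le_pow₀ (by norm_num)
  have hμ : 100 ≤ μ := by linarith
  have m1 : 1 ≤ μ := by linarith
  have pj : 1 ≤ 2 ^ j := Nat.one_le_two_pow
  set C := 8 * C0 + 2 ^ j + 100 with hCd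
  have L1 : 1 ≤ L := one_le_of_log (by positivity) hL
  have L0 : (0 : ℝ) < L := by exact_mod_cast L1
  obtain ⟨Q, hQ, q1, q2⟩ := Nat.exists_prime_lt_and_le_two_mul (8 * L) (by omega)
  haveI : Fact Q.Prime := ⟨hQ⟩
  let A : ℝ := μ ^ (4 * C0 + 1)
  have a1 : (μ ^ 4) ^ C0 ≤ A := by rw [← pow_mul]; exact pw_le m1 (by omega)
  have a2 : μ ≤ A := le_pw m1 (by omega)
  have a3 : 100 * A ^ 2 ≤ μ ^ C := by
    rw [← pow_mul]
    exact (mul_pw_le (by linarith) hμ _).trans (pw_le m1 (by omega))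
  have a4 : 100 * A ≤ A ^ 2 := by nlinarith
  have y1 : (2 ^ j + 3) * μ ≤ μ ^ 4 := by
    have : μ ^ 2 ≤ μ ^ 4 := pw_le m1 (by omega)
    nlinarith
  obtain ⟨R, T, r1, t1, t2, t3, hW⟩ := hW (μ ^ 4) L Q (by nlinarith) (by linarith) q1.le (by omega)
  have T0 : (0 : ℝ) < T := by exact_mod_cast t1
  have hr : ((R + R : ℕ) : ℝ) ≤ 2 * A := by push_cast; linarith
  obtain ⟨m, m1', m2, m3, m4⟩ := cst (hμ.trans a2) hr
  obtain ⟨g, g0, hM⟩ := hH ((2 ^ j + 2) * μ) (by nlinarith) x0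
  let den : Pt j 1 → Prop := fun W => Real.exp (-μ) * L / 2 ≤ (fib Ω L W).card
  let Ω' := Ω.filter fun p => den p.1
  have sub' : Ω' ⊆ bp j 1 L ×ˢ rg L := (filter_subset _ _).trans S.sub
  have fb' : ∀ W, fib Ω' L W = if den W then fib Ω L W else ∅ := fun W => by
    ext y
    split_ifs with h <;> simp [fib, Ω', h]
  have cb : ((bp j 1 L).card : ℝ) = (L : ℝ) ^ j := by
    unfold bp bz
    rw [Win.cp, Win.cp, Win.c1]; simp
  have n1 : Real.exp (-μ) * (L : ℝ) ^ (j + 1) / 2 ≤ Ω'.card := by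
    have e1 := sum_fib S.sub fun _ _ => (1 : ℝ)
    have e2 := sum_fib sub' fun _ _ => (1 : ℝ)
    simp only [sum_const, nsmul_eq_mul, mul_one] at e1 e2
    have e3 : ∑ W ∈ bp j 1 L, ((fib Ω L W).card : ℝ) ≤
        ∑ W ∈ bp j 1 L, (((fib Ω' L W).card : ℝ) + Real.exp (-μ) * L / 2) := sum_le_sum fun W _ => by
      rw [fb']
      split_ifs with h
      · have : 0 ≤ Real.exp (-μ) * L / 2 := by positivity
        linarith
      · simp only [card_empty, Nat.cast_zero, zero_add]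
        exact (not_le.1 h).le
    rw [sum_add_distrib, sum_const, nsmul_eq_mul, cb, ← e1, ← e2] at e3
    have := S.den
    rw [pow_succ] at this ⊢
    linarith
  let I : Finset ℤ := Ico (-(L : ℤ)) (3 * L)
  let Mw : Pt j 1 → ℝ := fun W =>
    ∑ s ∈ I, (g (x0 + ss univ W + s) + 1) + (lam + 1) * ∑ s ∈ I, (1 : ℝ)
  let Dv : Pt j 1 → ℤ → ℝ := fun W t =>
    ∑ y ∈ fib Ω' L W, ∑ v ∈ rg L, Ph x0 B Υ F (fun z => g z - lam) W y v t
  have cΛ : (Fintype.card (Finset (Fin j) → Λ2) : ℝ) ≤ Real.exp (2 ^ j * μ) := by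
    rw [Fintype.card_fun, Fintype.card_finset, Fintype.card_fin, Nat.cast_pow]
    refine (pow_le_pow_left₀ (by positivity) S.c2 _).trans ?_
    rw [← Real.exp_nat_mul]; push_cast; rfl
  have ap : ∀ W, ∃ ξ : Fin (R + R) → ZMod Q, ∀ t : ℤ, |t| ≤ T →
      -((fib Ω' L W).card * Mw W) ≤ Dv W t - Dv W 0 ∧
      ((∀ i, nm (((t : ZMod Q) • ξ) i) ≤ Real.exp (-A)) →
        -((fib Ω' L W).card * Mw W / μ ^ 4) ≤ Dv W t - Dv W 0) := by
    intro W
    by_cases h : den W
    · have ea : fib Ω' L W = fib Ω L W := by rw [fb', if_pos h]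
      have d1 : Real.exp (-μ ^ 4) * L ≤ (fib Ω L W).card := by
        refine le_trans ?_ h
        have : Real.exp (-μ ^ 4) * 2 ≤ Real.exp (-μ) := by
          have b := Real.add_one_le_exp (1 : ℝ)
          refine (mul_le_mul_of_nonneg_left (by linarith : (2 : ℝ) ≤ Real.exp 1)
            (Real.exp_pos _).le).trans ?_
          rw [← Real.exp_add, Real.exp_le_exp]
          nlinarith
        nlinarith
      have ne : (fib Ω L W).Nonempty := by
        rw [← card_pos]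
        exact_mod_cast (lt_of_lt_of_le (by positivity) d1 : (0 : ℝ) < _)
      have sa : fib Ω L W ⊆ rg L := filter_subset _ _
      have W0 := fun w => hW (Finset (Fin j) → Λ2) (fib Ω L W)
        (fun u => (rg L).filter fun v => F (B W v) u) (lb Υ W) w
        (cΛ.trans (Real.exp_le_exp.2 (by nlinarith))) sa d1 fun u => filter_subset _ _
      obtain ⟨ξ1, h1⟩ := W0 (fun s => g (x0 + ss univ W + s) + 1) fun s => ⟨by linarith [(g0 (x0 + ss univ W + s)).1], by
        have b := (g0 (x0 + ss univ W + s)).2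
        have b1 : 1 ≤ Real.exp ((2 ^ j + 2) * μ) := Real.one_le_exp (by positivity)
        have b2 : Real.exp ((2 ^ j + 2) * μ) * Real.exp 1 ≤ Real.exp (μ ^ 4) := by
          rw [← Real.exp_add, Real.exp_le_exp]; nlinarith
        nlinarith [Real.add_one_le_exp (1 : ℝ)]⟩
      obtain ⟨ξ2, h2⟩ := W0 (fun _ => 1) fun s => ⟨le_rfl, Real.one_le_exp (by positivity)⟩
      refine ⟨Fin.append ξ1 ξ2, fun t ht => ?_⟩
      have ht' : |t| ≤ L := ht.trans (by exact_mod_cast t2)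
      obtain ⟨k1, k2⟩ := two I (fun s => g (x0 + ss univ W + s))
        (fun s => kk (fib Ω L W) ((rg L).filter fun v => F (B W v) (lb Υ W s)) (s - 0))
        (fun s => kk (fib Ω L W) ((rg L).filter fun v => F (B W v) (lb Υ W s)) (s - t))
        (lam := lam) (by linarith) (fun s => (g0 _).1) (fun s => kk01 _ _ _) fun s => kk01 _ _ _
      simp only [Dv, ea]
      rw [conv x0 B Υ F _ W sa ne ht', conv x0 B Υ F _ W sa ne (t := 0) (by simp), ← mul_sub,
        mul_div_assoc, ← mul_neg, ← mul_neg]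
      refine ⟨mul_le_mul_of_nonneg_left k1 (by positivity), fun hb =>
        mul_le_mul_of_nonneg_left (k2 _ ?_ ?_) (by positivity)⟩
      · simp only [sub_zero]
        refine h1 t ht fun i => le_trans ?_ (Real.exp_le_exp.2 (neg_le_neg a1) |>.trans' (hb (Fin.castAdd R i)))
        rw [Pi.smul_apply, Fin.append_left, smul_eq_mul]
      · simp only [sub_zero]
        refine h2 t ht fun i => le_trans ?_ (Real.exp_le_exp.2 (neg_le_neg a1) |>.trans' (hb (Fin.natAdd R i)))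
        rw [Pi.smul_apply, Fin.append_right, smul_eq_mul]
    · refine ⟨0, fun t _ => ?_⟩
      simp [Dv, fb', h]
  choose ξ hξ using ap
  have ρ0 := Real.exp_pos (-(3 * A))
  have ms : ∀ W, ∃ x ∈ rg T, Real.exp (-(1 + 10 * A ^ 2)) ≤
      𝔼 s ∈ rg T, lap (Real.exp (-(3 * A))) (((s - x : ℤ) : ZMod Q) • ξ W) := fun W => by
    refine exists_le_of_le_expect (LapG.rne t1) ?_
    have k := LapG.mass (ξ W) t1 m1' ρ0 m2
    have k0 : 0 ≤ 𝔼 z ∈ rg T, 𝔼 s ∈ rg T,
        lap (Real.exp (-(3 * A))) (((s - z : ℤ) : ZMod Q) • ξ W) :=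
      expect_nonneg fun _ _ => expect_nonneg fun _ _ => (Real.exp_pos _).le
    refine le_of_mul_le_mul_left ?_ (Real.exp_pos (10 * A ^ 2))
    rw [← Real.exp_add, show 10 * A ^ 2 + -(1 + 10 * A ^ 2) = -1 by ring]
    exact k.trans (mul_le_mul_of_nonneg_right m3 k0)
  choose x hx hZ using ms
  let l : Pt j 1 → ℤ → ℝ := fun W s => lap (Real.exp (-(3 * A))) (((s - x W : ℤ) : ZMod Q) • ξ W)
  let Z : Pt j 1 → ℝ := fun W => 𝔼 s ∈ rg T, l W s
  have Z0 : ∀ W, 0 < Z W := fun W => lt_of_lt_of_le (Real.exp_pos _) (hZ W)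
  have l0 : ∀ W s, 0 ≤ l W s := fun W s => (Real.exp_pos _).le
  have lZ : ∀ W, ∑ s ∈ rg T, l W s = T * Z W := fun W => by
    simp only [Z]
    rw [expect_eq_sum_div_card, Win.c1, mul_div_cancel₀ _ T0.ne']
  let w : Pt j 1 → ℤ → ℝ := fun W s => l W s / (T * Z W)
  have w1 : ∀ W, ∑ s ∈ rg T, w W s = 1 := fun W => by
    simp only [w]
    rw [← sum_div, lZ, div_self (mul_pos T0 (Z0 W)).ne']
  let w' : Pt j 1 → ℤ → ℝ := fun W s => if s = x W then 1 else 0
  have M1 := mot x0 B Υ F hM S.tc sub' t2 w x hx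
    (fun W s => div_nonneg (l0 W s) (mul_pos T0 (Z0 W)).le) fun W => (w1 W).le
  have M0 := mot x0 B Υ F hM S.tc sub' t2 w' x hx (fun W s => by
    simp only [w']; split_ifs <;> norm_num) fun W => by
      simp only [w']; rw [sum_ite_eq', if_pos (hx W)]
  have e0 : ∀ (p : Pt j 1 × ℤ) (G : ℤ → ℝ), ∑ s ∈ rg T, w' p.1 s * G (s - x p.1) = G 0 :=
    fun p G => by
      simp only [w', ite_mul, one_mul, zero_mul]
      rw [sum_ite_eq', if_pos (hx _), sub_self]
  have ePh : ∀ W y v t, Ph x0 B Υ F (fun z => f z - g z) W y v t =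
      Ph x0 B Υ F (fun z => f z - lam) W y v t - Ph x0 B Υ F (fun z => g z - lam) W y v t :=
    fun W y v t => by unfold Ph; split_ifs <;> ring
  rw [sum_congr rfl fun p _ => e0 p fun t => ∑ v ∈ rg L,
    Ph x0 B Υ F (fun z => f z - g z) p.1 p.2 v t] at M0
  simp only [ePh, sum_sub_distrib, mul_sub] at M0 M1
  have fin := num (n := Ω'.card) (P := (L : ℝ) ^ (j + 2))
    (ε := Real.exp (-((2 ^ j + 2) * μ)) * (L : ℝ) ^ (j + 2))
    (Mw := ∑ W ∈ bp j 1 L, (fib Ω' L W).card * Mw W) hμ rfl (by positivity) L0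
    (by
      have : (L : ℝ) ^ (j + 1) ≤ 2 * Real.exp μ * Ω'.card := by
        have b := mul_le_mul_of_nonneg_left n1 (Real.exp_pos μ).le
        rw [mul_div_assoc, ← mul_assoc, ← Real.exp_add, add_neg_cancel, Real.exp_zero] at b
        linarith
      rw [pow_succ]
      exact mul_le_mul_of_nonneg_right this L0.le)
    (by
      have b : Real.exp (2 ^ j * μ) * (Real.exp (-((2 ^ j + 2) * μ)) * Real.exp (2 * μ)) = 1 := by
        rw [← Real.exp_add, ← Real.exp_add, ← Real.exp_zero]; congr 1; ring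
      have b1 := mul_le_mul_of_nonneg_right cΛ (show 0 ≤ Real.exp (-((2 ^ j + 2) * μ)) *
        Real.exp (2 * μ) * (L : ℝ) ^ (j + 2) by positivity)
      rw [← mul_assoc (Real.exp _), b, one_mul] at b1
      linarith)
    (le_mul_of_one_le_left (by positivity) (by
      have : Nonempty (Finset (Fin j) → Λ2) := ⟨fun S => Υ S 0⟩
      exact_mod_cast Fintype.card_pos))
    (by
      rw [mul_div_assoc, ← nsmul_eq_mul]
      refine card_nsmul_le_sum _ _ _ fun p hp => ?_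
      have k := S.ex p (mem_filter.1 hp).1
      rw [expect_eq_sum_div_card, Win.c1, le_div_iff₀ L0] at k
      refine le_trans (le_of_eq (by ring)) (k.trans (le_of_eq (sum_congr rfl fun v _ => ?_)))
      simp only [Ph, add_zero, add_assoc])
    M0 (by
      rw [sum_fib sub' fun W y => ∑ v ∈ rg L, Ph x0 B Υ F (fun z => g z - lam) W y v 0,
        sum_fib sub' fun W y => ∑ s ∈ rg T, w W s * ∑ v ∈ rg L,
          Ph x0 B Υ F (fun z => g z - lam) W y v (s - x W), mul_sum, sum_div, ← sum_sub_distrib]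
      refine sum_le_sum fun W _ => ?_
      have M : 0 ≤ (fib Ω' L W).card * Mw W := by
        refine mul_nonneg (by positivity) (add_nonneg (sum_nonneg fun s _ => ?_) ?_)
        · linarith [(g0 (x0 + ss univ W + s)).1]
        · exact mul_nonneg (by linarith) (sum_nonneg fun _ _ => zero_le_one)
      have tb : ∀ s ∈ rg T, |s - x W| ≤ (T : ℤ) := fun s hs => by
        have b1 := mem_Ico.1 hs
        have b2 := mem_Ico.1 (hx W)
        exact abs_le.2 ⟨by omega, by omega⟩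
      have k := avg t1 (l W) (fun s => Dv W (s - x W) - Dv W 0)
        (fun s => ∀ i, nm ((((s - x W : ℤ) : ZMod Q) • ξ W) i) ≤ Real.exp (-A)) (Z0 W) M
        (Y := μ ^ 4) (by positivity) (Real.exp_pos _).le (l0 W) (lZ W)
        (fun s hs => (hξ W _ (tb s hs)).2) (fun s hs => (hξ W _ (tb s hs)).1)
        (fun s _ h => LapG.tail ρ0 h) (le_trans (mul_le_mul_of_nonneg_left (by
          rw [show 4 * A = (4 : ℕ) * A by norm_num, Real.exp_nat_mul]
          exact pow_le_pow_left₀ (by linarith) (by linarith [Real.add_one_le_exp A]) 4)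
          (Real.exp_pos _).le) (m4.trans (hZ W)))
      simp only [mul_sub, sum_sub_distrib] at k
      rw [← sum_mul, w1 W, one_mul] at k
      have e : ∑ y ∈ fib Ω' L W, ∑ s ∈ rg T, w W s * ∑ v ∈ rg L,
          Ph x0 B Υ F (fun z => g z - lam) W y v (s - x W) =
          ∑ s ∈ rg T, l W s / (T * Z W) * Dv W (s - x W) := by
        rw [sum_comm]
        exact sum_congr rfl fun s _ => (mul_sum _ _ _).symm
      rw [e]
      exact sub_le_iff_le_add.2 (neg_le_sub_iff_le_add.1 k))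
    M1 (by
      have k := massg x0 L1 f0 (fun z => (g0 z).1) hm hM sub'
      have cI : ∑ s ∈ I, (1 : ℝ) = 4 * L := by
        simp only [I, sum_const, Int.card_Ico, nsmul_eq_mul, mul_one]
        rw [show (3 * (L : ℤ) - -L).toNat = 4 * L by omega]; push_cast; rfl
      have e := sum_fib sub' fun W _ => Mw W
      simp only [sum_const, nsmul_eq_mul] at e
      rw [← e]
      simp only [Mw, sum_add_distrib, cI, sum_const, nsmul_eq_mul]
      have b : 0 ≤ (Ω'.card : ℝ) * L := by positivity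
      nlinarith [mul_le_mul_of_nonneg_left lμ b, mul_le_mul_of_nonneg_left m1 b])
  have eC : 16 ≤ Real.exp (μ ^ C) := by nlinarith [Real.add_one_le_exp (μ ^ C)]
  refine ⟨T, Q, R + R, inferInstance, Real.exp (-(3 * A)), Ω', ξ,
    fun W => (-(x W : ZMod Q)) • ξ W, x, by nlinarith, Real.exp_le_exp.2 (by nlinarith),
    Real.exp_le_one_iff.2 (by linarith), t1, t2,
    t3.trans (mul_le_mul_of_nonneg_left (Real.exp_le_exp.2 (by nlinarith)) T0.le), by omega, ?_,
    sub', ?_, hx, fun W => ?_, ?_⟩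
  · have : (Q : ℝ) ≤ 16 * L := by exact_mod_cast (by omega : Q ≤ 16 * L)
    nlinarith
  · refine le_trans ?_ n1
    have : Real.exp (-μ ^ C) * 2 ≤ Real.exp (-μ) := by
      have b := Real.add_one_le_exp (1 : ℝ)
      refine (mul_le_mul_of_nonneg_left (by linarith : (2 : ℝ) ≤ Real.exp 1)
        (Real.exp_pos _).le).trans ?_
      rw [← Real.exp_add, Real.exp_le_exp]
      nlinarith
    have b : (0 : ℝ) ≤ (L : ℝ) ^ (j + 1) := by positivity
    nlinarith
  · simp only [LapG.wt]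
    exact le_trans (Real.exp_le_exp.2 (by nlinarith)) (hZ W)
  · simp only [LapG.wt]
    refine le_of_mul_le_mul_right ?_ L0
    rw [div_mul_eq_mul_div, sum_mul]
    refine fin.trans (le_of_eq (sum_congr rfl fun p _ => ?_))
    rw [expect_eq_sum_div_card, Win.c1, div_mul_cancel₀ _ L0.ne']
    simp only [mul_sum]
    rw [sum_comm]
    refine sum_congr rfl fun v _ => ?_
    rw [expect_eq_sum_div_card, Win.c1, div_div, sum_div]
    refine sum_congr rfl fun s _ => ?_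
    simp only [w, Ph]
    rw [show p.2 + v + (s - x p.1) = p.2 + v - x p.1 + s by ring, div_mul_eq_mul_div]

end

end Vale.Agent.P057H.H60
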