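import Vale.Agent.P057H.Defs
import Vale.Agent.P057H.LapG

/-! Smoothing, second proof: identities and the use of a model. -/

set_option linter.all false

open Finset
open scoped BigOperators Classical

namespace Vale.Agent.P057H.H60

open Vale.Agent.P057Z Vale.Agent.P057L

noncomputable section

variable {j : ℕ} {Λ1 Λ2 : Type}

theorem shift (L : ℕ) (I : Finset ℤ) (c : ℤ) (ψ : ℤ → ℝ) (h : ∀ v ∈ rg L, v + c ∈ I) :
    ∑ s ∈ I, (if s - c ∈ rg L then ψ s else 0) = ∑ v ∈ rg L, ψ (v + c) := by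
  rw [← sum_filter]
  symm
  refine sum_nbij' (fun v => v + c) (fun s => s - c) (fun v hv => ?_) (fun s hs => ?_)
    (fun v _ => add_sub_cancel_right v c) (fun s _ => sub_add_cancel s c) fun _ _ => rfl
  · exact mem_filter.2 ⟨h v hv, by rwa [add_sub_cancel_right]⟩
  · exact (mem_filter.1 hs).2

/-- the summand -/
def Ph (x0 : ℤ) (B : Pt j 1 → ℤ → Λ1) (Υ : Finset (Fin j) → ℤ → Λ2)
    (F : Λ1 → (Finset (Fin j) → Λ2) → Prop) (h : ℤ → ℝ) (W : Pt j 1) (y v t : ℤ) : ℝ :=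
  if F (B W v) (lb Υ W (y + v + t)) then h (x0 + ss univ W + (y + v + t)) else 0

/-- the fibre -/
def fib (Ω : Finset (Pt j 1 × ℤ)) (L : ℕ) (W : Pt j 1) : Finset ℤ :=
  (rg L).filter fun y => (W, y) ∈ Ω

theorem sum_ite (Ω : Finset (Pt j 1 × ℤ)) (X : Finset (Pt j 1)) (I : Finset ℤ) (h : Ω ⊆ X ×ˢ I)
    (G : Pt j 1 → ℤ → ℝ) :
    ∑ W ∈ X, ∑ y ∈ I, (if (W, y) ∈ Ω then G W y else 0) = ∑ p ∈ Ω, G p.1 p.2 := by
  rw [← sum_product' (f := fun W y => if (W, y) ∈ Ω then G W y else 0), ← sum_filter]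
  refine sum_congr ?_ fun _ _ => rfl
  ext p
  exact ⟨fun k => (mem_filter.1 k).2, fun k => mem_filter.2 ⟨h k, k⟩⟩

theorem sum_fib {Ω : Finset (Pt j 1 × ℤ)} {L : ℕ} (h : Ω ⊆ bp j 1 L ×ˢ rg L)
    (G : Pt j 1 → ℤ → ℝ) : ∑ p ∈ Ω, G p.1 p.2 = ∑ W ∈ bp j 1 L, ∑ y ∈ fib Ω L W, G W y := by
  rw [← sum_ite Ω _ _ h]
  exact sum_congr rfl fun W _ => (sum_filter _ _).symm

theorem rg_sy {L : ℕ} : rg L ⊆ sy (4 * L) := fun v hv => by
  have := mem_Ico.1 hv
  exact mem_Ioo.2 ⟨by push_cast; omega, by push_cast; omega⟩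

variable (x0 : ℤ) (B : Pt j 1 → ℤ → Λ1) (Υ : Finset (Fin j) → ℤ → Λ2)
  (F : Λ1 → (Finset (Fin j) → Λ2) → Prop)

theorem lab_ind (tc : Tc Υ) (W : Pt j 1) (y v : ℤ) (u : Finset (Fin j) → Λ2) :
    (if u univ = Υ univ 0 then (1 : ℝ) else 0) *
      ∏ S ∈ (univ : Finset (Finset (Fin j))).erase univ,
        (if Υ S (ss S W + y + v) = u S then (1 : ℝ) else 0) =
      if u = lb Υ W (y + v) then 1 else 0 := by
  by_cases h : u = lb Υ W (y + v)
  · rw [if_pos h, if_pos (by rw [h]; exact tc _ _), one_mul]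
    exact prod_eq_one fun S _ => if_pos (by rw [h, add_assoc]; rfl)
  · rw [if_neg h]
    by_cases k : u univ = Υ univ 0
    · obtain ⟨S, hS⟩ := Function.ne_iff.1 h
      have n : S ≠ univ := by
        rintro rfl
        exact hS (k.trans (tc _ _))
      rw [prod_eq_zero (mem_erase.2 ⟨n, mem_univ S⟩), mul_zero]
      exact if_neg fun e => hS (by rw [← e, add_assoc]; rfl)
    · rw [if_neg k, zero_mul]

/-- a smoothed state is a sum of tests -/
theorem mot [Fintype Λ2] {L T : ℕ} {f g : ℤ → ℝ} {ε : ℝ} (hM : Mo j L f g x0 ε) (tc : Tc Υ)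
    {Ω : Finset (Pt j 1 × ℤ)} (hΩ : Ω ⊆ bp j 1 L ×ˢ rg L) (hT : T ≤ L) (w : Pt j 1 → ℤ → ℝ)
    (x : Pt j 1 → ℤ) (hx : ∀ W, x W ∈ rg T) (w0 : ∀ W s, 0 ≤ w W s)
    (w1 : ∀ W, ∑ s ∈ rg T, w W s ≤ 1) :
    |∑ p ∈ Ω, ∑ s ∈ rg T, w p.1 s * ∑ v ∈ rg L,
      Ph x0 B Υ F (fun z => f z - g z) p.1 p.2 v (s - x p.1)| ≤
      Fintype.card (Finset (Fin j) → Λ2) * (ε * (L : ℝ) ^ (j + 2)) := by
  let a : (Finset (Fin j) → Λ2) → Pt j 1 → ℤ → ℝ := fun u W y =>
    (if (W, y) ∈ Ω then 1 else 0) * if u univ = Υ univ 0 then 1 else 0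
  let b : (Finset (Fin j) → Λ2) → Pt j 1 → ℤ → ℝ := fun u W v => ∑ s ∈ rg T, w W s *
    if v - (s - x W) ∈ rg L ∧ F (B W (v - (s - x W))) u then 1 else 0
  let H : (Finset (Fin j) → Λ2) → Finset (Fin j) → ℤ → ℝ := fun u S z =>
    if Υ S z = u S then 1 else 0
  have hb : ∀ u W v, |b u W v| ≤ 1 := fun u W v => by
    rw [abs_of_nonneg (sum_nonneg fun s _ => mul_nonneg (w0 W s) (by split_ifs <;> norm_num))]
    refine le_trans (sum_le_sum fun s _ => ?_) (w1 W)
    split_ifs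
    · rw [mul_one]
    · rw [mul_zero]; exact w0 W s
  have k := fun u => hM (a u) (b u) (H u)
    (fun W y => by simp only [a]; split_ifs <;> norm_num) (hb u)
    (fun S z => by simp only [H]; split_ifs <;> norm_num)
  refine le_trans (le_of_eq ?_) ((abs_sum_le_sum_abs _ univ).trans
    ((sum_le_sum fun u _ => k u).trans (by rw [sum_const, card_univ, nsmul_eq_mul])))
  congr 1
  rw [← sum_ite Ω _ (sy (4 * L)) (hΩ.trans (product_subset_product_right rg_sy))
    (fun W y => ∑ s ∈ rg T, w W s * ∑ v ∈ rg L,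
      Ph x0 B Υ F (fun z => f z - g z) W y v (s - x W)), sum_comm (s := univ)]
  refine sum_congr rfl fun W _ => ?_
  rw [sum_comm (s := univ)]
  refine sum_congr rfl fun y _ => ?_
  rw [sum_comm (s := univ)]
  have e : ∀ v, ∑ u, a u W y * b u W v *
      (∏ S ∈ (univ : Finset (Finset (Fin j))).erase univ, H u S (ss S W + y + v)) *
      (f (x0 + ss univ W + y + v) - g (x0 + ss univ W + y + v)) =
      (if (W, y) ∈ Ω then 1 else 0) * b (lb Υ W (y + v)) W v *
        (f (x0 + ss univ W + y + v) - g (x0 + ss univ W + y + v)) := fun v => by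
    rw [← sum_mul]
    congr 1
    rw [sum_congr rfl (g := fun u => if u = lb Υ W (y + v) then
      (if (W, y) ∈ Ω then 1 else 0) * b u W v else 0) fun u _ => ?_, sum_ite_eq' univ,
      if_pos (mem_univ _)]
    have := lab_ind Υ tc W y v u
    simp only [a, H]
    rw [mul_assoc, mul_assoc, mul_left_comm (if u univ = Υ univ 0 then (1 : ℝ) else 0), this]
    split_ifs <;> ring
  simp only [e]
  split_ifs with hp
  · simp only [one_mul, b, sum_mul]
    rw [sum_comm]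
    refine sum_congr rfl fun s hs => ?_
    have h1 := mem_Ico.1 hs
    have h2 := mem_Ico.1 (hx W)
    rw [← shift L (sy (4 * L)) (s - x W) (fun v => if F (B W (v - (s - x W))) (lb Υ W (y + v))
      then f (x0 + ss univ W + y + v) - g (x0 + ss univ W + y + v) else 0) (fun v hv => by
        have := mem_Ico.1 hv
        exact mem_Ioo.2 ⟨by push_cast; omega, by push_cast; omega⟩) |>.trans
        (sum_congr rfl fun v _ => by simp only [Ph, add_sub_cancel_right, add_assoc]), mul_sum]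
    refine sum_congr rfl fun v _ => ?_
    by_cases c1 : v - (s - x W) ∈ rg L <;>
      by_cases c2 : F (B W (v - (s - x W))) (lb Υ W (y + v)) <;> simp [c1, c2]
  · simp

/-- the sum over a fibre as a convolution -/
theorem conv {L : ℕ} (h : ℤ → ℝ) (W : Pt j 1) {a : Finset ℤ} (ha : a ⊆ rg L) (h0 : a.Nonempty)
    {t : ℤ} (ht : |t| ≤ L) :
    ∑ y ∈ a, ∑ v ∈ rg L, Ph x0 B Υ F h W y v t = a.card * ∑ s ∈ Ico (-(L : ℤ)) (3 * L),
      h (x0 + ss univ W + s) * kk a ((rg L).filter fun v => F (B W v) (lb Υ W s)) (s - t) := by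
  have c : (a.card : ℝ) ≠ 0 := by exact_mod_cast h0.card_pos.ne'
  have ht' := abs_le.1 ht
  rw [mul_sum]
  have e : ∀ s, a.card * (h (x0 + ss univ W + s) *
      kk a ((rg L).filter fun v => F (B W v) (lb Υ W s)) (s - t)) =
      ∑ y ∈ a, if s - (t + y) ∈ rg L then
        (if F (B W (s - (t + y))) (lb Υ W s) then h (x0 + ss univ W + s) else 0) else 0 := by
    intro s
    unfold kk
    rw [mul_left_comm, mul_div_cancel₀ _ c, card_filter, Nat.cast_sum, mul_sum]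
    refine sum_congr rfl fun y _ => ?_
    rw [sub_sub]
    by_cases c1 : s - (t + y) ∈ rg L <;>
      by_cases c2 : F (B W (s - (t + y))) (lb Υ W s) <;> simp [c1, c2]
  simp only [e]
  rw [sum_comm (s := Ico _ _)]
  refine sum_congr rfl fun y hy => ?_
  have hy' := mem_Ico.1 (ha hy)
  rw [shift L _ (t + y) _ fun v hv => by
    have := mem_Ico.1 hv
    exact mem_Ico.2 ⟨by omega, by omega⟩]
  refine sum_congr rfl fun v _ => ?_
  simp only [Ph, add_sub_cancel_right]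
  rw [show y + v + t = v + (t + y) by ring]

theorem kk01 (a S : Finset ℤ) (s : ℤ) : 0 ≤ kk a S s ∧ kk a S s ≤ 1 :=
  ⟨by unfold kk; positivity, div_le_one_of_le₀ (by exact_mod_cast card_filter_le _ _)
    (by positivity)⟩

theorem win8 {L : ℕ} (hL : 1 ≤ L) {f : ℤ → ℝ} {lam : ℝ} (f0 : ∀ x, 0 ≤ f x)
    (h : ∀ x : ℤ, 𝔼 v ∈ rg L, f (x + v) ≤ lam) (c : ℤ) :
    ∑ v ∈ sy (4 * L), f (c + v) ≤ 8 * L * lam := by
  have hL' : (0 : ℝ) < L := by exact_mod_cast hL
  have h1 : ∀ x : ℤ, ∑ v ∈ rg L, f (x + v) ≤ L * lam := fun x => by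
    have := h x
    rwa [expect_eq_sum_div_card, Win.c1, div_le_iff₀ hL', mul_comm] at this
  have h2 : ∀ (n : ℕ) (x : ℤ), ∑ v ∈ rg (n * L), f (x + v) ≤ n * L * lam := by
    intro n
    induction n with
    | zero => intro x; simp [rg]
    | succ n ih =>
      intro x
      have e : rg ((n + 1) * L) = rg (n * L) ∪ (rg L).map (addRightEmbedding ((n * L : ℕ) : ℤ)) := by
        unfold rg
        rw [map_add_right_Ico, zero_add, Ico_union_Ico_eq_Ico (by positivity) (by omega)]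
        congr 1; push_cast; ring
      rw [e, sum_union (by
        unfold rg
        rw [map_add_right_Ico, zero_add]
        exact Ico_disjoint_Ico_consecutive _ _ _), sum_map]
      have := h1 (x + ((n * L : ℕ) : ℤ))
      have e2 : ∑ v ∈ rg L, f (x + addRightEmbedding ((n * L : ℕ) : ℤ) v) =
          ∑ v ∈ rg L, f (x + ((n * L : ℕ) : ℤ) + v) := sum_congr rfl fun v _ => by
        rw [addRightEmbedding_apply]; congr 1; ring
      rw [e2]
      have := ih x
      push_cast at *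
      linarith
  have h3 : ∑ v ∈ rg (8 * L), f (c - 4 * L + v) ≤ 8 * L * lam := by
    have := h2 8 (c - 4 * L)
    rwa [Nat.cast_ofNat] at this
  refine le_trans ?_ h3
  rw [← shift (8 * L) (Ico (-(4 * L : ℤ)) (4 * L)) (-(4 * L)) (fun v => f (c + v)) (fun v hv => by
      have := mem_Ico.1 hv
      push_cast at this
      exact mem_Ico.2 ⟨by omega, by omega⟩) |>.trans
      (sum_congr rfl fun v _ => by congr 1; ring)]
  refine le_trans (sum_le_sum_of_subset_of_nonneg (t := Ico (-(4 * L : ℤ)) (4 * L))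
    (fun v hv => ?_) fun _ _ _ => f0 _) (le_of_eq (sum_congr rfl fun v hv => (if_pos ?_).symm))
  · have := mem_Ioo.1 hv
    push_cast at this
    exact mem_Ico.2 ⟨by omega, by omega⟩
  · have := mem_Ico.1 hv
    exact mem_Ico.2 ⟨by omega, by push_cast; omega⟩

/-- the mass of the model -/
theorem massg {L : ℕ} (hL : 1 ≤ L) {f g : ℤ → ℝ} {lam ε : ℝ} (f0 : ∀ x, 0 ≤ f x)
    (g0 : ∀ x, 0 ≤ g x) (h : ∀ x : ℤ, 𝔼 v ∈ rg L, f (x + v) ≤ lam) (hM : Mo j L f g x0 ε)
    {Ω : Finset (Pt j 1 × ℤ)} (hΩ : Ω ⊆ bp j 1 L ×ˢ rg L) :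
    ∑ p ∈ Ω, ∑ s ∈ Ico (-(L : ℤ)) (3 * L), g (x0 + ss univ p.1 + s) ≤
      Ω.card * (8 * L * lam) + ε * (L : ℝ) ^ (j + 2) := by
  have k := hM (fun W y => if (W, y) ∈ Ω then 1 else 0) (fun _ _ => 1) (fun _ _ => 1)
    (fun W y => by split_ifs <;> norm_num) (fun _ _ => by norm_num) (fun _ _ => by norm_num)
  simp only [prod_const_one, mul_one, ite_mul, one_mul, zero_mul, sum_ite_irrel,
    sum_const_zero] at k
  rw [sum_ite Ω _ (sy (4 * L)) (hΩ.trans (product_subset_product_right rg_sy))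
    (fun W y => ∑ v ∈ sy (4 * L), (f (x0 + ss univ W + y + v) - g (x0 + ss univ W + y + v)))] at k
  simp only [sum_sub_distrib] at k
  have k1 : ∑ p ∈ Ω, ∑ v ∈ sy (4 * L), f (x0 + ss univ p.1 + p.2 + v) ≤
      Ω.card * (8 * L * lam) := by
    rw [← nsmul_eq_mul]
    exact sum_le_card_nsmul _ _ _ fun p _ => win8 hL f0 h _
  have k2 : ∑ p ∈ Ω, ∑ s ∈ Ico (-(L : ℤ)) (3 * L), g (x0 + ss univ p.1 + s) ≤
      ∑ p ∈ Ω, ∑ v ∈ sy (4 * L), g (x0 + ss univ p.1 + p.2 + v) := sum_le_sum fun p hp => by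
    have hy := mem_Ico.1 (mem_product.1 (hΩ hp)).2
    refine le_trans (le_of_eq ?_) (sum_le_sum_of_subset_of_nonneg
      (s := (Ico (-(L : ℤ)) (3 * L)).map (addRightEmbedding (-p.2))) (fun v hv => ?_)
      fun _ _ _ => g0 _)
    · rw [sum_map]
      exact sum_congr rfl fun v _ => by rw [addRightEmbedding_apply]; congr 1; ring
    · rw [map_add_right_Ico] at hv
      have := mem_Ico.1 hv
      exact mem_Ioo.2 ⟨by push_cast; omega, by push_cast; omega⟩
  linarith [(abs_le.1 k).1]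

end

end Vale.Agent.P057H.H60
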