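import Vale.Agent.P057H.Defs
import Vale.Agent.P057L.Step
import Vale.Agent.P057L.Win
import Vale.Agent.P057Z.Ke.Sm

/-! The step. -/

set_option linter.all false

open Finset
open scoped BigOperators Classical

namespace Vale.Agent.P057H.S48

open Vale.Agent.P057Z Vale.Agent.P057L

theorem ss_lc {j : ℕ} (S : Finset (Fin j)) (W1 w : Pt j 1) (d : ℕ) :
    ss S (lc W1 d w) = ss S W1 + d * ss S w := by
  simp [ss, lc, sum_add_distrib, mul_sum]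

theorem rgne {T : ℕ} (hT : 1 ≤ T) : (rg T).Nonempty := ⟨0, by simp [rg]; omega⟩

theorem gg_mean {j n : ℕ} {Λ : Type} {f : ℤ → ℝ} {lam : ℝ} {z : ℤ} {Υ : Finset (Fin j) → ℤ → Λ}
    {F : (Finset (Fin j) → Λ) → Prop} (hf : ∀ x, 0 ≤ f x) (hl : 0 ≤ lam) (hn : 1 ≤ n)
    (W : Pt j 1) (o : ℤ) (D : ℕ) (h : 𝔼 v ∈ rg n, f (z + ss univ W + o + D * v) ≤ lam) :
    𝔼 v ∈ rg n, GG f lam z Υ F W (o + D * v) ≤ 2 * lam := by
  have : 𝔼 v ∈ rg n, GG f lam z Υ F W (o + D * v) ≤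
      𝔼 v ∈ rg n, (f (z + ss univ W + o + D * v) + lam) := expect_le_expect fun v _ => by
    unfold GG
    rw [← add_assoc]
    split_ifs
    · linarith
    · linarith [hf (z + ss univ W + o + D * v)]
  rw [expect_add_distrib, expect_const (rgne hn)] at this
  linarith

theorem num_u {Y μ c L T x : ℝ} {j : ℕ} (hY : 3 ≤ Y) (hμ : μ ≤ Y) (μ0 : 0 ≤ μ)
    (hj : (2 : ℝ) ^ j ≤ Y) (c0 : 0 ≤ c) (hc : c ≤ Real.exp μ) (T0 : 0 < T) (L0 : 0 ≤ L)
    (hT : L ≤ T * Real.exp Y) (h : x * T ≤ 4 * c ^ (2 ^ j) * Real.exp (-Y ^ 4) * L ^ (j + 1)) :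
    x ≤ Real.exp (-Y ^ 3) * L ^ (j * 1) := by
  refine le_of_mul_le_mul_right (h.trans ?_) T0
  have a1 : c ^ (2 ^ j) ≤ Real.exp (Y ^ 2) := by
    refine (pow_le_pow_left₀ c0 hc _).trans ?_
    rw [← Real.exp_nat_mul]
    refine Real.exp_le_exp.2 ?_
    push_cast
    nlinarith
  have a2 : (4 : ℝ) ≤ Real.exp Y := by linarith [Real.add_one_le_exp Y]
  calc _ ≤ Real.exp Y * Real.exp (Y ^ 2) * Real.exp (-Y ^ 4) * (L ^ j * (T * Real.exp Y)) := by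
        rw [pow_succ L]; gcongr
    _ = (Real.exp Y * Real.exp (Y ^ 2) * Real.exp (-Y ^ 4) * Real.exp Y) * L ^ (j * 1) * T := by
        rw [mul_one]; ring
    _ ≤ _ := by
        gcongr
        simp only [← Real.exp_add]
        refine Real.exp_le_exp.2 ?_
        nlinarith [mul_le_mul_of_nonneg_right hY (by positivity : 0 ≤ Y ^ 3),
          mul_le_mul_of_nonneg_right hY (by positivity : 0 ≤ Y ^ 2)]

theorem num_x {Y μ lam m : ℝ} (hμ : 16 ≤ μ) (hY : μ ^ 2 ≤ Y) (hl : lam ≤ μ) (hm : μ ^ 2 ≤ m) :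
    1 / m ≤ (1 - 2 * Real.exp (-Y)) * (lam + 1 / (8 * μ)) - lam := by
  have μ0 : 0 < μ := by linarith
  have a1 : 6 * Y ^ 2 + 3 ≤ Real.exp Y := Ke.num_exp (by nlinarith)
  have a0 : 256 ≤ Y := by nlinarith
  have a2 : 64 * μ ^ 2 ≤ Real.exp Y := by nlinarith
  have a3 : Real.exp (-Y) ≤ 1 / (64 * μ ^ 2) := by
    rw [Real.exp_neg, ← one_div]
    exact one_div_le_one_div_of_le (by positivity) a2
  have a4 : 1 / m ≤ 1 / (16 * μ) := one_div_le_one_div_of_le (by positivity) (by nlinarith)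
  have a5 : 1 / (8 * μ) ≤ μ := by
    rw [div_le_iff₀ (by positivity)]; nlinarith
  have a6 : Real.exp (-Y) * (lam + 1 / (8 * μ)) ≤ 1 / (64 * μ ^ 2) * (2 * μ) := by
    rcases le_total 0 (lam + 1 / (8 * μ)) with h | h
    · exact mul_le_mul a3 (by linarith) h (by positivity)
    · exact (mul_nonpos_of_nonneg_of_nonpos (Real.exp_pos _).le h).trans (by positivity)
  have a7 : 1 / (64 * μ ^ 2) * (2 * μ) = 1 / (16 * μ) / 2 := by field_simp; ring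
  have a8 : 1 / (8 * μ) = 2 * (1 / (16 * μ)) := by field_simp; ring
  nlinarith

theorem sm_mono {j Q r : ℕ} [Fact Q.Prime] {Y Y' : ℝ} {L T : ℕ} {ρ : ℝ} {f : ℤ → ℝ} {lam μ : ℝ}
    {x0 : ℤ} {Λ1 Λ2 : Type} {Ω : Finset (Pt j 1 × ℤ)} {B : Pt j 1 → ℤ → Λ1}
    {Υ : Finset (Fin j) → ℤ → Λ2} {F : Λ1 → (Finset (Fin j) → Λ2) → Prop}
    {ξ γ : Pt j 1 → Fin r → ZMod Q} {x : Pt j 1 → ℤ}
    (h : Sm1 Y L T ρ f lam μ x0 Ω B Υ F ξ γ x) (hY : Y ≤ Y') :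
    Sm1 Y' L T ρ f lam μ x0 Ω B Υ F ξ γ x :=
  ⟨h.hr.trans hY, (Real.exp_le_exp.2 (by linarith)).trans h.hρ, h.hρ1, h.hT, h.hTN,
    h.hNT.trans (by gcongr), h.hNQ, h.hQN.trans (by gcongr), h.sub,
    ex_mono h.den (by positivity) hY, h.hx,
    fun W => (Real.exp_le_exp.2 (by linarith)).trans (h.hZ W), h.ex⟩

theorem steph (hA : SMA) (hB : SMB) (hG : GFH) (hU : UNIF) (hD : DROPH) (hV : VEC)
    (hK : ∀ j, KH j 1) (hC : CSTH) : STEPH := by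
  intro j
  obtain ⟨C1, hA⟩ := hA j
  obtain ⟨C2, hB⟩ := hB j
  obtain ⟨C3, hD⟩ := hD j
  obtain ⟨C4, hV⟩ := hV j
  obtain ⟨C5, hK⟩ := hK j
  obtain ⟨C6, hC⟩ := hC j
  obtain ⟨a, ha⟩ : ∃ u, u = (C1 + 1) * C2 + 2 := ⟨_, rfl⟩
  obtain ⟨a4, ha4⟩ : ∃ u, u = a * 4 := ⟨_, rfl⟩
  obtain ⟨u1, hu1⟩ : ∃ u, u = a * C3 := ⟨_, rfl⟩
  obtain ⟨u2, hu2⟩ : ∃ u, u = a4 * C3 := ⟨_, rfl⟩
  obtain ⟨u3, hu3⟩ : ∃ u, u = (u2 + a) * C4 := ⟨_, rfl⟩
  obtain ⟨u4, hu4⟩ : ∃ u, u = (u3 + a) * C5 := ⟨_, rfl⟩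
  obtain ⟨u5, hu5⟩ : ∃ u, u = (u4 + u2 + a) * C6 := ⟨_, rfl⟩
  obtain ⟨J, hJ⟩ : ∃ u, u = 2 ^ j := ⟨_, rfl⟩
  obtain ⟨C, hC0⟩ : ∃ u, u = C1 + C2 + C3 + C4 + C5 + C6 + a + u1 + u4 + u5 + J + 16 := ⟨_, rfl⟩
  refine ⟨C, fun μ X lam L f hμ hX hL hf l1 l2 l3 hN hM hS => ?_⟩
  obtain ⟨x0, Λ1, Λ2, _, _, Ω, B, Υ, F, hS⟩ := hS
  have c : ∀ n : ℕ, n ≤ C → (n : ℝ) ≤ μ := fun n h => le_trans (by exact_mod_cast h) hμ
  have m16 : (16 : ℝ) ≤ μ := by exact_mod_cast c 16 (by omega)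
  have m1 : 1 ≤ μ := by linarith
  have m2 : 2 ≤ μ := by linarith
  have m0 : 0 ≤ μ := by linarith
  have l0 : 0 ≤ lam := by linarith
  have f0 : ∀ x, 0 ≤ f x := fun x => (hf x).1
  have hL' : μ ^ C ≤ Real.log L := le_trans (le_mul_of_one_le_right (by positivity) (by linarith)) hL
  have L1 : 1 ≤ L := one_le_of_log (by positivity) hL'
  have up : ∀ {x : ℝ} {n : ℕ}, 1 ≤ n → x ≤ μ → x ≤ μ ^ n := fun h hx => hx.trans (le_pw m1 h)
  have a2 : 2 ≤ a := by omega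
  have el : ∀ n, 1 ≤ n → 2 * μ ≤ Real.exp (μ ^ n) := fun n h => by
    have := Ke.num_exp (Y := μ) (by linarith)
    have := Real.exp_le_exp.2 (le_pw m1 h)
    nlinarith
  obtain ⟨T, Q, r, _, ρ, Ω', ξ, γ, x, h0⟩ := hA μ lam L f x0 Λ1 Λ2 Ω B Υ F (c _ (by omega))
    ((pw_le m1 (by omega)).trans hL') f0 l1 l2 (fun x => by
      simpa using hN x 1 L le_rfl ⟨L1, le_mul_of_one_le_left (Real.log_natCast_nonneg L)
        (one_le_pow₀ m1)⟩) hM hS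
  have gT : Lg L T (μ ^ C) := (lg_of_le L1 h0.hT m2 ((mul_pw_le m0 m2 C1).trans
    ((pw_le m1 (by omega)).trans hL')) h0.hNT).mono (le_pw m1 (by omega))
  obtain ⟨z, l, Ω1, h1⟩ := hB (μ ^ (C1 + 1)) μ lam L T Q r ρ f x0 Λ1 Λ2 Ω' B Υ F ξ γ x
    (up (by omega) (c _ (by omega))) m1 (le_pw m1 (by omega)) f0 l0 (up (by omega) l2)
    (hS.c1.trans (Real.exp_le_exp.2 (le_pw m1 (by omega))))
    (fun x => by simpa using hN x 1 T le_rfl gT) (sm_mono h0 (pw_le m1 (by omega)))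
  rw [← pow_mul] at h1
  have h1' := h1.mono (pw_le m1 (by omega : (C1 + 1) * C2 ≤ a))
  set Υ' : Finset (Fin j) → ℤ → Λ2 := fun S s => Υ S (z + s) with hΥ'
  have tc : Tc Υ' := fun s s' => hS.tc _ _
  have ma : μ ≤ μ ^ a := le_pw m1 (by omega)
  have ma4 : μ ^ a ≤ μ ^ a4 := pw_le m1 (by omega)
  obtain ⟨g, g1, g2⟩ := hM (μ ^ a4) (ma.trans ma4) (x0 + z)
  obtain ⟨G1, k1, k2⟩ := hG j Λ2 g lam _ (x0 + z) Υ' (F l) (Real.one_le_exp (by positivity)) g1 l0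
    (by linarith [el a4 (by omega)])
  have hJ' : (2 : ℝ) ^ j ≤ μ := by exact_mod_cast (hJ ▸ c J (by omega) : ((2 ^ j : ℕ) : ℝ) ≤ μ)
  have G0 : ∀ W s, 0 ≤ GG f lam (x0 + z) Υ' (F l) W s ∧
      GG f lam (x0 + z) Υ' (F l) W s ≤ Real.exp X := fun W s => by
    unfold GG
    split_ifs
    exacts [hf _, ⟨l0, l3⟩]
  have θ0 : 0 ≤ lam + 1 / (8 * μ) := by positivity
  have θ1 : lam + 1 / (8 * μ) ≤ 2 * μ := by
    have : 1 / (8 * μ) ≤ μ := by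
      rw [div_le_iff₀ (by positivity)]; nlinarith
    linarith
  obtain ⟨t, K0, b, Ψ, Ω2, h2, hpr⟩ := hD (μ ^ a) (μ ^ a4) 1 L T Q r ρ _ _ _ G1 ξ γ Ω1
    (up (by omega) (c _ (by omega))) ma4 (by simpa using one_le_pow₀ m1)
    (by rw [← pow_mul, ← hu1]; exact (pw_le m1 (by omega)).trans hL') (fun W s => (G0 W s).1)
    (fun W => by
      have := gg_mean (z := x0 + z) (Υ := Υ') (F := F l) f0 l0 h0.hT W 0 1 (hN _ 1 T le_rfl gT)
      simp only [zero_add, Nat.cast_one, one_mul] at this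
      linarith [el a (by omega)])
    θ0 (θ1.trans (el a (by omega)))
    (by
      rw [Fintype.card_fun, Fintype.card_finset, Fintype.card_fin]
      push_cast
      refine (pow_le_pow_left₀ (by positivity) hS.c2 _).trans ?_
      rw [← Real.exp_nat_mul]
      refine Real.exp_le_exp.2 (le_trans ?_ (pw_le m1 (by omega : 2 ≤ a4)))
      push_cast
      nlinarith)
    k1
    (fun i U u ψ hUs hu => by
      have := hU j L T Q Λ2 f g lam _ (x0 + z) Υ' (F l) i U u ψ h0.hT h0.hTN tc g2 hUs hu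
      simp only [k2] at this
      rw [ha4, pow_mul] at this
      exact num_u (by linarith) ma m0 (hJ'.trans ma) (by positivity) hS.c2
        (by exact_mod_cast h0.hT) (by positivity) h1'.hNT this) h1'
  rw [← pow_mul, ← hu2] at h2
  obtain ⟨E, hE, hED, hEM⟩ := hV (μ ^ (u2 + a)) 1 L Q (Fin t) _ Ω2 (up (by omega) (c _ (by omega)))
    le_rfl (by simpa using one_le_pow₀ m1) L1 (h2.hd.mono (pw_le m1 (by omega))) hpr
  rw [← pow_mul, ← hu3] at hED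
  have hNQ := h1.hNQ
  obtain ⟨W0, d, L2, Ω3, hd1, hdL, hL2, hΩ', hD', hk⟩ := hK (μ ^ (u3 + a)) 1 L Q (Fin t) _ E
    (up (by omega) (c _ (by omega))) le_rfl (by simpa using one_le_pow₀ m1)
    (by
      rw [Fintype.card_fin]
      exact le_trans (by exact_mod_cast h2.ht) (h1'.hr.trans (pw_le m1 (by omega))))
    (by rw [← pow_mul, ← hu4]; exact (pw_le m1 (by omega)).trans hL') (by omega)
    (hED.mono (pw_le m1 (by omega))) hEM
  rw [← pow_mul, ← hu4] at hL2 hD'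
  have ya : μ ^ a ≤ μ ^ (u4 + u2 + a) := pw_le m1 (by omega)
  have ea := Real.exp_le_exp.2 ya
  have lg : ∀ L' : ℕ, Lg L2 L' 2 → Lg L L' (μ ^ C) := fun L' h =>
    (hL2.trans h (by positivity)).mono ((mul_comm _ _).trans_le
      ((mul_pw_le m0 m2 u4).trans (pw_le m1 (by omega))))
  have e0 := Real.exp_pos (-μ ^ a)
  have e1 : 2 * Real.exp (-μ ^ a) ≤ 1 := by
    rw [Real.exp_neg, ← div_eq_mul_inv, div_le_one (Real.exp_pos _)]
    linarith [el a (by omega)]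
  obtain ⟨o, W1, d', L', Ω5, hd', hL5, hD5, h5⟩ := hC (μ ^ (u4 + u2 + a)) X 1 L T Q r t K0 d L2 ρ _
    _ ξ γ b Ψ Ω2 Ω3 W0 (up (by omega) (c _ (by omega))) hX (by simpa using one_le_pow₀ m1)
    (h1'.hr.trans ya)
    (by
      rw [← pow_mul, ← hu5]
      refine le_of_mul_le_mul_left (le_trans ?_ (hL.trans hL2.2)) (by positivity : 0 < μ ^ u4)
      rw [← mul_assoc, ← pow_add]
      exact mul_le_mul_of_nonneg_right (pw_le m1 (by omega)) (by linarith))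
    ((Real.exp_le_exp.2 (neg_le_neg ya)).trans h1'.hρ) h1.hT (h1'.hNT.trans (by gcongr)) G0
    (fun W o D L' hD1 h => (gg_mean f0 l0 h.1 W o D (hN _ D L' hD1 (lg L' h))).trans
      (by linarith [el a (by omega)]))
    (mul_nonneg (by linarith) θ0) (le_trans (by nlinarith) ((θ1.trans (el a (by omega))).trans ea))
    (h2.mono (pw_le m1 (by omega))) hd1 hdL
    (fun w hw => mem_pre.2 ⟨(mem_pre.1 (hΩ' hw)).1, hE (mem_pre.1 (hΩ' hw)).2⟩)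
    (hD'.mono (pw_le m1 (by omega))) (fun w hw a => by simpa using hk w hw a)
  rw [← pow_mul, ← hu5] at hD5
  refine ⟨x0 + z + ss univ W1 + o, d', L', hd', lg L' hL5, 0, Λ2, inferInstance, Ω5,
    fun S s => Υ S (z + (ss S W1 + o + d' * s)), F l,
    hS.c2.trans (Real.exp_le_exp.2 (le_pw m1 (by omega))), fun s s' => hS.tc _ _,
    hD5.mono (pw_le m1 (by omega)), fun w hw => ?_⟩
  refine (num_x m16 (pw_le m1 a2) l2 (pw_le m1 (by omega))).trans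
    ((sub_le_sub_right (h5 w hw) lam).trans (le_of_eq ?_))
  rw [← expect_const (rgne hL5.1) lam, ← expect_sub_distrib]
  refine expect_congr rfl fun v _ => ?_
  have e2 : lb Υ' (lc W1 d' w) (o + d' * v) =
      lb (fun S s => Υ S (z + (ss S W1 + o + d' * s))) w v := by
    funext S
    simp only [lb, hΥ', ss_lc]
    congr 1
    ring
  rw [expect_const (rgne hL5.1)]
  unfold GG pf
  rw [e2, ss_lc]
  split_ifs
  · congr 2
    ring
  · ring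

end Vale.Agent.P057H.S48
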