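import Vale.Agent.P057H.Defs

/-! Telescoping of the count of progressions. -/

set_option linter.all false

open Finset
open scoped BigOperators Classical

namespace Vale.Agent.P057H.H92

theorem tl : ∀ (n : ℕ) (a b : Fin n → ℝ), ∏ l, a l - ∏ l, b l =
    ∑ t, ∏ l, (if l < t then b l else if l = t then a l - b l else a l)
  | 0, a, b => by simp
  | n + 1, a, b => by
    have h := tl n (fun l => a l.succ) (fun l => b l.succ)
    simp only [Fin.prod_univ_succ, Fin.sum_univ_succ, Fin.not_lt_zero, if_false, if_true,
      Fin.succ_ne_zero, Fin.succ_pos, Fin.succ_lt_succ_iff, Fin.succ_inj, ← mul_sum, ← h]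
    ring

theorem tel (h : GVN) : TEL := by
  intro j M _ g g' B ε τ hM B1 τ0 hg hg' hN hε
  have B0 : 0 < B := by linarith
  have ε0 : 0 ≤ ε := (abs_nonneg _).trans
    (hN (fun _ _ => 0) (fun _ _ => 0) (fun _ _ => 0) (by simp) (by simp) (by simp))
  let u : Fin (j + 3) → Fin (j + 3) → ZMod M → ℝ := fun t l x =>
    (if l < t then g x else if l = t then g' x - g x else g' x) / B
  have k : ∀ t, |apc (j + 3) M (u t)| ≤ τ := fun t => by
    refine le_of_pow_le_pow_left₀ (n := 2 ^ j) (by positivity) τ0
      ((h j M (u t) t ε hM (fun l x => ?_) fun a b H ha hb hH => ?_).trans hε)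
    · rw [abs_div, abs_of_pos B0, div_le_one B0, abs_le]
      have := hg x
      have := hg' x
      split_ifs <;> constructor <;> linarith
    · have e := hN a b H ha hb hH
      simp only [u, lt_irrefl, if_false, if_true, ← mul_div_assoc, ← expect_div]
      rw [abs_div, abs_of_pos B0]
      exact (div_le_self (abs_nonneg _) B1).trans e
  have e : apc (j + 3) M (fun _ => g') - apc (j + 3) M (fun _ => g) =
      ∑ t, B ^ (j + 3) * apc (j + 3) M (u t) := by
    simp only [apc, ← expect_sub_distrib, tl, mul_expect, ← expect_sum_comm, u, prod_div_distrib,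
      prod_const, card_univ, Fintype.card_fin]
    refine expect_congr rfl fun x _ => expect_congr rfl fun d _ => sum_congr rfl fun t _ => ?_
    rw [mul_div_cancel₀ _ (by positivity)]
  rw [e]
  refine (abs_sum_le_sum_abs _ _).trans ((sum_le_card_nsmul _ _ (B ^ (j + 3) * τ) fun t _ => ?_).trans_eq ?_)
  · rw [abs_mul, abs_of_pos (by positivity)]
    exact mul_le_mul_of_nonneg_left (k t) (by positivity)
  · simp [mul_assoc]

end Vale.Agent.P057H.H92
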