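import Vale.Agent.P057L.Step
import Vale.Agent.P057H.CstA48

/-! From the weighted excess to an excess on a common progression. -/

set_option linter.all false

open Finset
open scoped BigOperators

namespace Vale.Agent.P057H.C48

open Vale.Agent.P057Z Vale.Agent.P057L

/-- correlation with linear phases forces energy -/
def ENG {j q : ℕ} (Q : ℕ) [Fact Q.Prime] (N T : ℕ) (G : Pt j q → ℤ → ℝ) (Y Z : ℝ) : Prop :=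
  ∀ (ψ : Pt j q → ZMod Q) (U : Finset (Pt j q)) (u : Pt j q → ℂ) (i : Fin j) (l l' : Fin q),
    U ⊆ bp j q N → (∀ W, ‖u W‖ ≤ 1) → Real.exp (-Y) * (N : ℝ) ^ (j * q) ≤
      ‖∑ W ∈ U, u W * 𝔼 s ∈ rg T, (G W s : ℂ) * ch (ψ W * (s : ZMod Q))‖ →
    Real.exp (-Z) ≤ ens ψ U N i l l'

def DG : Prop :=
  ∀ (j D : ℕ), ∃ C : ℕ, ∀ (Y : ℝ) (q N T Q r : ℕ) [Fact Q.Prime]
    (ρ θ ε : ℝ) (G : Pt j q → ℤ → ℝ) (ξ γ : Pt j q → Fin r → ZMod Q) (Ω : Finset (Pt j q)),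
    (C : ℝ) ≤ Y → (q : ℝ) ≤ Y → Y ^ C ≤ Real.log N → 2 * Real.exp (-Y) ≤ ε → ε ≤ 1 →
    (∀ W s, 0 ≤ G W s) → (∀ W ∈ bp j q N, 𝔼 s ∈ rg T, G W s ≤ Real.exp Y) →
    0 ≤ θ → θ ≤ Real.exp Y → ENG Q N T G (Y ^ 3) (Y ^ D) → In1 Y N T ρ θ G ξ γ Ω →
    ∃ (t K0 : ℕ) (b : Fin t → Fin r → ℤ) (Ψ : (Fin r → ZMod Q) → ℝ) (Ω1 : Finset (Pt j q)),
      In2 (Y ^ C) N T K0 ρ ((1 - ε) * θ) G ξ γ b Ψ Ω1 ∧
      ∀ i l l', Pr (fun W (a : Fin t) => cs Q (b a) ⬝ᵥ ξ W) Ω1 i l l'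

def TL : Prop :=
  ∀ (j D : ℕ), ∃ C : ℕ, ∀ (Y : ℝ) (q N T Q r : ℕ) [Fact Q.Prime]
    (ρ θ ε : ℝ) (G : Pt j q → ℤ → ℝ) (ξ γ : Pt j q → Fin r → ZMod Q) (Ω : Finset (Pt j q)),
    (C : ℝ) ≤ Y → 1 ≤ q → (q : ℝ) ≤ Y → Y ^ C ≤ Real.log N → 2 * Real.exp (-Y) ≤ ε → ε ≤ 1 →
    (∀ W s, 0 ≤ G W s) →
    (∀ (W : Pt j q) (o : ℤ) (e n : ℕ), 1 ≤ e → Lg N n (Y ^ C) →
      𝔼 v ∈ rg n, G W (o + e * v) ≤ Real.exp Y) →
    0 ≤ θ → θ ≤ Real.exp Y → ENG Q N T G (Y ^ 3) (Y ^ D) → In1 Y N T ρ θ G ξ γ Ω →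
    ∃ (o : ℤ) (W1 : Pt j q) (d L : ℕ) (Ω5 : Finset (Pt j q)), 1 ≤ d ∧ Lg N L (Y ^ C) ∧
      Dn Ω5 L (Y ^ C) ∧ ∀ w ∈ Ω5, (1 - ε) * θ ≤ 𝔼 v ∈ rg L, G (lc W1 d w) (o + d * v)

theorem tl (hD : DG) (hV : VEC) (hK : ∀ j, KH j 1) (hC : CG) : TL := by
  intro j D
  obtain ⟨C2, hD⟩ := hD j D
  obtain ⟨C3, hV⟩ := hV j
  obtain ⟨C4, hK⟩ := hK j
  obtain ⟨C5, hC⟩ := hC j
  obtain ⟨u3, hu3⟩ : ∃ u, u = (C2 + 1) * C3 := ⟨_, rfl⟩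
  obtain ⟨u4, hu4⟩ : ∃ u, u = (u3 + 1) * C4 := ⟨_, rfl⟩
  obtain ⟨u5, hu5⟩ : ∃ u, u = (u4 + C2 + 1) * C5 := ⟨_, rfl⟩
  refine ⟨C2 + C3 + C4 + C5 + u3 + 2 * u4 + 2 * u5 + 10, ?_⟩
  intro Y q N T Q r _ ρ θ ε G ξ γ Ω hY' hq1 hq hN e0 e1 hG hM t0 t1 hE0 h1
  push_cast at hY'
  have p2 : (0 : ℝ) ≤ C2 := by positivity
  have p3 : (0 : ℝ) ≤ C3 := by positivity
  have p4 : (0 : ℝ) ≤ C4 := by positivity
  have p5 : (0 : ℝ) ≤ C5 := by positivity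
  have p7 : (0 : ℝ) ≤ u3 + 2 * u4 + 2 * u5 := by positivity
  have hY : 2 ≤ Y := by linarith
  have hY1 : 1 ≤ Y := by linarith
  have hY0 : 0 ≤ Y := by linarith
  have hN1 : 1 ≤ N := one_le_of_log (by positivity) hN
  have up : ∀ {x : ℝ} {n : ℕ}, 1 ≤ n → x ≤ Y → x ≤ Y ^ n := fun h hx => hx.trans (le_pw hY1 h)
  have ε0 : 0 ≤ ε := le_trans (by positivity) e0
  obtain ⟨t, K0, b, Ψ, Ω1, h2, hpr⟩ := hD Y q N T Q r ρ θ ε G ξ γ Ω (by linarith) hq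
    ((pw_le hY1 (by omega)).trans hN) e0 e1 hG (fun W _ => by
      have := hM W 0 1 T le_rfl ((lg_of_le hN1 h1.hT hY (le_trans (le_trans (by nlinarith)
        (pw_le hY1 (a := 2) (by omega))) hN) h1.hNT).mono (le_pw hY1 (by omega)))
      simpa using this) t0 t1 hE0 h1
  obtain ⟨E, hE, hED, hEM⟩ := hV (Y ^ (C2 + 1)) q N Q (Fin t) _ Ω1 (up (by omega) (by linarith)) hq1
    (up (by omega) hq) hN1 (h2.hd.mono (pw_le hY1 (by omega))) hpr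
  rw [← pow_mul, ← hu3] at hED
  have hNQ := h1.hNQ
  obtain ⟨W0, d, L, Ω', hd1, hdL, hL, hΩ', hD', hk⟩ := hK (Y ^ (u3 + 1)) q N Q (Fin t) _ E
    (up (by omega) (by linarith)) hq1 (up (by omega) hq)
    (by
      rw [Fintype.card_fin]
      exact le_trans (by exact_mod_cast h2.ht) (up (by omega) h1.hr))
    (by rw [← pow_mul, ← hu4]; exact (pw_le hY1 (by omega)).trans hN) (by omega)
    (hED.mono (pw_le hY1 (by omega))) hEM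
  rw [← pow_mul, ← hu4] at hL hD'
  have ya : Y ≤ Y ^ (u4 + C2 + 1) := le_pw hY1 (by omega)
  have ea : Real.exp Y ≤ Real.exp (Y ^ (u4 + C2 + 1)) := Real.exp_le_exp.2 ya
  have lg : ∀ L' : ℕ, 1 ≤ L' → (L : ℝ) ≤ L' * Real.exp (Y ^ u5) →
      Lg N L' (Y ^ (C2 + C3 + C4 + C5 + u3 + 2 * u4 + 2 * u5 + 10)) := fun L' hL' hLL' => by
    have b1 : Y ^ (u5 + 1) ≤ Real.log L := hL.big hY1 hN (by omega)
    refine (hL.trans (lg_of_le hL.1 hL' hY ((mul_pw_le hY0 hY u5).trans b1) hLL')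
      (by positivity)).mono ?_
    rw [← pow_succ]; exact pw_le hY1 (by omega)
  obtain ⟨o, W1, d', L', Ω5, hd', hL', hLL', hD5, h5⟩ := hC (Y ^ (u4 + C2 + 1)) q N T Q r t K0 d L ρ _
    _ ξ γ b Ψ Ω1 Ω' W0 (up (by omega) (by linarith)) (up (by omega) hq) (h1.hr.trans ya)
    (by rw [← pow_mul, ← hu5]; exact hL.big hY1 hN (by omega))
    ((Real.exp_le_exp.2 (neg_le_neg ya)).trans h1.hρ) h1.hT
    (h1.hNT.trans (by gcongr)) hG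
    (fun W o e L' he hL' hLL' => by
      rw [← pow_mul, ← hu5] at hLL'
      exact (hM W o e L' he (lg L' hL' hLL')).trans ea)
    (mul_nonneg (by linarith) t0) (le_trans (by nlinarith) (t1.trans ea))
    (h2.mono (pw_le hY1 (by omega))) hd1 hdL
    (fun w hw => mem_pre.2 ⟨(mem_pre.1 (hΩ' hw)).1, hE (mem_pre.1 (hΩ' hw)).2⟩)
    (hD'.mono (pw_le hY1 (by omega))) (fun w hw a => by simpa using hk w hw a)
  rw [← pow_mul, ← hu5] at hLL' hD5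
  exact ⟨o, W1, d', L', Ω5, hd', lg L' hL' hLL', hD5.mono (pw_le hY1 (by omega)), h5⟩

end Vale.Agent.P057H.C48
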