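import Vale.Agent.P057L.Win

/-! From an excess on the cyclic group to an excess at all points of a dense set in a box. -/

set_option linter.all false

open Finset
open scoped BigOperators Classical

namespace Vale.Agent.P057H.WnG

open Vale.Agent.P057L

theorem shift {X T : Type} [AddCommGroup X] [Fintype X] (s : Finset T) (hs : s.Nonempty)
    (e : T → X) (Φ : X → ℝ) : ∃ c, 𝔼 x, Φ x ≤ 𝔼 t ∈ s, Φ (c + e t) := by
  refine (exists_le_of_expect_le_expect (s := univ) univ_nonempty (g := fun _ : X => 𝔼 x, Φ x)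
    (f := fun c => 𝔼 t ∈ s, Φ (c + e t)) (le_of_eq ?_)).imp fun _ h => h.2
  rw [expect_const univ_nonempty, expect_comm]
  exact ((expect_congr rfl fun t _ =>
    Fintype.expect_equiv (Equiv.addRight (e t)) _ Φ fun _ => rfl).trans (expect_const hs _)).symm

theorem lift {M : ℕ} [NeZero M] {T D : ℕ} (h : T + D ≤ M) {f : ℤ → ℝ} (hf : ∀ x, 0 ≤ f x)
    {g : ZMod M → ℝ} (hg : ∀ x, g x ≤ 0 ∨ (x.val < T ∧ g x ≤ f x.val)) (c : ZMod M) :
    ∃ x0 : ℤ, ∀ s : ℤ, 0 ≤ s → s < D → g (c + s) ≤ f (x0 + s) := by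
  have c0 := ZMod.val_lt c
  refine ⟨if c.val < T then c.val else c.val - M, fun s s0 s1 => ?_⟩
  rcases hg (c + s) with k | ⟨k1, k2⟩
  · exact k.trans (hf _)
  refine k2.trans (le_of_eq (congrArg f ?_))
  have e : (((c + s).val : ℤ) : ZMod M) = ((c.val + s : ℤ) : ZMod M) := by simp
  obtain ⟨t, ht⟩ := (ZMod.intCast_eq_intCast_iff_dvd_sub _ _ _).1 e
  have M0 : (0 : ℤ) < M := by omega
  have t0 : -1 < t := by
    refine lt_of_mul_lt_mul_left (a := (M : ℤ)) ?_ M0.le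
    omega
  have t2 : t < 2 := by
    refine lt_of_mul_lt_mul_left (a := (M : ℤ)) ?_ M0.le
    omega
  obtain rfl | rfl : t = 0 ∨ t = 1 := by omega
  · split_ifs <;> omega
  · split_ifs <;> omega

theorem pop {P α : Type} [Fintype α] (s : Finset P) (hs : s.Nonempty) (φ : P → ℝ) (a : P → α)
    {ε Λ : ℝ} (hε : 0 ≤ ε) (hφ : ∀ p ∈ s, φ p ≤ Λ) (h : ε ≤ 𝔼 p ∈ s, φ p) :
    ∃ a0, ε * s.card ≤ 2 * Λ * Fintype.card α *
      (s.filter fun p => ε / 2 ≤ φ p ∧ a p = a0).card := by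
  have c0 : (0 : ℝ) < s.card := Nat.cast_pos.2 hs.card_pos
  have Λ0 : 0 ≤ Λ := hε.trans (h.trans (expect_le hs hφ))
  rw [expect_eq_sum_div_card, le_div_iff₀ c0] at h
  have a1 : ∑ p ∈ s, φ p ≤ (s.filter fun p => ε / 2 ≤ φ p).card * Λ + s.card * (ε / 2) := by
    rw [← nsmul_eq_mul, ← nsmul_eq_mul, ← sum_const, ← sum_const, sum_filter, ← sum_add_distrib]
    refine sum_le_sum fun p hp => ?_
    split_ifs with k
    · linarith [hφ p hp]
    · linarith [not_le.1 k]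
  haveI : Nonempty α := ⟨a hs.choose⟩
  have d0 : (0 : ℝ) < Fintype.card α := Nat.cast_pos.2 Fintype.card_pos
  obtain ⟨a0, -, k⟩ := exists_le_card_fiber_of_nsmul_le_card_of_maps_to
    (s := s.filter fun p => ε / 2 ≤ φ p) (f := a) (t := univ)
    (b := ((s.filter fun p => ε / 2 ≤ φ p).card : ℝ) / Fintype.card α) (fun _ _ => mem_univ _)
    univ_nonempty (by rw [nsmul_eq_mul, card_univ, mul_div_cancel₀ _ d0.ne'])
  rw [filter_filter, div_le_iff₀ d0] at k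
  exact ⟨a0, by nlinarith [mul_le_mul_of_nonneg_right k Λ0]⟩

/-- **windows** -/
theorem wnd {M : ℕ} [NeZero M] {j L T : ℕ} (hL : 1 ≤ L) (hM : T + (j + 2) * L ≤ M) {f : ℤ → ℝ}
    (hf : ∀ x, 0 ≤ f x) {g : ZMod M → ℝ} (hg : ∀ x, g x ≤ 0 ∨ (x.val < T ∧ g x ≤ f x.val))
    {α β γ ι : Type} [Fintype α] (S : ι → Finset (Fin j))
    (a : (Fin j → ZMod M) → ZMod M → α) (b : (Fin j → ZMod M) → ZMod M → β)
    (U : ι → ZMod M → γ) (F : α → β → (ι → γ) → Prop) {lam ε Λ : ℝ} (hl : 0 ≤ lam) (hε : 0 ≤ ε)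
    (hP : ∀ o : ℤ, 𝔼 v ∈ rg L, f (o + v) ≤ Λ)
    (h : ε ≤ 𝔼 x : (Fin j → ZMod M) × ZMod M × ZMod M,
      if F (a x.1 x.2.1) (b x.1 x.2.2) (fun i => U i (∑ l ∈ S i, x.1 l + x.2.1 + x.2.2)) then
        g (∑ l, x.1 l + x.2.1 + x.2.2) - lam else 0) :
    ∃ (x0 : ℤ) (Ω : Finset ((Fin j → ℤ) × ℤ)) (B : (Fin j → ℤ) → ℤ → β) (U' : ι → ℤ → γ)
      (F' : β → (ι → γ) → Prop), Ω ⊆ (Fintype.piFinset fun _ => rg L) ×ˢ rg L ∧
      ε * (L : ℝ) ^ (j + 1) ≤ 2 * Λ * Fintype.card α * Ω.card ∧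
      ∀ p ∈ Ω, ε / 2 ≤ 𝔼 v ∈ rg L,
        if F' (B p.1 v) (fun i => U' i (∑ l ∈ S i, p.1 l + p.2 + v)) then
          f (x0 + (∑ l, p.1 l + p.2 + v)) - lam else 0 := by
  have r0 : (rg L).Nonempty := by
    rw [← card_pos, Win.c1]
    exact hL
  have p0 : ((Fintype.piFinset fun _ : Fin j => rg L) ×ˢ rg L).Nonempty :=
    (Fintype.piFinset_nonempty.2 fun _ => r0).product r0
  obtain ⟨c, hc⟩ := shift (((Fintype.piFinset fun _ : Fin j => rg L) ×ˢ rg L) ×ˢ rg L)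
    (p0.product r0) (fun t => ((fun l => (t.1.1 l : ZMod M), (t.1.2 : ZMod M), (t.2 : ZMod M)) :
      (Fin j → ZMod M) × ZMod M × ZMod M)) fun x =>
      if F (a x.1 x.2.1) (b x.1 x.2.2) (fun i => U i (∑ l ∈ S i, x.1 l + x.2.1 + x.2.2)) then
        g (∑ l, x.1 l + x.2.1 + x.2.2) - lam else 0
  obtain ⟨x0, hx⟩ := lift hM hf hg (∑ l, c.1 l + c.2.1 + c.2.2)
  rw [expect_product] at hc
  let A : (Fin j → ℤ) × ℤ → α := fun p => a (c.1 + fun l => (p.1 l : ZMod M)) (c.2.1 + p.2)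
  let B : (Fin j → ℤ) → ℤ → β := fun W v => b (c.1 + fun l => (W l : ZMod M)) (c.2.2 + v)
  let U' : ι → ℤ → γ := fun i z => U i (∑ l ∈ S i, c.1 l + c.2.1 + c.2.2 + z)
  let φ : (Fin j → ℤ) × ℤ → ℝ := fun p => 𝔼 v ∈ rg L,
    if F (A p) (B p.1 v) (fun i => U' i (∑ l ∈ S i, p.1 l + p.2 + v)) then
      f (x0 + (∑ l, p.1 l + p.2 + v)) - lam else 0
  have e : ∀ (s : Finset (Fin j)) (p : (Fin j → ℤ) × ℤ) (v : ℤ),
      ∑ l ∈ s, (c.1 l + (p.1 l : ZMod M)) + (c.2.1 + p.2) + (c.2.2 + v) =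
        ∑ l ∈ s, c.1 l + c.2.1 + c.2.2 + ((∑ l ∈ s, p.1 l + p.2 + v : ℤ) : ZMod M) := by
    intro s p v
    rw [sum_add_distrib]
    push_cast
    ring
  obtain ⟨a0, k⟩ := pop _ p0 φ A hε (Λ := Λ) (fun p _ => by
    refine (expect_le_expect fun v _ => ?_).trans (hP (x0 + (∑ l, p.1 l + p.2)))
    have := hf (x0 + (∑ l, p.1 l + p.2) + v)
    rw [← add_assoc]
    split_ifs <;> linarith)
    ((h.trans hc).trans (expect_le_expect fun p hp => expect_le_expect fun v hv => by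
      obtain ⟨h1, h2⟩ := mem_product.1 hp
      have h3 := fun l => mem_Ico.1 (Fintype.mem_piFinset.1 h1 l)
      have h4 := mem_Ico.1 h2
      have h5 := mem_Ico.1 hv
      have h6 : 0 ≤ ∑ l, p.1 l := sum_nonneg fun l _ => (h3 l).1
      have h7 : ∑ l, p.1 l ≤ j * L := by
        simpa using sum_le_card_nsmul univ _ (L : ℤ) fun l _ => (h3 l).2.le
      have h8 := hx (∑ l, p.1 l + p.2 + v) (by linarith [h4.1, h5.1])
        (by push_cast; linarith [h4.2, h5.2])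
      simp only [Prod.fst_add, Prod.snd_add, Pi.add_apply, e]
      show (if F (A p) (B p.1 v) (fun i => U' i (∑ l ∈ S i, p.1 l + p.2 + v)) then _ else _) ≤ _
      split_ifs <;> linarith))
  rw [card_product, Win.cp, Win.c1, Nat.cast_mul, Nat.cast_pow, ← pow_succ] at k
  refine ⟨x0, _, B, U', F a0, filter_subset _ _, k, fun p hp => ?_⟩
  obtain ⟨-, h1, rfl⟩ := mem_filter.1 hp
  exact h1

end Vale.Agent.P057H.WnG
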