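import Vale.Agent.P057H.Defs
import Vale.Agent.P057H.WnG

/-! From the cyclic group to a box. -/

set_option linter.all false

open Finset
open scoped BigOperators Classical

namespace Vale.Agent.P057H

open Vale.Agent.P057Z Vale.Agent.P057L

theorem wnd : WND := by
  intro j M M0 L n _ f x0 lam lam' δ m hL hM hf hl hl' hm hP hδ hn ⟨A, B, Υ, F, hT, h⟩
  have m0 : 0 < m := by linarith
  have δ0 : 0 < δ := (mul_pos_iff_of_pos_right m0).1 (by linarith)
  obtain ⟨x1, Ω, B', U', F', h1, h2, h3⟩ := WnG.wnd (f := fun z => f (x0 + z))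
    (g := per f x0 M0 M) hL hM (fun _ => hf _)
    (fun x => by
      unfold per
      split_ifs with k
      · exact Or.inr ⟨k, le_rfl⟩
      · exact Or.inl le_rfl)
    (ι := {S : Finset (Fin j) // S ≠ univ}) Subtype.val A B (fun i => Υ i.1)
    (fun a b u => F a b fun S => if k : S = univ then Υ univ 0 else u ⟨S, k⟩) hl δ0.le
    (Λ := lam') (fun o => by simpa only [add_assoc] using hP (x0 + o))
    (h.trans (le_of_eq (expect_congr rfl fun ω _ => by
      have e : (fun S => Υ S (sc S ω)) = fun S => if S = univ then Υ univ 0 else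
          Υ S (∑ l ∈ S, ω.1 l + ω.2.1 + ω.2.2) := funext fun S => by
        split_ifs with k
        · rw [k]
          exact hT _ _
        · rfl
      simp only [e, dite_eq_ite]
      rfl)))
  have c : (Fintype.card (Fin n → Bool) : ℝ) = 2 ^ n := by simp
  have p2 : (0 : ℝ) < 2 ^ n := by positivity
  have c' : (Fintype.card (Fin n → Bool) : ℝ) ≤ Real.exp m := by
    rw [c]
    refine le_trans ?_ hn
    rw [mul_assoc]
    exact le_mul_of_one_le_right p2.le (one_le_mul_of_one_le_of_one_le hm hl')
  refine ⟨x0 + x1, Fin n → Bool, Fin n → Bool, inferInstance, inferInstance,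
    Ω.image fun p => (fun i _ => p.1 i, p.2), fun W => B' fun i => W i 0,
    fun S z => if k : S = univ then fun _ => true else U' ⟨S, k⟩ z,
    fun b u => F' b fun i => u i.1, c', c', fun x x' => by simp, fun p hp => ?_, ?_,
    fun p hp => ?_⟩
  · obtain ⟨q, hq, rfl⟩ := mem_image.1 hp
    obtain ⟨a, b⟩ := mem_product.1 (h1 hq)
    exact mem_product.2 ⟨Fintype.mem_piFinset.2 fun i => Fintype.mem_piFinset.2 fun _ =>
      Fintype.mem_piFinset.1 a i, b⟩
  · have inj : Function.Injective fun p : (Fin j → ℤ) × ℤ =>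
        ((fun i _ => p.1 i, p.2) : Pt j 1 × ℤ) := fun p q e => by
      obtain ⟨e1, e2⟩ := Prod.mk.inj e
      exact Prod.ext (funext fun i => congrFun (congrFun e1 i) 0) e2
    rw [card_image_of_injective _ inj, Real.exp_neg, inv_mul_le_iff₀ (Real.exp_pos _)]
    rw [c] at h2
    have a0 : (0 : ℝ) ≤ Ω.card := Nat.cast_nonneg _
    have a1 : (0 : ℝ) ≤ (L : ℝ) ^ (j + 1) := by positivity
    nlinarith [mul_le_mul_of_nonneg_right hn a0, mul_le_mul_of_nonneg_right hδ a1,
      mul_le_mul_of_nonneg_right h2 m0.le]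
  · obtain ⟨q, hq, rfl⟩ := mem_image.1 hp
    refine le_trans ?_ ((h3 q hq).trans (le_of_eq (expect_congr rfl fun v _ => ?_)))
    · rw [div_le_div_iff₀ m0 two_pos]
      linarith
    · have e : (fun i : {S : Finset (Fin j) // S ≠ univ} => lb (fun S z => if k : S = univ then
          fun _ => true else U' ⟨S, k⟩ z) (fun i (_ : Fin 1) => q.1 i) (q.2 + v) i.1) =
          fun i => U' i (∑ l ∈ i.1, q.1 l + q.2 + v) := funext fun i => by
        simp only [lb, ss, dif_neg i.2, add_assoc]
      simp only [e, ss, add_assoc]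

end Vale.Agent.P057H
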